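import Mathlib

/-! Functions of a string that are expectations of bounded statistics of its trace. -/

namespace Vale.Agent.P321

open Complex

def InD (K : ℝ) (z : ℂ) : Prop :=
  ∃ α ξ : ℝ, K * ξ ^ 2 ≤ α ∧ α ≤ 1 / K ∧ z = cexp (-α + ξ * I)

lemma InD.norm_le {K : ℝ} (hK : 0 < K) {z : ℂ} (h : InD K z) : ‖z‖ ≤ 1 := by
  obtain ⟨α, ξ, h1, _, rfl⟩ := h
  have : 0 ≤ α := le_trans (by positivity) h1
  rw [Complex.norm_exp]
  simp [this]

lemma InD.mono {K K' : ℝ} (hK' : 0 < K') (hKK : K' ≤ K) {z : ℂ} (h : InD K z) : InD K' z := by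
  obtain ⟨α, ξ, h1, h2, rfl⟩ := h
  exact ⟨α, ξ, le_trans (by nlinarith [sq_nonneg ξ]) h1,
    h2.trans (one_div_le_one_div_of_le hK' hKK), rfl⟩

lemma InD.mul {K : ℝ} (hK : 0 < K) {z z' : ℂ} (h : InD K z) (h' : InD K z') :
    InD (K / 2) (z * z') := by
  obtain ⟨α, ξ, h1, h2, rfl⟩ := h
  obtain ⟨α', ξ', h1', h2', rfl⟩ := h'
  refine ⟨α + α', ξ + ξ', by nlinarith [mul_nonneg hK.le (sq_nonneg (ξ - ξ'))], ?_, ?_⟩
  · have : 1 / (K / 2) = 1 / K + 1 / K := by field_simp; ring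
    linarith
  · rw [← Complex.exp_add]; congr 1; push_cast; ring

lemma InD.conj {K : ℝ} {z : ℂ} (h : InD K z) : InD K (starRingEnd ℂ z) := by
  obtain ⟨α, ξ, h1, h2, rfl⟩ := h
  refine ⟨α, -ξ, by simpa using h1, h2, ?_⟩
  rw [← Complex.exp_conj]; congr 1; simp

lemma inD_one {K : ℝ} (hK : 0 < K) : InD K 1 := ⟨0, 0, by simp, by positivity, by simp⟩

inductive Adm (K : ℝ) : ℕ → ℝ → (List Bool → ℂ) → Prop
  | zero (h : ℕ) (B : ℝ) : 0 ≤ B → Adm K h B 0
  | add {h : ℕ} {B B' : ℝ} {Φ Φ' : List Bool → ℂ} :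
      Adm K h B Φ → Adm K h B' Φ' → Adm K h (B + B') (Φ + Φ')
  | smul {h : ℕ} {B : ℝ} {Φ : List Bool → ℂ} (c : ℂ) : Adm K h B Φ → Adm K h (‖c‖ * B) (c • Φ)
  | mono {h h' : ℕ} {B B' : ℝ} {Φ : List Bool → ℂ} :
      h ≤ h' → B ≤ B' → Adm K h B Φ → Adm K h' B' Φ
  | step {h : ℕ} {B : ℝ} {Φ : List Bool → ℂ} (z : ℂ) (Ψ : Bool → List Bool → ℂ) :
      InD K z → ‖Φ []‖ ≤ B → (∀ b, Adm K h B (Ψ b)) →
      (∀ b x, Φ (b :: x) = z * Φ x + Ψ b x) → Adm K (h + 1) B Φ

lemma Adm.nonneg {K : ℝ} {h : ℕ} {B : ℝ} {Φ : List Bool → ℂ} (H : Adm K h B Φ) : 0 ≤ B := by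
  induction H with
  | zero _ _ h => exact h
  | add _ _ h1 h2 => linarith
  | smul c _ h => positivity
  | mono _ h2 _ h => linarith
  | step _ _ _ h _ _ _ => exact (norm_nonneg _).trans h

lemma Adm.congr {K : ℝ} {h : ℕ} {B : ℝ} {Φ Φ' : List Bool → ℂ} (H : Adm K h B Φ)
    (e : ∀ x, Φ' x = Φ x) : Adm K h B Φ' := by
  rw [show Φ' = Φ from funext e]; exact H

lemma Adm.monoK {K K' : ℝ} (hK' : 0 < K') (hKK : K' ≤ K) {h : ℕ} {B : ℝ} {Φ : List Bool → ℂ}
    (H : Adm K h B Φ) : Adm K' h B Φ := by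
  induction H with
  | zero h B hB => exact .zero h B hB
  | add _ _ h1 h2 => exact h1.add h2
  | smul c _ h => exact h.smul c
  | mono h1 h2 _ h => exact h.mono h1 h2
  | step z Ψ hz h0 _ hr ih => exact .step z Ψ (hz.mono hK' hKK) h0 ih hr

lemma Adm.conj {K : ℝ} {h : ℕ} {B : ℝ} {Φ : List Bool → ℂ} (H : Adm K h B Φ) :
    Adm K h B fun x => starRingEnd ℂ (Φ x) := by
  induction H with
  | zero h B hB => exact (Adm.zero h B hB).congr fun x => by simp
  | add _ _ h1 h2 => exact (h1.add h2).congr fun x => by simp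
  | smul c _ h =>
    have := h.smul (starRingEnd ℂ c)
    rw [Complex.norm_conj] at this
    exact this.congr fun x => by simp
  | mono h1 h2 _ h => exact h.mono h1 h2
  | step z Ψ hz h0 _ hr ih =>
    exact .step (starRingEnd ℂ z) (fun b x => starRingEnd ℂ (Ψ b x)) hz.conj (by simpa using h0)
      ih fun b x => by simp [hr]

lemma Adm.smul_le {K : ℝ} {h : ℕ} {B : ℝ} {Φ : List Bool → ℂ} (H : Adm K h B Φ) {c : ℂ}
    (hc : ‖c‖ ≤ 1) : Adm K h B (c • Φ) :=
  (H.smul c).mono le_rfl (mul_le_of_le_one_left H.nonneg hc)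

lemma adm_const {K : ℝ} (hK : 0 < K) (c : ℂ) : Adm K 1 ‖c‖ fun _ => c :=
  .step 1 (fun _ => 0) (inD_one hK) le_rfl (fun _ => .zero 0 _ (norm_nonneg c)) fun _ _ => by simp

lemma Adm.mul {K : ℝ} (hK : 0 < K) {h : ℕ} {B : ℝ} {Φ : List Bool → ℂ} (H : Adm K h B Φ) :
    ∀ {h' : ℕ} {B' : ℝ} {Φ' : List Bool → ℂ}, Adm K h' B' Φ' →
      Adm (K / 2) (h + h') (3 ^ (h + h') * B * B') (Φ * Φ') := by
  induction H with
  | zero h B hB =>
    intro h' B' Φ' H'
    rw [zero_mul]
    exact .zero _ _ (by have := H'.nonneg; positivity)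
  | add _ _ h1 h2 =>
    intro h' B' Φ' H'
    rw [add_mul]
    exact ((h1 H').add (h2 H')).mono le_rfl (le_of_eq (by ring))
  | smul c _ h =>
    intro h' B' Φ' H'
    rw [smul_mul_assoc]
    exact ((h H').smul c).mono le_rfl (le_of_eq (by ring))
  | @mono h0 h1 B0 B1 Φ hh hB H0 ih =>
    intro h' B' Φ' H'
    refine (ih H').mono (by omega) ?_
    have := H'.nonneg
    have := H0.nonneg
    gcongr
    · norm_num
  | @step h B Φ z Ψ hz h0 hΨ hr ih =>
    intro h' B' Φ' H'
    have hB : 0 ≤ B := (norm_nonneg _).trans h0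
    induction H' with
    | zero h' B' hB' =>
      rw [mul_zero]
      exact .zero _ _ (by positivity)
    | add _ _ h1 h2 =>
      have h3 := h1.add h2
      rw [mul_add Φ]
      exact h3.mono le_rfl (le_of_eq (by ring))
    | smul c _ h =>
      rw [mul_smul_comm]
      exact (h.smul c).mono le_rfl (le_of_eq (by ring))
    | @mono h0' h1' B0 B1 Φ' hh hB' H0 ih' =>
      refine ih'.mono (by omega) ?_
      have := H0.nonneg
      gcongr
      · norm_num
    | @step h' B' Φ' z' Ψ' hz' h0' hΨ' hr' ih' =>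
      have hB' : 0 ≤ B' := (norm_nonneg _).trans h0'
      have e : h + 1 + (h' + 1) = (h + 1 + h') + 1 := by omega
      rw [e]
      have h3 : (1 : ℝ) ≤ 3 ^ (h + 1 + h' + 1) := one_le_pow₀ (by norm_num)
      refine .step (z * z') (fun b => z • (Φ * Ψ' b) + z' • (Ψ b * Φ') + Ψ b * Ψ' b)
        (hz.mul hK hz') ?_ (fun b => ?_) (fun b x => ?_)
      · rw [Pi.mul_apply, norm_mul, mul_assoc]
        exact (mul_le_mul h0 h0' (norm_nonneg _) hB).trans
          (le_mul_of_one_le_left (by positivity) h3)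
      · have a1 := (ih' b).smul_le (hz.norm_le hK)
        have a2 := (ih b (Adm.step z' Ψ' hz' h0' hΨ' hr')).smul_le (hz'.norm_le hK)
        have a3 := ih b (hΨ' b)
        have e2 : h + (h' + 1) = h + 1 + h' := by omega
        rw [e2] at a2
        refine ((a1.add a2).add (a3.mono (h' := h + 1 + h') (B' := 3 ^ (h + 1 + h') * B * B')
          (by omega) ?_)).mono le_rfl (le_of_eq (by ring))
        gcongr
        · norm_num
        · omega
      · simp only [Pi.mul_apply, Pi.add_apply, Pi.smul_apply, smul_eq_mul, hr, hr']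
        ring

/-- expectation of a statistic of the trace -/
noncomputable def Ex (q : ℝ) : List Bool → (List Bool → ℂ) → ℂ
  | [], f => f []
  | b :: x, f => q * Ex q x f + (1 - q) * Ex q x fun t => f (b :: t)

lemma Ex_add (q : ℝ) (x : List Bool) (f g : List Bool → ℂ) :
    Ex q x (fun t => f t + g t) = Ex q x f + Ex q x g := by
  induction x generalizing f g with
  | nil => rfl
  | cons b x ih => simp only [Ex, ih]; ring

lemma Ex_mul (q : ℝ) (x : List Bool) (c : ℂ) (f : List Bool → ℂ) :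
    Ex q x (fun t => c * f t) = c * Ex q x f := by
  induction x generalizing f with
  | nil => rfl
  | cons b x ih => simp only [Ex, ih]; ring

noncomputable def stat (w v : ℂ) (g : Bool → List Bool → ℂ) : List Bool → ℂ
  | [] => v
  | b :: t => w * stat w v g t + g b t

lemma InD.disc {q K : ℝ} (hq : 0 < q) (hq1 : q < 1) (hK1 : q / (1 - q) ≤ K)
    (hK2 : 1 / K ≤ -Real.log q) {z : ℂ} (h : InD K z) : ‖z - q‖ ≤ 1 - q := by
  obtain ⟨α, ξ, h1, h2, rfl⟩ := h
  have hp : 0 < 1 - q := by linarith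
  have hK : 0 < K := lt_of_lt_of_le (by positivity) hK1
  have hα : 0 ≤ α := le_trans (by positivity) h1
  set r := Real.exp (-α) with hr
  have hr0 : 0 < r := Real.exp_pos _
  have hrq : q ≤ r := by
    rw [hr, ← Real.exp_log hq]; exact Real.exp_le_exp.2 (by linarith)
  have hr1 : α * r ≤ 1 - r := by
    have := Real.add_one_le_exp α
    have e : Real.exp α * r = 1 := by rw [hr, ← Real.exp_add]; simp
    nlinarith
  have hc := Real.one_sub_sq_div_two_le_cos (x := ξ)
  have hξ : q * ξ ^ 2 ≤ α * (1 - q) := by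
    have : q ≤ K * (1 - q) := by rwa [div_le_iff₀ hp] at hK1
    nlinarith [sq_nonneg ξ]
  have e : ‖cexp (-α + ξ * I) - q‖ ^ 2 = r ^ 2 - 2 * r * q * Real.cos ξ + q ^ 2 := by
    rw [Complex.sq_norm, Complex.normSq_apply]
    simp only [Complex.sub_re, Complex.exp_re, Complex.sub_im, Complex.exp_im]
    simp [hr]
    nlinarith [Real.sin_sq_add_cos_sq ξ]
  refine abs_le_of_sq_le_sq' ?_ hp.le |>.2
  rw [e]
  have b1 : r * (q * ξ ^ 2) ≤ r * (α * (1 - q)) := mul_le_mul_of_nonneg_left hξ hr0.le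
  have b2 : α * r * (1 - q) ≤ (1 - r) * (1 - q) := mul_le_mul_of_nonneg_right hr1 hp.le
  have b3 : (1 - r) * (1 - q) ≤ (1 - r) * (1 + r - 2 * q) :=
    mul_le_mul_of_nonneg_left (by linarith) (by nlinarith)
  have b4 : r * q * (1 - ξ ^ 2 / 2) ≤ r * q * Real.cos ξ :=
    mul_le_mul_of_nonneg_left hc (by positivity)
  nlinarith

theorem Adm.access {q K : ℝ} (hq : 0 < q) (hq1 : q < 1) (hK1 : q / (1 - q) ≤ K)
    (hK2 : 1 / K ≤ -Real.log q) {h : ℕ} {B : ℝ} {Φ : List Bool → ℂ} (H : Adm K h B Φ) :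
    ∃ f : List Bool → ℂ, (∀ x, Ex q x f = Φ x) ∧
      ∀ t, ‖f t‖ ≤ B * (1 + t.length / (1 - q)) ^ h := by
  have hp : 0 < 1 - q := by linarith
  induction H with
  | zero h B hB =>
    refine ⟨fun t => 0 * 0, fun x => by rw [Ex_mul]; simp, fun t => ?_⟩
    simp only [mul_zero, norm_zero]; positivity
  | add _ _ h1 h2 =>
    obtain ⟨f, hf, hf'⟩ := h1
    obtain ⟨g, hg, hg'⟩ := h2
    refine ⟨fun t => f t + g t, fun x => by rw [Ex_add, hf, hg]; rfl, fun t => ?_⟩
    rw [add_mul]; exact (norm_add_le _ _).trans (add_le_add (hf' t) (hg' t))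
  | smul c _ h1 =>
    obtain ⟨f, hf, hf'⟩ := h1
    refine ⟨fun t => c * f t, fun x => by rw [Ex_mul, hf]; rfl, fun t => ?_⟩
    rw [norm_mul, mul_assoc]; exact mul_le_mul_of_nonneg_left (hf' t) (norm_nonneg c)
  | mono hh hB H0 h1 =>
    obtain ⟨f, hf, hf'⟩ := h1
    refine ⟨f, hf, fun t => (hf' t).trans ?_⟩
    have := H0.nonneg
    have h1 : (1 : ℝ) ≤ 1 + t.length / (1 - q) := le_add_of_nonneg_right (by positivity)
    exact mul_le_mul hB (pow_le_pow_right₀ h1 hh) (by positivity) (by linarith)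
  | @step h B Φ z Ψ hz h0 hΨ hr ih =>
    choose g hg hg' using ih
    have hB : 0 ≤ B := (norm_nonneg _).trans h0
    have hpc : ((1 : ℂ) - q) ≠ 0 := by exact_mod_cast hp.ne'
    have hw : ‖(z - q) / (1 - q)‖ ≤ 1 := by
      rw [norm_div, show ‖(1 : ℂ) - q‖ = 1 - q from by
        rw [← Complex.ofReal_one, ← Complex.ofReal_sub, Complex.norm_real, Real.norm_eq_abs,
          abs_of_pos hp], div_le_one hp]
      exact hz.disc hq hq1 hK1 hK2
    refine ⟨stat ((z - q) / (1 - q)) (Φ []) fun b t => (1 - q : ℂ)⁻¹ * g b t, fun x => ?_,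
      fun t => ?_⟩
    · induction x with
      | nil => rfl
      | cons b x ihx =>
        simp only [Ex, stat]
        rw [Ex_add, Ex_mul, Ex_mul, ihx, hg, hr]
        field_simp
        ring
    · have key : ∀ t : List Bool, ‖stat ((z - q) / (1 - q)) (Φ [])
          (fun b t => (1 - q : ℂ)⁻¹ * g b t) t‖ ≤
          B + t.length / (1 - q) * (B * (1 + t.length / (1 - q)) ^ h) := by
        intro t
        induction t with
        | nil => simpa [stat] using h0
        | cons b t iht =>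
          simp only [stat, List.length_cons]
          refine (norm_add_le _ _).trans ?_
          rw [norm_mul, norm_mul, norm_inv, show ‖(1 : ℂ) - q‖ = 1 - q from by
            rw [← Complex.ofReal_one, ← Complex.ofReal_sub, Complex.norm_real, Real.norm_eq_abs,
              abs_of_pos hp]]
          have a1 := mul_le_of_le_one_left (norm_nonneg (stat ((z - q) / (1 - q)) (Φ [])
            (fun b t => (1 - q : ℂ)⁻¹ * g b t) t)) hw
          have a2 : (1 - q)⁻¹ * ‖g b t‖ ≤ (1 - q)⁻¹ * (B * (1 + t.length / (1 - q)) ^ h) :=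
            mul_le_mul_of_nonneg_left (hg' b t) (by positivity)
          have a3 : B * (1 + (t.length : ℝ) / (1 - q)) ^ h ≤
              B * (1 + ((t.length + 1 : ℕ) : ℝ) / (1 - q)) ^ h := by
            gcongr; omega
          have a4 : ((t.length : ℝ) + 1) / (1 - q) * (B * (1 + t.length / (1 - q)) ^ h) ≤
              ((t.length : ℝ) + 1) / (1 - q) * (B * (1 + ((t.length + 1 : ℕ) : ℝ) / (1 - q)) ^ h) :=
            mul_le_mul_of_nonneg_left a3 (by positivity)
          have a5 : ((t.length : ℝ) + 1) / (1 - q) * (B * (1 + t.length / (1 - q)) ^ h) =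
              t.length / (1 - q) * (B * (1 + t.length / (1 - q)) ^ h) +
              (1 - q)⁻¹ * (B * (1 + t.length / (1 - q)) ^ h) := by ring
          push_cast at a4 ⊢
          linarith
      refine (key t).trans ?_
      have h1 : (1 : ℝ) ≤ (1 + t.length / (1 - q)) ^ h :=
        one_le_pow₀ (le_add_of_nonneg_right (by positivity))
      rw [pow_succ]
      nlinarith [mul_le_mul_of_nonneg_left h1 hB]

end Vale.Agent.P321
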