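import Mathlib

/-! The three point test: an approximate Cauchy equation on a dense set of frequencies. -/

namespace Vale.Agent.P321

open Complex MeasureTheory

lemma exists_avoid {Bad : Set ℝ} {Ω : ℝ} (hΩ : 0 < Ω) (hB : volume Bad < ENNReal.ofReal (Ω / 5))
    (t1 t2 t3 t4 : ℝ) : ∃ σ : ℝ, |σ| ≤ Ω / 2 ∧ σ ∉ Bad ∧ t1 - σ ∉ Bad ∧ t2 - σ ∉ Bad ∧
      t3 - σ ∉ Bad ∧ t4 - σ ∉ Bad := by
  by_contra hcon
  have hsub : Set.Icc (-(Ω / 2)) (Ω / 2) ⊆ Bad ∪ (fun σ => t1 - σ) ⁻¹' Bad ∪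
      (fun σ => t2 - σ) ⁻¹' Bad ∪ (fun σ => t3 - σ) ⁻¹' Bad ∪ (fun σ => t4 - σ) ⁻¹' Bad := by
    intro σ hσ
    by_contra h
    simp only [Set.mem_union, Set.mem_preimage, not_or] at h
    exact hcon ⟨σ, abs_le.2 hσ, h.1.1.1.1, h.1.1.1.2, h.1.1.2, h.1.2, h.2⟩
  have hp : ∀ t : ℝ, volume ((fun σ => t - σ) ⁻¹' Bad) = volume Bad := by
    intro t
    have : (fun σ => t - σ) ⁻¹' Bad = -((fun σ => t + σ) ⁻¹' Bad) := by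
      ext σ; simp [sub_eq_add_neg]
    rw [this, Measure.measure_neg, measure_preimage_add]
  have h1 := measure_mono (μ := volume) hsub
  have h2 : volume (Bad ∪ (fun σ => t1 - σ) ⁻¹' Bad ∪
      (fun σ => t2 - σ) ⁻¹' Bad ∪ (fun σ => t3 - σ) ⁻¹' Bad ∪ (fun σ => t4 - σ) ⁻¹' Bad) ≤
      volume Bad + volume Bad + volume Bad + volume Bad + volume Bad := by
    refine (measure_union_le _ _).trans (add_le_add ?_ (hp _).le)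
    refine (measure_union_le _ _).trans (add_le_add ?_ (hp _).le)
    refine (measure_union_le _ _).trans (add_le_add ?_ (hp _).le)
    exact (measure_union_le _ _).trans (add_le_add le_rfl (hp _).le)
  rw [Real.volume_Icc] at h1
  have hfin : volume Bad ≠ ⊤ := ne_top_of_lt hB
  rw [← ENNReal.ofReal_toReal hfin] at h2 hB
  have h0 : 0 ≤ (volume Bad).toReal := ENNReal.toReal_nonneg
  rw [← ENNReal.ofReal_add h0 h0, ← ENNReal.ofReal_add (by linarith) h0,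
    ← ENNReal.ofReal_add (by linarith) h0, ← ENNReal.ofReal_add (by linarith) h0] at h2
  have h3 := (ENNReal.ofReal_le_ofReal_iff (by linarith)).1 (h1.trans h2)
  have h4 := (ENNReal.ofReal_lt_ofReal_iff (by linarith)).1 hB
  linarith

lemma chain {r : ℝ → ℂ} {G : ℝ → Prop} {Ω w e : ℝ} {N : ℕ} (hw : 0 ≤ w) (he : 0 ≤ e)
    (hN : Ω / 2 ≤ N * w) (hN0 : 0 < N) (hΩ : 0 < Ω) (G0 : G 0) (hr : ∀ ω, G ω → ‖r ω‖ ≤ 2)
    (hr0 : ‖r 0 - 1‖ ≤ e)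
    (hmul : ∀ ω1 ω2 ω3, G ω1 → G ω2 → G ω3 → |ω1 + ω2 - ω3| ≤ w → ‖r ω1 * r ω2 - r ω3‖ ≤ e)
    (hex : ∀ t1 t2 t3 t4 : ℝ, |t1| ≤ Ω / 2 → |t2| ≤ Ω / 2 → |t3| ≤ Ω / 2 → |t4| ≤ Ω / 2 →
      ∃ σ : ℝ, |σ| ≤ Ω / 2 ∧ G σ ∧ G (t1 - σ) ∧ G (t2 - σ) ∧ G (t3 - σ) ∧ G (t4 - σ))
    {ω : ℝ} (hω : |ω| ≤ Ω / 2) (hG : G ω) : ‖r 0 * r ω - r 0 * r 0‖ ≤ 14 * N * e := by
  have half : ∀ t η σ, G η → G (t - η) → G σ → G (η - σ) → G (t - σ) →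
      ‖r η * r (t - η) - r σ * r (t - σ)‖ ≤ 4 * e := by
    intro t η σ g1 g2 g3 g4 g5
    have a1 := hmul σ (η - σ) η g3 g4 g1 (by simpa using hw)
    have a2 := hmul (η - σ) (t - η) (t - σ) g4 g2 g5 (by simpa using hw)
    have e1 : r η * r (t - η) - r σ * r (t - σ) = -(r σ * r (η - σ) - r η) * r (t - η) +
        r σ * (r (η - σ) * r (t - η) - r (t - σ)) := by ring
    rw [e1]
    refine (norm_add_le _ _).trans ?_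
    rw [norm_mul, norm_mul, norm_neg]
    nlinarith [mul_le_mul a1 (hr _ g2) (norm_nonneg _) he,
      mul_le_mul (hr _ g3) a2 (norm_nonneg _) zero_le_two]
  have step : ∀ t t' η η', |t| ≤ Ω / 2 → |t'| ≤ Ω / 2 → |η| ≤ Ω / 2 → |η'| ≤ Ω / 2 →
      |t - t'| ≤ w → G η → G (t - η) → G η' → G (t' - η') →
      ‖r η' * r (t' - η') - r η * r (t - η)‖ ≤ 14 * e := by
    intro t t' η η' h1 h2 h3 h4 h5 g1 g2 g3 g4
    obtain ⟨σ, _, s1, s2, s3, s4, s5⟩ := hex η t η' t' h3 h1 h4 h2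
    have a1 := half t η σ g1 g2 s1 s2 s3
    have a2 := half t' η' σ g3 g4 s1 s4 s5
    have a3 := hmul (t - σ) 0 (t' - σ) s3 G0 s5 (by
      rw [show t - σ + 0 - (t' - σ) = t - t' by ring]; exact h5)
    have a4 : ‖r (t' - σ) - r (t - σ)‖ ≤ 3 * e := by
      have e1 : r (t' - σ) - r (t - σ) = -(r (t - σ) * r 0 - r (t' - σ)) +
        r (t - σ) * (r 0 - 1) := by ring
      rw [e1]
      refine (norm_add_le _ _).trans ?_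
      rw [norm_mul, norm_neg]
      nlinarith [mul_le_mul (hr _ s3) hr0 (norm_nonneg _) zero_le_two]
    have e1 : r η' * r (t' - η') - r η * r (t - η) = (r η' * r (t' - η') - r σ * r (t' - σ)) +
        r σ * (r (t' - σ) - r (t - σ)) - (r η * r (t - η) - r σ * r (t - σ)) := by ring
    rw [e1]
    refine (norm_sub_le _ _).trans ((add_le_add (norm_add_le _ _) le_rfl).trans ?_)
    rw [norm_mul]
    nlinarith [mul_le_mul (hr _ s1) a4 (norm_nonneg _) zero_le_two]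
  have hNr : (0 : ℝ) < N := by exact_mod_cast hN0
  have ht : ∀ k : ℕ, k ≤ N → |(k : ℝ) * (ω / N)| ≤ Ω / 2 := by
    intro k hk
    have : (k : ℝ) ≤ N := by exact_mod_cast hk
    rw [abs_mul, abs_div, Nat.abs_cast, Nat.abs_cast, ← mul_div_assoc, div_le_iff₀ hNr]
    nlinarith [abs_nonneg ω, (Nat.cast_nonneg k : (0 : ℝ) ≤ k)]
  have hd : ∀ k : ℕ, |(k : ℝ) * (ω / N) - ((k + 1 : ℕ) : ℝ) * (ω / N)| ≤ w := by
    intro k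
    rw [show (k : ℝ) * (ω / N) - ((k + 1 : ℕ) : ℝ) * (ω / N) = -(ω / N) by push_cast; ring,
      abs_neg, abs_div, Nat.abs_cast, div_le_iff₀ hNr]
    linarith
  have key : ∀ k : ℕ, k + 1 ≤ N → ∀ η', |η'| ≤ Ω / 2 → G η' →
      G (((k + 1 : ℕ) : ℝ) * (ω / N) - η') →
      ‖r η' * r (((k + 1 : ℕ) : ℝ) * (ω / N) - η') - r 0 * r 0‖ ≤ 14 * ((k + 1 : ℕ) : ℝ) * e := by
    intro k
    induction k with
    | zero =>
      intro hk η' h1 g1 g2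
      have := step _ _ 0 η' (ht 0 (by omega)) (ht 1 hk) (by simp; linarith) h1 (hd 0) G0
        (by simpa using G0) g1 g2
      simpa using this
    | succ k ih =>
      intro hk η' h1 g1 g2
      have hk' := ht (k + 1) (by omega)
      obtain ⟨η, s0, s1, s2, _⟩ := hex _ _ _ _ hk' hk' hk' hk'
      have a1 := ih (by omega) η s0 s1 s2
      have a2 := step _ _ η η' hk' (ht (k + 1 + 1) hk) s0 h1 (hd (k + 1)) s1 s2 g1 g2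
      have a3 := norm_add_le (r η' * r (((k + 1 + 1 : ℕ) : ℝ) * (ω / N) - η') -
        r η * r (((k + 1 : ℕ) : ℝ) * (ω / N) - η))
        (r η * r (((k + 1 : ℕ) : ℝ) * (ω / N) - η) - r 0 * r 0)
      rw [sub_add_sub_cancel] at a3
      push_cast at a1 a2 a3 ⊢
      linarith
  obtain ⟨k, rfl⟩ : ∃ k, N = k + 1 := ⟨N - 1, by omega⟩
  have e1 : ((k + 1 : ℕ) : ℝ) * (ω / ((k + 1 : ℕ) : ℝ)) - 0 = ω := by field_simp; ring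
  have := key k le_rfl 0 (by simp; linarith) G0 (by rw [e1]; exact hG)
  rwa [e1] at this

lemma ar_ab {a0 b0 ε : ℝ} (ha0' : 1 / 3 ≤ |a0|) (h000 : |a0 * a0 * a0 - b0 * b0 * b0| ≤ ε) :
    |a0 - b0| ≤ 12 * ε := by
  rw [show a0 * a0 * a0 - b0 * b0 * b0 = (a0 - b0) * (a0 ^ 2 + a0 * b0 + b0 ^ 2) by ring,
    abs_mul] at h000
  have h1 : 1 / 9 ≤ a0 ^ 2 := by rw [← sq_abs]; nlinarith
  have h2 : 1 / 12 ≤ |a0 ^ 2 + a0 * b0 + b0 ^ 2| :=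
    le_trans (by nlinarith [sq_nonneg (a0 / 2 + b0)]) (le_abs_self _)
  nlinarith [mul_le_mul_of_nonneg_left h2 (abs_nonneg (a0 - b0))]

lemma ar_G {a b a0 b0 ε M τ : ℝ} (hε : 0 ≤ ε) (hτ : 0 < τ) (hτ1 : τ ≤ 1) (hM2 : 1 ≤ M ^ 2)
    (hMε : 30000 * (M ^ 2 * ε) < τ ^ 4) (ha : 0 ≤ a) (hb : 0 ≤ b) (hbM : b ≤ M)
    (ha0' : 1 / 3 ≤ |a0|) (hab : |a0 - b0| ≤ 12 * ε) (h4 : |a ^ 2 * a0 - b ^ 2 * b0| ≤ ε)
    (h1 : τ ≤ a + b) : τ / 4 ≤ a := by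
  by_contra h2
  push Not at h2
  have hτ2 : τ ^ 2 ≤ 1 := pow_le_one₀ hτ.le hτ1
  have h3 : 3 * τ / 4 ≤ b := by linarith
  have h5 : |(a ^ 2 - b ^ 2) * a0| ≤ ε + M ^ 2 * (12 * ε) := by
    have e1 : (a ^ 2 - b ^ 2) * a0 = (a ^ 2 * a0 - b ^ 2 * b0) - b ^ 2 * (a0 - b0) := by ring
    rw [e1]
    refine (abs_sub _ _).trans (add_le_add h4 ?_)
    rw [abs_mul, abs_of_nonneg (sq_nonneg _)]
    exact mul_le_mul (pow_le_pow_left₀ hb hbM 2) hab (abs_nonneg _) (by positivity)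
  rw [abs_mul] at h5
  have h6 : τ ^ 2 / 2 ≤ |a ^ 2 - b ^ 2| := by
    rw [abs_sub_comm]
    refine le_trans ?_ (le_abs_self _)
    nlinarith
  have h7 := mul_le_mul h6 ha0' (by norm_num) (abs_nonneg _)
  have h8 : τ ^ 4 ≤ τ ^ 2 := by nlinarith [sq_nonneg τ]
  nlinarith [mul_le_mul_of_nonneg_right hM2 hε]

lemma ar_r0 {r0 e : ℝ} (h1 : |r0 * r0 * r0 - 1| ≤ e) : |r0 - 1| ≤ 2 * e := by
  rw [show r0 * r0 * r0 - 1 = (r0 - 1) * (r0 ^ 2 + r0 + 1) by ring, abs_mul] at h1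
  have h2 : 1 / 2 ≤ |r0 ^ 2 + r0 + 1| :=
    le_trans (by nlinarith [sq_nonneg (r0 + 1 / 2)]) (le_abs_self _)
  nlinarith [mul_le_mul_of_nonneg_left h2 (abs_nonneg (r0 - 1))]

lemma ar_sq {x r0 e : ℝ} (hx : 0 ≤ x) (he2 : e ≤ 1 / 400) (hr01 : |r0 - 1| ≤ 2 * e)
    (h1 : |x * r0 - 1| ≤ e) : x ≤ 2 ∧ |x - 1| ≤ 5 * e := by
  have h2 := abs_le.1 h1
  have h4 := abs_le.1 hr01
  have h5 : x ≤ 2 := by nlinarith
  refine ⟨h5, abs_le.2 ⟨?_, ?_⟩⟩ <;> nlinarith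

lemma ratio_one {r : ℝ → ℂ} {G : ℝ → Prop} {Ω w e : ℝ} {N : ℕ} (hw : 0 ≤ w) (he0 : 0 ≤ e)
    (he2 : e ≤ 1 / 400) (hN : Ω / 2 ≤ N * w) (hN0 : 0 < N) (hΩ : 0 < Ω) (G0 : G 0)
    (Gneg : ∀ ω, G ω → G (-ω)) (hrc : ∀ ω, r (-ω) = starRingEnd ℂ (r ω))
    (h3 : ∀ ω1 ω2 ω3, G ω1 → G ω2 → G ω3 → |ω1 + ω2 + ω3| ≤ w → ‖r ω1 * r ω2 * r ω3 - 1‖ ≤ e)
    (hex : ∀ t1 t2 t3 t4 : ℝ, |t1| ≤ Ω / 2 → |t2| ≤ Ω / 2 → |t3| ≤ Ω / 2 → |t4| ≤ Ω / 2 →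
      ∃ σ : ℝ, |σ| ≤ Ω / 2 ∧ G σ ∧ G (t1 - σ) ∧ G (t2 - σ) ∧ G (t3 - σ) ∧ G (t4 - σ))
    {ω : ℝ} (hω : |ω| ≤ Ω / 2) (gω : G ω) : ‖r ω - 1‖ ≤ 338 * N * e := by
  have hN1 : (1 : ℝ) ≤ N := by exact_mod_cast hN0
  obtain ⟨r0, hr0⟩ : ∃ a : ℝ, r 0 = a :=
    ⟨(r 0).re, (Complex.conj_eq_iff_re.1 (by simpa using (hrc 0).symm)).symm⟩
  have hr01 : |r0 - 1| ≤ 2 * e := by
    have := h3 0 0 0 G0 G0 G0 (by simpa using hw)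
    rw [hr0] at this
    exact ar_r0 (by exact_mod_cast this)
  have hr01' : ‖r 0 - 1‖ ≤ 2 * e := by rw [hr0]; exact_mod_cast hr01
  have hrsq : ∀ ω, G ω → ‖r ω‖ ^ 2 ≤ 2 ∧ |‖r ω‖ ^ 2 - 1| ≤ 5 * e := by
    intro ω g
    have := h3 ω (-ω) 0 g (Gneg ω g) G0 (by simpa using hw)
    rw [hrc, Complex.mul_conj, hr0, Complex.normSq_eq_norm_sq] at this
    exact ar_sq (sq_nonneg _) he2 hr01 (by exact_mod_cast this)
  have hr2 : ∀ ω, G ω → ‖r ω‖ ≤ 2 := fun ω g => by nlinarith [(hrsq ω g).1, norm_nonneg (r ω)]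
  have hmul : ∀ ω1 ω2 ω3, G ω1 → G ω2 → G ω3 → |ω1 + ω2 - ω3| ≤ w →
      ‖r ω1 * r ω2 - r ω3‖ ≤ 12 * e := by
    intro ω1 ω2 ω3 g1 g2 g3 h
    have a1 := h3 ω1 ω2 (-ω3) g1 g2 (Gneg _ g3) (by rwa [← sub_eq_add_neg])
    rw [hrc] at a1
    have e1 : r ω1 * r ω2 - r ω3 = (r ω1 * r ω2 * starRingEnd ℂ (r ω3) - 1) * r ω3 -
        r ω1 * r ω2 * ((‖r ω3‖ ^ 2 - 1 : ℝ) : ℂ) := by
      push_cast
      rw [← Complex.mul_conj']; ring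
    rw [e1]
    refine (norm_sub_le _ _).trans ?_
    rw [norm_mul, norm_mul, norm_mul, Complex.norm_real, Real.norm_eq_abs]
    have a2 : ‖r ω1‖ * ‖r ω2‖ ≤ 2 := by
      nlinarith [(hrsq _ g1).1, (hrsq _ g2).1, sq_nonneg (‖r ω1‖ - ‖r ω2‖)]
    nlinarith [mul_le_mul a1 (hr2 _ g3) (norm_nonneg _) he0,
      mul_le_mul a2 (hrsq _ g3).2 (abs_nonneg _) zero_le_two]
  have hch := chain (r := r) (G := G) (e := 12 * e) hw (by positivity) hN hN0 hΩ G0 hr2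
    (by linarith) hmul hex hω gω
  rw [← mul_sub, norm_mul, hr0, Complex.norm_real, Real.norm_eq_abs] at hch
  have b1 : 1 / 2 ≤ |r0| := le_trans (by linarith [(abs_le.1 hr01).1]) (le_abs_self _)
  have b2 : ‖r ω - r0‖ ≤ 336 * N * e := by
    nlinarith [mul_le_mul_of_nonneg_right b1 (norm_nonneg (r ω - r0))]
  have := norm_add_le (r ω - r0) (r 0 - 1)
  rw [hr0, sub_add_sub_cancel] at this
  rw [hr0] at hr01'
  nlinarith [mul_le_mul_of_nonneg_right hN1 he0]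

lemma ratio_three {a1 a2 a3 b1 b2 b3 : ℂ} {τ ε : ℝ} (hτ : 0 < τ) (hε : 0 ≤ ε)
    (g1 : τ / 4 ≤ ‖a1‖) (g2 : τ / 4 ≤ ‖a2‖) (g3 : τ / 4 ≤ ‖a3‖)
    (h : ‖a1 * a2 * a3 - b1 * b2 * b3‖ ≤ ε) :
    ‖b1 / a1 * (b2 / a2) * (b3 / a3) - 1‖ ≤ 64 * ε / τ ^ 3 := by
  have n1 : a1 ≠ 0 := norm_pos_iff.1 (by linarith)
  have n2 : a2 ≠ 0 := norm_pos_iff.1 (by linarith)
  have n3 : a3 ≠ 0 := norm_pos_iff.1 (by linarith)
  have e1 : b1 / a1 * (b2 / a2) * (b3 / a3) - 1 =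
      -(a1 * a2 * a3 - b1 * b2 * b3) / (a1 * a2 * a3) := by
    field_simp; ring
  have h2 : τ ^ 3 / 64 ≤ ‖a1 * a2 * a3‖ := by
    rw [norm_mul, norm_mul, show τ ^ 3 / 64 = τ / 4 * (τ / 4) * (τ / 4) by ring]
    exact mul_le_mul (mul_le_mul g1 g2 (by positivity) (norm_nonneg _)) g3
      (by positivity) (by positivity)
  rw [e1, norm_div, norm_neg, show 64 * ε / τ ^ 3 = ε / (τ ^ 3 / 64) by field_simp]
  exact div_le_div₀ hε h (by positivity) h2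

theorem three_point {A B : ℝ → ℂ} {Ω w τ ε M : ℝ} {N : ℕ} (hΩ : 0 < Ω) (hw : 0 ≤ w)
    (hN : Ω / 2 ≤ N * w) (hN0 : 0 < N) (hτ : 0 < τ) (hτ1 : τ ≤ 1) (hM : 1 ≤ M)
    (hAc : ∀ ω, A (-ω) = starRingEnd ℂ (A ω)) (hBc : ∀ ω, B (-ω) = starRingEnd ℂ (B ω))
    (hA : ∀ ω, ‖A ω‖ ≤ M) (hB : ∀ ω, ‖B ω‖ ≤ M) (hA0 : 1 / 3 ≤ ‖A 0‖)
    (hT : ∀ ω1 ω2 ω3, |ω1| ≤ Ω → |ω2| ≤ Ω → |ω3| ≤ Ω → |ω1 + ω2 + ω3| ≤ w →
      ‖A ω1 * A ω2 * A ω3 - B ω1 * B ω2 * B ω3‖ ≤ ε)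
    (hbad : volume {ω : ℝ | |ω| ≤ Ω ∧ ‖A ω - B ω‖ < τ} < ENNReal.ofReal (Ω / 5)) :
    τ ^ 4 ≤ 30000 * M ^ 2 * N * ε := by
  by_contra hcon
  push Not at hcon
  have hN1 : (1 : ℝ) ≤ N := by exact_mod_cast hN0
  have hε : 0 ≤ ε := (norm_nonneg _).trans (hT 0 0 0 (by simpa using hΩ.le) (by simpa using hΩ.le)
    (by simpa using hΩ.le) (by simpa using hw))
  have hM2 : 1 ≤ M ^ 2 := one_le_pow₀ hM
  have hMε : 30000 * (M ^ 2 * ε) < τ ^ 4 := by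
    nlinarith [mul_le_mul_of_nonneg_left hN1 (by positivity : 0 ≤ M ^ 2 * ε)]
  obtain ⟨a0, ha0⟩ : ∃ a : ℝ, A 0 = a :=
    ⟨(A 0).re, (Complex.conj_eq_iff_re.1 (by simpa using (hAc 0).symm)).symm⟩
  obtain ⟨b0, hb0⟩ : ∃ b : ℝ, B 0 = b :=
    ⟨(B 0).re, (Complex.conj_eq_iff_re.1 (by simpa using (hBc 0).symm)).symm⟩
  have ha0' : 1 / 3 ≤ |a0| := by simpa [ha0] using hA0
  have h000 : |a0 * a0 * a0 - b0 * b0 * b0| ≤ ε := by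
    have := hT 0 0 0 (by simpa using hΩ.le) (by simpa using hΩ.le) (by simpa using hΩ.le)
      (by simpa using hw)
    rw [ha0, hb0] at this
    exact_mod_cast this
  have hab := ar_ab ha0' h000
  let G : ℝ → Prop := fun ω => |ω| ≤ Ω ∧ τ / 4 ≤ ‖A ω‖
  have G0 : G 0 := ⟨by simpa using hΩ.le, by linarith⟩
  have Gneg : ∀ ω, G ω → G (-ω) := fun ω h => ⟨by simpa using h.1, by
    rw [hAc, Complex.norm_conj]; exact h.2⟩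
  have hsq : ∀ ω, |ω| ≤ Ω → |‖A ω‖ ^ 2 * a0 - ‖B ω‖ ^ 2 * b0| ≤ ε := by
    intro ω h
    have := hT ω (-ω) 0 h (by simpa using h) (by simpa using hΩ.le) (by simpa using hw)
    rw [hAc, hBc, Complex.mul_conj, Complex.mul_conj, ha0, hb0, Complex.normSq_eq_norm_sq,
      Complex.normSq_eq_norm_sq] at this
    exact_mod_cast this
  have Gof : ∀ ω, |ω| ≤ Ω → τ ≤ ‖A ω - B ω‖ → G ω := fun ω h h1 =>
    ⟨h, ar_G hε hτ hτ1 hM2 hMε (norm_nonneg _) (norm_nonneg _) (hB ω) ha0' hab (hsq ω h)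
      (h1.trans (norm_sub_le _ _))⟩
  obtain ⟨e, he⟩ : ∃ e : ℝ, e = 64 * ε / τ ^ 3 := ⟨_, rfl⟩
  have he0 : 0 ≤ e := by rw [he]; positivity
  have he1 : M ^ 2 * N * e < τ / 400 := by
    rw [he, ← mul_div_assoc, div_lt_iff₀ (by positivity)]
    nlinarith
  have he2 : e ≤ 1 / 400 := by
    nlinarith [mul_le_mul hM2 hN1 zero_le_one (by positivity : 0 ≤ M ^ 2)]
  have hnb : ∀ σ, |σ| ≤ Ω → σ ∉ {ω : ℝ | |ω| ≤ Ω ∧ ‖A ω - B ω‖ < τ} → τ ≤ ‖A σ - B σ‖ :=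
    fun σ h1 h2 => not_lt.1 fun h => h2 ⟨h1, h⟩
  have hsubabs : ∀ t σ : ℝ, |t| ≤ Ω / 2 → |σ| ≤ Ω / 2 → |t - σ| ≤ Ω := fun t σ h1 h2 =>
    (abs_sub _ _).trans (by linarith)
  obtain ⟨ω, hω, hωb, _⟩ := exists_avoid hΩ hbad 0 0 0 0
  have hωτ := hnb ω (by linarith) hωb
  have gω := Gof ω (by linarith) hωτ
  have b3 := ratio_one (r := fun ω => B ω / A ω) (G := G) (e := e) hw he0 he2 hN hN0 hΩ G0 Gneg
    (fun ω => by simp [hAc, hBc])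
    (fun ω1 ω2 ω3 g1 g2 g3 h => he ▸ ratio_three hτ hε g1.2 g2.2 g3.2
      (hT ω1 ω2 ω3 g1.1 g2.1 g3.1 h)) (by
      intro t1 t2 t3 t4 h1 h2 h3 h4
      obtain ⟨σ, s0, s1, s2, s3, s4, s5⟩ := exists_avoid hΩ hbad t1 t2 t3 t4
      exact ⟨σ, s0, Gof _ (by linarith) (hnb _ (by linarith) s1),
        Gof _ (hsubabs _ _ h1 s0) (hnb _ (hsubabs _ _ h1 s0) s2),
        Gof _ (hsubabs _ _ h2 s0) (hnb _ (hsubabs _ _ h2 s0) s3),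
        Gof _ (hsubabs _ _ h3 s0) (hnb _ (hsubabs _ _ h3 s0) s4),
        Gof _ (hsubabs _ _ h4 s0) (hnb _ (hsubabs _ _ h4 s0) s5)⟩) hω gω
  have b4 : A ω - B ω = -(A ω * (B ω / A ω - 1)) := by
    have : A ω ≠ 0 := norm_pos_iff.1 (by linarith [gω.2])
    field_simp; ring
  rw [b4, norm_neg, norm_mul] at hωτ
  have b5 := mul_le_mul (hA ω) b3 (norm_nonneg _) (by linarith)
  have b6 : M * (N * e) ≤ M ^ 2 * (N * e) :=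
    mul_le_mul_of_nonneg_right (by nlinarith) (by positivity)
  nlinarith

end Vale.Agent.P321
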