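import Mathlib

namespace Vale.Agent.P321

open Finset

/-- The trace of `x` under the deletion pattern `keep`: the bits `x i` with `keep i = true`,
concatenated in their original order. -/
def trace {n : ℕ} (keep : Fin n → Bool) (x : Fin n → Bool) : List Bool :=
  ((List.finRange n).filter (fun i => keep i)).map x

/-- Probability of the deletion pattern `keep` when each bit is deleted independently with
probability `q`. -/
def maskWt {n : ℕ} (q : ℝ) (keep : Fin n → Bool) : ℝ :=
  ∏ i, if keep i then 1 - q else q

/-- Probability that the randomized estimator `est`, given `m` independent traces of `x`,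
outputs `x`. -/
noncomputable def success {n m : ℕ} (q : ℝ)
    (est : (Fin m → List Bool) → PMF (Fin n → Bool)) (x : Fin n → Bool) : ℝ :=
  ∑ masks : Fin m → Fin n → Bool,
    (∏ j, maskWt q (masks j)) * (est (fun j => trace (masks j) x) x).toReal

/-- Some estimator using `m` traces recovers every `x` of length `n` with probability at
least `2/3`. -/
def Achievable (q : ℝ) (n m : ℕ) : Prop :=
  ∃ est : (Fin m → List Bool) → PMF (Fin n → Bool), ∀ x, 2 / 3 ≤ success q est x

/-- Worst-case sample complexity of trace reconstruction. -/
noncomputable def sampleComplexity (q : ℝ) (n : ℕ) : ℕ :=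
  sInf {m | Achievable q n m}

end Vale.Agent.P321
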