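import Mathlib

/-! A Gaussian window is a mixture of tilted exponentials. -/

namespace Vale.Agent.P321

open Complex MeasureTheory

lemma gauss_one {κ : ℝ} (hκ : 0 < κ) (μ y : ℝ) :
    ∫ ξ : ℝ, cexp (I * (y - μ / (2 * κ) : ℝ) * ξ) * cexp (-((1 / (4 * κ) : ℝ) : ℂ) * ξ ^ 2) =
      (√(Real.pi / (1 / (4 * κ))) : ℝ) * cexp (-κ * (y - μ / (2 * κ)) ^ 2) := by
  rw [fourierIntegral_gaussian (by simp only [ofReal_re]; positivity)]
  congr 1
  · rw [Real.sqrt_eq_rpow, Complex.ofReal_cpow (by positivity)]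
    push_cast; ring_nf
  · congr 1
    have : (κ : ℂ) ≠ 0 := by exact_mod_cast hκ.ne'
    push_cast; field_simp

lemma gauss_ph {ι : Type*} (s : Finset ι) (c : ι → ℂ) (y : ι → ℝ) {κ μ Ω m M : ℝ} (hκ : 0 < κ)
    (hΩ : 0 ≤ Ω) (hm0 : 0 ≤ m)
    (hm : ∀ ξ : ℝ, |ξ| ≤ Ω → ‖∑ i ∈ s, c i * cexp ((-μ + ξ * I) * y i)‖ ≤ m)
    (hM : ∑ i ∈ s, ‖c i‖ * Real.exp (-μ * y i) ≤ M) :
    ‖∑ i ∈ s, c i * cexp (-κ * y i ^ 2)‖ ≤
      Real.exp (μ ^ 2 / (4 * κ)) * (m + 2 * M * Real.exp (-Ω ^ 2 / (8 * κ))) := by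
  set b : ℝ := 1 / (4 * κ) with hb
  have hb0 : 0 < b := by positivity
  set S : ℝ := √(Real.pi / b) with hS
  have hS0 : 0 < S := Real.sqrt_pos.2 (by positivity)
  have hM0 : 0 ≤ M := le_trans (Finset.sum_nonneg fun i _ => by positivity) hM
  have hκc : (κ : ℂ) ≠ 0 := by exact_mod_cast hκ.ne'
  let g : ι → ℝ → ℂ := fun i ξ => c i * cexp (-μ * y i) *
    (cexp (I * (y i - μ / (2 * κ) : ℝ) * ξ) * cexp (-(b : ℂ) * ξ ^ 2))
  have hgi : ∀ i, Integrable (g i) := by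
    intro i
    refine Integrable.const_mul ?_ _
    have := integrable_cexp_quadratic (b := (b : ℂ)) (by simpa using hb0)
      (I * (y i - μ / (2 * κ) : ℝ)) 0
    refine this.congr (Filter.Eventually.of_forall fun ξ => ?_)
    simp only [← Complex.exp_add]; congr 1; ring
  have h1 : (S : ℂ) * ∑ i ∈ s, c i * cexp (-κ * y i ^ 2) =
      cexp (μ ^ 2 / (4 * κ)) * ∫ ξ : ℝ, ∑ i ∈ s, g i ξ := by
    rw [integral_finsetSum _ fun i _ => hgi i, Finset.mul_sum, Finset.mul_sum]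
    refine Finset.sum_congr rfl fun i _ => ?_
    simp only [g]
    rw [integral_const_mul, gauss_one hκ]
    have e : cexp (-κ * y i ^ 2) = cexp (μ ^ 2 / (4 * κ)) * cexp (-μ * y i) *
        cexp (-κ * (y i - μ / (2 * κ)) ^ 2) := by
      simp only [← Complex.exp_add]; congr 1; field_simp; ring
    rw [e]; ring
  have h2 : ∀ ξ : ℝ, ‖∑ i ∈ s, g i ξ‖ ≤ m * Real.exp (-b * ξ ^ 2) +
      M * Real.exp (-Ω ^ 2 / (8 * κ)) * Real.exp (-(b / 2) * ξ ^ 2) := by
    intro ξ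
    have e : ∑ i ∈ s, g i ξ = cexp (-(b : ℂ) * ξ ^ 2 + (-(μ / (2 * κ) * ξ) : ℝ) * I) *
        ∑ i ∈ s, c i * cexp ((-μ + ξ * I) * y i) := by
      rw [Finset.mul_sum]
      refine Finset.sum_congr rfl fun i _ => ?_
      simp only [g]
      rw [mul_assoc, ← Complex.exp_add, ← Complex.exp_add, mul_left_comm, ← Complex.exp_add]
      congr 2; push_cast; ring
    have e2 : ‖cexp (-(b : ℂ) * ξ ^ 2 + (-(μ / (2 * κ) * ξ) : ℝ) * I)‖ =
        Real.exp (-b * ξ ^ 2) := by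
      rw [Complex.norm_exp]; congr 1
      simp only [add_re, mul_re, neg_re, ofReal_re, neg_im, ofReal_im, I_re, I_im, ← ofReal_pow]
      ring
    rw [e, norm_mul, e2]
    by_cases hξ : |ξ| ≤ Ω
    · have := mul_le_mul_of_nonneg_left (hm ξ hξ) (Real.exp_pos (-b * ξ ^ 2)).le
      have h3 : 0 ≤ M * Real.exp (-Ω ^ 2 / (8 * κ)) * Real.exp (-(b / 2) * ξ ^ 2) := by positivity
      linarith
    · have h3 : ‖∑ i ∈ s, c i * cexp ((-μ + ξ * I) * y i)‖ ≤ M := by
        refine (norm_sum_le _ _).trans (le_trans (le_of_eq ?_) hM)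
        refine Finset.sum_congr rfl fun i _ => ?_
        rw [norm_mul, Complex.norm_exp]; congr 2; simp
      have h4 : Real.exp (-b * ξ ^ 2) ≤
          Real.exp (-Ω ^ 2 / (8 * κ)) * Real.exp (-(b / 2) * ξ ^ 2) := by
        rw [← Real.exp_add]
        apply Real.exp_le_exp.2
        have h5 : Ω ^ 2 ≤ ξ ^ 2 := by
          rw [← sq_abs ξ]; exact pow_le_pow_left₀ hΩ (not_le.1 hξ).le 2
        have h6 : -Ω ^ 2 / (8 * κ) = -(b / 2) * Ω ^ 2 := by rw [hb]; field_simp; ring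
        rw [h6]; nlinarith
      have h7 : 0 ≤ m * Real.exp (-b * ξ ^ 2) := by positivity
      have h8 := mul_le_mul h4 h3 (norm_nonneg _) (by positivity)
      nlinarith
  have h3 : ‖∫ ξ : ℝ, ∑ i ∈ s, g i ξ‖ ≤ S * (m + 2 * M * Real.exp (-Ω ^ 2 / (8 * κ))) := by
    have i1 := (integrable_exp_neg_mul_sq hb0).const_mul m
    have i2 := (integrable_exp_neg_mul_sq (half_pos hb0)).const_mul
      (M * Real.exp (-Ω ^ 2 / (8 * κ)))
    refine (norm_integral_le_of_norm_le (i1.add i2) (Filter.Eventually.of_forall h2)).trans ?_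
    simp only [Pi.add_apply]
    rw [integral_add i1 i2, integral_const_mul, integral_const_mul, integral_gaussian,
      integral_gaussian]
    have h4 : √(Real.pi / (b / 2)) ≤ 2 * S := by
      rw [hS, show (2 : ℝ) = √4 from by
        rw [show (4 : ℝ) = 2 ^ 2 by norm_num, Real.sqrt_sq (by norm_num)],
        ← Real.sqrt_mul (by norm_num)]
      apply Real.sqrt_le_sqrt
      rw [show √4 = (2 : ℝ) from by
        rw [show (4 : ℝ) = 2 ^ 2 by norm_num, Real.sqrt_sq (by norm_num)]]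
      have : Real.pi / (b / 2) = 2 * (Real.pi / b) := by field_simp
      rw [this]
      have : 0 ≤ Real.pi / b := by positivity
      linarith
    have h5 := mul_le_mul_of_nonneg_left h4
      (by positivity : 0 ≤ M * Real.exp (-Ω ^ 2 / (8 * κ)))
    rw [← hS]
    nlinarith
  have h4 := congrArg norm h1
  rw [norm_mul, norm_mul, Complex.norm_real, Real.norm_eq_abs, abs_of_pos hS0,
    show (μ ^ 2 / (4 * κ) : ℂ) = ((μ ^ 2 / (4 * κ) : ℝ) : ℂ) by push_cast; ring,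
    Complex.norm_exp_ofReal] at h4
  refine le_of_mul_le_mul_left ?_ hS0
  rw [h4]
  have := mul_le_mul_of_nonneg_left h3 (Real.exp_pos (μ ^ 2 / (4 * κ))).le
  linarith

end Vale.Agent.P321
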