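import Mathlib

/-! The two constants inequality for polynomials on the unit disc. -/

namespace Vale.Agent.P321

open Complex MeasureTheory Metric Real Polynomial

lemma contK {w : ℂ} (hw : ‖w‖ < 1) : ContinuousOn (poissonKernel 0 w) (sphere 0 |(1 : ℝ)|) := by
  rw [poissonKernel_eq_re_herglotzRieszKernel]
  exact Complex.continuous_re.comp_continuousOn
    (continuousOn_herglotzRieszKernel_sphere (by simpa using hw))

lemma root_ineq {w : ℂ} (hw : ‖w‖ < 1) {r : ℂ} (hr : w ≠ r) :
    Real.log ‖w - r‖ ≤ circleAverage (poissonKernel 0 w • fun z => Real.log ‖z - r‖) 0 1 := by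
  have hwb : w ∈ ball (0 : ℂ) 1 := by simpa using hw
  rcases lt_trichotomy ‖r‖ 1 with h | h | h
  · have hne : ∀ z : ℂ, ‖z‖ ≤ 1 → 1 - (starRingEnd ℂ r) * z ≠ 0 := by
      intro z hz h0
      have h1 : (starRingEnd ℂ r) * z = 1 := by linear_combination -h0
      have h2 := congrArg norm h1
      rw [norm_mul, Complex.norm_conj, norm_one] at h2
      nlinarith [norm_nonneg r, norm_nonneg z]
    have hh : InnerProductSpace.HarmonicOnNhd (fun z => Real.log ‖1 - (starRingEnd ℂ r) * z‖)
        (closedBall (0 : ℂ) 1) := fun z hz =>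
      AnalyticAt.harmonicAt_log_norm (by fun_prop) (hne z (by simpa using hz))
    have e := hh.circleAverage_poissonKernel_smul hwb
    have e2 : circleAverage (poissonKernel 0 w • fun z => Real.log ‖z - r‖) 0 1 =
        circleAverage (poissonKernel 0 w • fun z => Real.log ‖1 - (starRingEnd ℂ r) * z‖) 0 1 := by
      refine circleAverage_congr_sphere fun z hz => ?_
      have hz' : ‖z‖ = 1 := by simpa using hz
      simp only [Pi.smul_apply']
      congr 2
      have : 1 - (starRingEnd ℂ r) * z = z * starRingEnd ℂ (z - r) := by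
        rw [map_sub, mul_sub, Complex.mul_conj, Complex.normSq_eq_norm_sq, hz']
        simp [mul_comm]
      rw [this, norm_mul, hz', one_mul, Complex.norm_conj]
    rw [e2, e]
    refine Real.log_le_log (norm_pos_iff.2 (sub_ne_zero.2 hr)) ?_
    refine abs_le_of_sq_le_sq' ?_ (norm_nonneg _) |>.2
    have h1 : ‖w‖ ^ 2 ≤ 1 := by nlinarith [norm_nonneg w]
    have h2 : ‖r‖ ^ 2 ≤ 1 := by nlinarith [norm_nonneg r]
    rw [Complex.sq_norm, Complex.normSq_apply] at h1 h2
    rw [Complex.sq_norm, Complex.sq_norm, Complex.normSq_apply, Complex.normSq_apply]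
    simp only [sub_re, sub_im, one_re, one_im, mul_re, mul_im, conj_re, conj_im]
    nlinarith [mul_nonneg (sub_nonneg.2 h1) (sub_nonneg.2 h2)]
  · have := circleAverage_re_herglotzRieszKernel_mul_log (c := 0) (R := 1) (ρ := r)
      (by simpa using h) hwb
    rw [poissonKernel_eq_re_herglotzRieszKernel]
    exact this.ge
  · have hh : InnerProductSpace.HarmonicOnNhd (fun z => Real.log ‖z - r‖)
        (closedBall (0 : ℂ) 1) := fun z hz =>
      AnalyticAt.harmonicAt_log_norm (by fun_prop) (by
        have : ‖z‖ ≤ 1 := by simpa using hz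
        intro h0
        rw [sub_eq_zero.1 h0] at this
        linarith)
    exact (hh.circleAverage_poissonKernel_smul hwb).ge

lemma circleInt_poly {w : ℂ} (hw : ‖w‖ < 1) (P : ℂ[X]) :
    CircleIntegrable (poissonKernel 0 w • fun z => Real.log ‖P.eval z‖) 0 1 :=
  (MeromorphicOn.circleIntegrable_log_norm (f := fun z => P.eval z)
    (fun z _ => (P.differentiable.analyticAt z).meromorphicAt)).continuousOn_smul (contK hw)

lemma avg_kernel {w : ℂ} (hw : ‖w‖ < 1) (a : ℝ) :
    circleAverage (poissonKernel 0 w • fun _ => a) 0 1 = a :=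
  InnerProductSpace.HarmonicOnNhd.circleAverage_poissonKernel_smul
    (f := fun _ => a) (fun _ _ => InnerProductSpace.harmonicAt_const a) (by simpa using hw)

lemma poly_ineq {w : ℂ} (hw : ‖w‖ < 1) (P : ℂ[X]) (h : P.eval w ≠ 0) :
    Real.log ‖P.eval w‖ ≤ circleAverage (poissonKernel 0 w • fun z => Real.log ‖P.eval z‖) 0 1 := by
  induction hn : P.natDegree generalizing P with
  | zero =>
    rw [Polynomial.eq_C_of_natDegree_eq_zero hn]
    simp only [eval_C]
    exact (avg_kernel hw _).ge
  | succ n ih =>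
    obtain ⟨r, hr⟩ := IsAlgClosed.exists_root P (by
      rw [Polynomial.degree_eq_natDegree (by rintro rfl; simp at hn), hn]
      exact_mod_cast Nat.succ_ne_zero n)
    obtain ⟨Q, rfl⟩ := Polynomial.dvd_iff_isRoot.2 hr
    have hQ0 : Q ≠ 0 := by rintro rfl; simp at h
    have hQ : Q.natDegree = n := by
      rw [Polynomial.natDegree_mul (X_sub_C_ne_zero r) hQ0, natDegree_X_sub_C] at hn; omega
    simp only [eval_mul, eval_sub, eval_X, eval_C] at h ⊢
    have h1 : w - r ≠ 0 := left_ne_zero_of_mul h
    have h2 : Q.eval w ≠ 0 := right_ne_zero_of_mul h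
    have e : circleAverage (poissonKernel 0 w • fun z => Real.log ‖(z - r) * Q.eval z‖) 0 1 =
        circleAverage ((poissonKernel 0 w • fun z => Real.log ‖z - r‖) +
          poissonKernel 0 w • fun z => Real.log ‖Q.eval z‖) 0 1 := by
      refine circleAverage_congr_codiscreteWithin ?_ one_ne_zero
      have hfin : (insert r (Q.roots.toFinset : Set ℂ)).Finite := (Finset.finite_toSet _).insert r
      filter_upwards [compl_finite_mem_codiscreteWithin hfin] with z hz
      simp only [Set.mem_compl_iff, Set.mem_insert_iff, not_or, Finset.mem_coe,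
        Multiset.mem_toFinset, mem_roots hQ0, IsRoot.def] at hz
      simp only [Pi.add_apply, smul_eq_mul, Pi.mul_apply]
      rw [norm_mul, Real.log_mul (norm_ne_zero_iff.2 (sub_ne_zero.2 hz.1))
        (norm_ne_zero_iff.2 hz.2), mul_add]
    have i1 := circleInt_poly hw (X - C r)
    simp only [eval_sub, eval_X, eval_C] at i1
    rw [e, circleAverage_add i1 (circleInt_poly hw Q), norm_mul,
      Real.log_mul (norm_ne_zero_iff.2 h1) (norm_ne_zero_iff.2 h2)]
    exact add_le_add (root_ineq hw (sub_ne_zero.1 h1)) (ih Q h2 hQ)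

lemma avg_eq (f : ℂ → ℝ) :
    circleAverage f 0 1 = (2 * π)⁻¹ * ∫ θ in (-π)..π, f (circleMap 0 1 θ) := by
  rw [circleAverage_eq_integral_add (-π), intervalIntegral.integral_comp_add_right
    (fun θ => f (circleMap 0 1 θ))]
  simp only [zero_add, smul_eq_mul]
  congr 2; ring

lemma intInt {f : ℂ → ℝ} (hf : CircleIntegrable f 0 1) :
    IntervalIntegrable (fun θ => f (circleMap 0 1 θ)) volume (-π) π := by
  have hp : Function.Periodic (fun θ => f (circleMap 0 1 θ)) (2 * π) :=
    fun x => by simp [periodic_circleMap 0 1 x]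
  exact hp.intervalIntegrable (t := 0) (by positivity) (by rw [zero_add]; exact hf) _ _

theorem two_const {w : ℂ} (hw : ‖w‖ < 1) (P : ℂ[X]) (h : P.eval w ≠ 0) {E : Set ℝ}
    (hE : MeasurableSet E) (hEs : E ⊆ Set.Ioc (-π) π) {M τ k : ℝ} (hτ : 0 < τ) (hτM : τ ≤ M)
    (hM : ∀ θ : ℝ, ‖P.eval (cexp (θ * I))‖ ≤ M) (hτE : ∀ θ ∈ E, ‖P.eval (cexp (θ * I))‖ ≤ τ)
    (hk : ∀ θ ∈ E, k ≤ poissonKernel 0 w (cexp (θ * I))) :
    k * (volume E).toReal / (2 * π) * Real.log (M / τ) ≤ Real.log M - Real.log ‖P.eval w‖ := by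
  have hP0 : P ≠ 0 := by rintro rfl; simp at h
  have hM0 : 0 < M := lt_of_lt_of_le hτ hτM
  have hlog : 0 ≤ Real.log (M / τ) := Real.log_nonneg ((one_le_div hτ).2 hτM)
  have hcm : ∀ θ : ℝ, circleMap 0 1 θ = cexp (θ * I) := fun θ => by simp [circleMap]
  have h1 := poly_ineq hw P h
  have h2 := avg_kernel hw (Real.log M)
  have i1 := intInt (circleInt_poly hw P)
  have i2 : IntervalIntegrable (fun θ => (poissonKernel 0 w • fun _ => Real.log M)
      (circleMap 0 1 θ)) volume (-π) π :=
    intInt ((circleIntegrable_const (Real.log M) 0 1).continuousOn_smul (contK hw))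
  have hpi : -π ≤ π := by linarith [pi_pos]
  have i3 : IntervalIntegrable (E.indicator fun _ => k * Real.log (M / τ)) volume (-π) π := by
    rw [intervalIntegrable_iff_integrableOn_Ioc_of_le hpi]
    exact (integrableOn_const (by simp)).indicator hE
  have e3 : ∫ θ in (-π)..π, E.indicator (fun _ => k * Real.log (M / τ)) θ =
      (volume E).toReal * (k * Real.log (M / τ)) := by
    rw [intervalIntegral.integral_of_le hpi, integral_indicator hE, Measure.restrict_restrict hE,
      Set.inter_eq_left.2 hEs]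
    simp [Measure.real]
  have hz : ∀ᵐ θ : ℝ, P.eval (circleMap 0 1 θ) ≠ 0 := by
    have hc : (circleMap 0 1 ⁻¹' (P.roots.toFinset : Set ℂ)).Countable :=
      (Finset.countable_toSet _).preimage_circleMap 0 one_ne_zero
    filter_upwards [hc.ae_notMem volume] with θ hθ h0
    exact hθ (by simpa [mem_roots hP0] using h0)
  have h3 : ∫ θ in (-π)..π, (poissonKernel 0 w • fun z => Real.log ‖P.eval z‖) (circleMap 0 1 θ) ≤
      ∫ θ in (-π)..π, ((poissonKernel 0 w • fun _ => Real.log M) (circleMap 0 1 θ) -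
        E.indicator (fun _ => k * Real.log (M / τ)) θ) := by
    refine intervalIntegral.integral_mono_ae hpi i1 (i2.sub i3) ?_
    filter_upwards [hz] with θ hθ
    simp only [Pi.smul_apply', smul_eq_mul]
    rw [hcm] at hθ ⊢
    have hK0 : 0 ≤ poissonKernel 0 w (cexp (θ * I)) := by
      rw [poissonKernel_def]
      refine div_nonneg ?_ (by positivity)
      simp only [sub_zero, Complex.norm_exp_ofReal_mul_I]
      nlinarith [norm_nonneg w]
    have hpos := norm_pos_iff.2 hθ
    by_cases hθE : θ ∈ E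
    · rw [Set.indicator_of_mem hθE]
      have a1 : Real.log ‖P.eval (cexp (θ * I))‖ ≤ Real.log M - Real.log (M / τ) := by
        rw [Real.log_div hM0.ne' hτ.ne']
        linarith [Real.log_le_log hpos (hτE θ hθE)]
      nlinarith [mul_le_mul_of_nonneg_left a1 hK0, mul_le_mul_of_nonneg_right (hk θ hθE) hlog]
    · rw [Set.indicator_of_notMem hθE, sub_zero]
      exact mul_le_mul_of_nonneg_left (Real.log_le_log hpos (hM θ)) hK0
  rw [intervalIntegral.integral_sub i2 i3, e3] at h3
  rw [avg_eq] at h1 h2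
  have h4 := mul_le_mul_of_nonneg_left h3 (by positivity : 0 ≤ (2 * π)⁻¹)
  rw [mul_sub, h2] at h4
  have e : k * (volume E).toReal / (2 * π) * Real.log (M / τ) =
      (2 * π)⁻¹ * ((volume E).toReal * (k * Real.log (M / τ))) := by ring
  linarith

end Vale.Agent.P321
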