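import Mathlib
import Vale.Agent.P321.Poisson

/-! Windowed transforms: lower bounds from the two constants estimate. -/

namespace Vale.Agent.P321

open Complex MeasureTheory Polynomial

/-- windowed transform of a sequence, centred at `i0` -/
noncomputable def tf (n i0 : ℕ) (κ : ℝ) (d : ℕ → ℂ) (β : ℂ) : ℂ :=
  ∑ j ∈ Finset.range n, d j * cexp (-κ * ((j : ℂ) - i0) ^ 2 + β * ((j : ℂ) - i0))

lemma norm_term (i0 j : ℕ) (κ : ℝ) (d β : ℂ) :
    ‖d * cexp (-κ * ((j : ℂ) - i0) ^ 2 + β * ((j : ℂ) - i0))‖ =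
      ‖d‖ * Real.exp (-κ * ((j : ℝ) - i0) ^ 2 + β.re * ((j : ℝ) - i0)) := by
  rw [norm_mul, Complex.norm_exp]
  congr 2
  rw [show ((j : ℂ) - i0) = (((j : ℝ) - i0 : ℝ) : ℂ) by push_cast; ring]
  simp only [add_re, mul_re, neg_re, ofReal_re, neg_im, ofReal_im, ← ofReal_pow]
  ring

noncomputable def tpoly (n i0 X : ℕ) (κ : ℝ) (d : ℕ → ℂ) : ℂ[X] :=
  ∑ j ∈ (Finset.range n).filter (fun j => i0 ≤ j + X),
    monomial (j + X - i0) (d j * cexp (-κ * ((j : ℂ) - i0) ^ 2))

lemma tpoly_eval (n i0 X : ℕ) (κ : ℝ) (d : ℕ → ℂ) (β : ℂ) :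
    (tpoly n i0 X κ d).eval (cexp β) = cexp (β * X) *
      ∑ j ∈ (Finset.range n).filter (fun j => i0 ≤ j + X),
        d j * cexp (-κ * ((j : ℂ) - i0) ^ 2 + β * ((j : ℂ) - i0)) := by
  rw [tpoly, eval_finsetSum, Finset.mul_sum]
  refine Finset.sum_congr rfl fun j hj => ?_
  have h := (Finset.mem_filter.1 hj).2
  rw [eval_monomial, ← Complex.exp_nat_mul, mul_assoc, ← Complex.exp_add, mul_left_comm,
    ← Complex.exp_add, Nat.cast_sub h]
  congr 2; push_cast; ring

lemma tpoly_le (n i0 X : ℕ) {κ : ℝ} (hκ : 0 ≤ κ) {d : ℕ → ℂ}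
    (hd : ∀ j, i0 ≤ j + X → ‖d j‖ ≤ 1) (θ : ℝ) :
    ‖(tpoly n i0 X κ d).eval (cexp (θ * I))‖ ≤ n := by
  rw [tpoly_eval, norm_mul, Complex.norm_exp]
  simp only [mul_re, ofReal_re, I_re, ofReal_im, I_im, natCast_re, mul_im, natCast_im, mul_zero,
    zero_mul, Real.exp_zero, one_mul, sub_self]
  refine (norm_sum_le _ _).trans ((Finset.sum_le_card_nsmul _ _ 1 fun j hj => ?_).trans ?_)
  · rw [norm_term]
    refine mul_le_one₀ (hd j (Finset.mem_filter.1 hj).2) (Real.exp_pos _).le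
      (Real.exp_le_one_iff.2 ?_)
    simp only [mul_re, ofReal_re, I_re, ofReal_im, I_im]
    nlinarith [mul_nonneg hκ (sq_nonneg ((j : ℝ) - i0))]
  · rw [nsmul_eq_mul, mul_one]
    exact_mod_cast (Finset.card_filter_le _ _).trans (by simp)

lemma tf_tail {n i0 X : ℕ} {κ s Y : ℝ} (hκ : 0 ≤ κ) (hs : 0 < s) (hX : Y * s ≤ X) {d : ℕ → ℂ}
    (hd : ∀ j, ‖d j‖ ≤ 2 * Real.exp (((j : ℝ) - i0) / s)) {β : ℂ} (h1 : -(1 / (4 * s)) ≤ β.re) :
    ‖tf n i0 κ d β - ∑ j ∈ (Finset.range n).filter (fun j => i0 ≤ j + X),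
        d j * cexp (-κ * ((j : ℂ) - i0) ^ 2 + β * ((j : ℂ) - i0))‖ ≤
      n * (2 * Real.exp (-(3 / 4) * Y)) := by
  rw [tf, ← Finset.sum_filter_add_sum_filter_not _ (fun j => i0 ≤ j + X), add_sub_cancel_left]
  refine (norm_sum_le _ _).trans ((Finset.sum_le_card_nsmul _ _ (2 * Real.exp (-(3 / 4) * Y))
    fun j hj => ?_).trans ?_)
  · rw [norm_term]
    refine (mul_le_mul_of_nonneg_right (hd j) (Real.exp_pos _).le).trans ?_
    rw [mul_assoc, ← Real.exp_add]
    refine mul_le_mul_of_nonneg_left (Real.exp_le_exp.2 ?_) zero_le_two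
    have h2 : (j : ℝ) + X ≤ i0 := by exact_mod_cast (not_le.1 (Finset.mem_filter.1 hj).2).le
    obtain ⟨p, hp⟩ : ∃ p : ℝ, p = (j : ℝ) - i0 := ⟨_, rfl⟩
    rw [← hp]
    have h3 : p ≤ 0 := by linarith [(Nat.cast_nonneg X : (0 : ℝ) ≤ X)]
    have h4 : p / s ≤ -Y := by rw [div_le_iff₀ hs]; linarith
    have h5 : β.re * p ≤ -(1 / (4 * s)) * p := mul_le_mul_of_nonpos_right h1 h3
    have h6 : -(1 / (4 * s)) * p = -(1 / 4) * (p / s) := by field_simp
    nlinarith [mul_nonneg hκ (sq_nonneg p)]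
  · rw [nsmul_eq_mul]
    refine mul_le_mul_of_nonneg_right ?_ (by positivity)
    exact_mod_cast (Finset.card_filter_le _ _).trans (by simp)

lemma kernel_ge {s ω ω0 : ℝ} (hs : 1 ≤ s) (hω : |ω| ≤ 1 / 1000 / s) (hω0 : |ω0| ≤ 1 / 1000 / s) :
    11 * s ≤ poissonKernel 0 (cexp (-(1 / 20000 / s : ℝ) + ω0 * I)) (cexp (ω * I)) := by
  have hs0 : 0 < s := by linarith
  obtain ⟨t, ht⟩ : ∃ t : ℝ, t = 1 / 20000 / s := ⟨_, rfl⟩
  have ht0 : 0 < t := by rw [ht]; positivity
  have hts : t * s = 1 / 20000 := by rw [ht]; field_simp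
  have ht1 : t ≤ 1 / 20000 := by nlinarith
  have e20 : 1 / 1000 / s = 20 * t := by rw [ht]; ring
  rw [e20] at hω hω0
  rw [← ht, poissonKernel_def]
  simp only [sub_zero, Complex.norm_exp_ofReal_mul_I]
  have n1 : ‖cexp (-(t : ℂ) + ω0 * I)‖ = Real.exp (-t) := by rw [Complex.norm_exp]; simp
  have r0 := Real.exp_pos (-t)
  have r1 : 1 - t ≤ Real.exp (-t) := by linarith [Real.add_one_le_exp (-t)]
  have r2 : Real.exp (-t) * (1 + t) ≤ 1 := by
    have := mul_le_mul_of_nonneg_left (Real.add_one_le_exp t) r0.le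
    rw [← Real.exp_add] at this
    simp only [neg_add_cancel, Real.exp_zero] at this
    linarith
  have r3 : Real.exp (-t) ≤ 1 - t / 2 := by nlinarith
  have d1 : ‖cexp (ω * I) - cexp (-(t : ℂ) + ω0 * I)‖ ≤ 41 * t := by
    have e1 : cexp (ω * I) - cexp (-(t : ℂ) + ω0 * I) =
        cexp (ω0 * I) * ((cexp (I * (ω - ω0 : ℝ)) - 1) + (1 - Real.exp (-t) : ℝ)) := by
      rw [Complex.exp_add, show (ω : ℂ) * I = ω0 * I + I * (ω - ω0 : ℝ) by push_cast; ring,
        Complex.exp_add]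
      push_cast; ring
    rw [e1, norm_mul, Complex.norm_exp_ofReal_mul_I, one_mul]
    refine (norm_add_le _ _).trans ?_
    have a1 := Real.norm_exp_I_mul_ofReal_sub_one_le (x := ω - ω0)
    rw [Real.norm_eq_abs] at a1
    rw [Complex.norm_real, Real.norm_eq_abs, abs_of_nonneg (by linarith)]
    linarith [abs_sub ω ω0]
  have d0 : 0 < ‖cexp (ω * I) - cexp (-(t : ℂ) + ω0 * I)‖ := by
    have := norm_sub_norm_le (cexp (ω * I)) (cexp (-(t : ℂ) + ω0 * I))
    rw [n1, Complex.norm_exp_ofReal_mul_I] at this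
    linarith
  rw [n1, le_div_iff₀ (by positivity)]
  have d2 := pow_le_pow_left₀ d0.le d1 2
  have d3 : 11 * s * (41 * t) ^ 2 ≤ (1 - 1 / 80000) * t := by
    rw [show 11 * s * (41 * t) ^ 2 = 11 * 1681 * (t * s) * t by ring, hts]; linarith
  have d4 := pow_le_pow_left₀ r0.le r3 2
  nlinarith [mul_le_mul_of_nonneg_left d2 (by positivity : 0 ≤ 11 * s)]

theorem bad_small {n i0 : ℕ} {d : ℕ → ℂ} {s L κ ω0 : ℝ} (hs : 1 ≤ s) (hκ : 0 ≤ κ) (hL : 1 ≤ L)
    (hn : (n : ℝ) ≤ Real.exp L) (hd1 : ∀ j, ‖d j‖ ≤ 1)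
    (hd : ∀ j, ‖d j‖ ≤ 2 * Real.exp (((j : ℝ) - i0) / s)) (hω0 : |ω0| ≤ 1 / 1000 / s)
    (h : Real.exp (-L) ≤ ‖tf n i0 κ d (-(1 / 20000 / s : ℝ) + ω0 * I)‖) :
    volume {ω : ℝ | |ω| ≤ 1 / 1000 / s ∧ ‖tf n i0 κ d (ω * I)‖ < Real.exp (-80000 * L) / 2} <
      ENNReal.ofReal (1 / 1000 / s / 5) := by
  have hs0 : 0 < s := by linarith
  obtain ⟨X, hX⟩ : ∃ X : ℕ, X = ⌈160000 * L * s⌉₊ := ⟨_, rfl⟩
  have hX1 : 160000 * L * s ≤ X := hX ▸ Nat.le_ceil _
  have hX2 : (X : ℝ) ≤ 160000 * L * s + 1 := hX ▸ (Nat.ceil_lt_add_one (by positivity)).le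
  have htail : (n : ℝ) * (2 * Real.exp (-(3 / 4) * (160000 * L))) ≤ Real.exp (-80000 * L) / 2 := by
    refine (mul_le_mul_of_nonneg_right hn (by positivity)).trans ?_
    have e1 : Real.exp (-80000 * L) = Real.exp (39999 * L) *
        (Real.exp L * Real.exp (-(3 / 4) * (160000 * L))) := by
      rw [← Real.exp_add, ← Real.exp_add]; congr 1; ring
    have e2 : 4 ≤ Real.exp (39999 * L) := by linarith [Real.add_one_le_exp (39999 * L)]
    rw [e1]
    nlinarith [mul_le_mul_of_nonneg_right e2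
      (by positivity : 0 ≤ Real.exp L * Real.exp (-(3 / 4) * (160000 * L)))]
  set P := tpoly n i0 X κ d with hP
  set w : ℂ := cexp (-(1 / 20000 / s : ℝ) + ω0 * I) with hw
  have hw1 : ‖w‖ < 1 := by
    rw [hw, Complex.norm_exp, Real.exp_lt_one_iff]
    simp only [add_re, neg_re, ofReal_re, mul_re, I_re, ofReal_im, I_im]
    have : 0 < 1 / 20000 / s := by positivity
    linarith
  have hPw : Real.exp (-10 * L) ≤ ‖P.eval w‖ := by
    have t1 := tf_tail (n := n) hκ hs0 hX1 hd (β := -(1 / 20000 / s : ℝ) + ω0 * I) (by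
      simp only [add_re, neg_re, ofReal_re, mul_re, I_re, ofReal_im, I_im]
      rw [show 1 / (4 * s) = 1 / 4 / s by field_simp]
      have : 1 / 20000 / s ≤ 1 / 4 / s := div_le_div_of_nonneg_right (by norm_num) hs0.le
      linarith)
    rw [hP, hw, tpoly_eval, norm_mul, Complex.norm_exp]
    have t2 := norm_sub_norm_le (tf n i0 κ d (-(1 / 20000 / s : ℝ) + ω0 * I))
      (∑ j ∈ (Finset.range n).filter (fun j => i0 ≤ j + X),
        d j * cexp (-κ * ((j : ℂ) - i0) ^ 2 + (-(1 / 20000 / s : ℝ) + ω0 * I) * ((j : ℂ) - i0)))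
    have t3 : Real.exp (-80000 * L) ≤ Real.exp (-L) := Real.exp_le_exp.2 (by linarith)
    have t4 : Real.exp (-8 * L - 1 / 4) ≤
        Real.exp ((-(1 / 20000 / s : ℝ) + ω0 * I) * X : ℂ).re := by
      apply Real.exp_le_exp.2
      simp only [add_re, neg_re, ofReal_re, mul_re, I_re, ofReal_im, I_im, natCast_re, natCast_im]
      have : 1 / 20000 / s * X ≤ 8 * L + 1 / 4 := by
        rw [div_mul_eq_mul_div, div_le_iff₀ hs0]; nlinarith
      linarith
    refine le_trans ?_ (mul_le_mul t4 (show Real.exp (-L) / 2 ≤ _ by linarith) (by positivity)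
      (by positivity))
    have e1 : Real.exp (-8 * L - 1 / 4) * (Real.exp (-L) / 2) =
        Real.exp (-10 * L) * (Real.exp (L - 1 / 4) / 2) := by
      rw [← mul_div_assoc, ← mul_div_assoc, ← Real.exp_add, ← Real.exp_add]; congr 2; ring
    have e2 : 2 ≤ Real.exp (L - 1 / 4) := by
      have := Real.quadratic_le_exp_of_nonneg (x := L - 1 / 4) (by linarith)
      nlinarith
    rw [e1]
    nlinarith [Real.exp_pos (-10 * L)]
  let E : Set ℝ := {ω : ℝ | |ω| ≤ 1 / 1000 / s ∧ ‖P.eval (cexp (ω * I))‖ ≤ Real.exp (-80000 * L)}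
  have hE : MeasurableSet E := by
    have c1 : Continuous fun ω : ℝ => ‖P.eval (cexp (ω * I))‖ :=
      (P.continuous.comp (by fun_prop)).norm
    exact ((isClosed_le continuous_abs continuous_const).inter
      (isClosed_le c1 continuous_const)).measurableSet
  have hs1 : 1 / 1000 / s ≤ 1 := by rw [div_le_one hs0]; linarith
  have hEs : E ⊆ Set.Ioc (-Real.pi) Real.pi := fun ω hω => by
    have := abs_le.1 hω.1
    constructor <;> linarith [Real.pi_gt_three]
  have key := two_const hw1 P (norm_pos_iff.1 (lt_of_lt_of_le (Real.exp_pos _) hPw)) hE hEs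
    (M := Real.exp L) (τ := Real.exp (-80000 * L)) (k := 11 * s) (Real.exp_pos _)
    (Real.exp_le_exp.2 (by linarith)) (fun θ => (tpoly_le n i0 X hκ (fun j _ => hd1 j) θ).trans hn)
    (fun θ hθ => hθ.2) (fun θ hθ => kernel_ge hs hθ.1 hω0)
  rw [← Real.exp_sub, Real.log_exp, Real.log_exp] at key
  have k1 : -10 * L ≤ Real.log ‖P.eval w‖ := by
    rw [← Real.log_exp (-10 * L)]; exact Real.log_le_log (Real.exp_pos _) hPw
  have k2 : (volume E).toReal < 1 / 1000 / s / 5 := by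
    have v0 : 0 ≤ (volume E).toReal := ENNReal.toReal_nonneg
    have k3 : 11 * s * (volume E).toReal / (2 * Real.pi) * 80001 ≤ 11 := by
      refine le_of_mul_le_mul_right ?_ (by linarith : 0 < L)
      nlinarith
    rw [div_mul_eq_mul_div, div_le_iff₀ (by positivity)] at k3
    rw [div_div, div_div, lt_div_iff₀ (by positivity)]
    nlinarith [Real.pi_le_four]
  have hfin : volume E ≠ ⊤ := ne_top_of_le_ne_top (by simp) (measure_mono hEs)
  refine lt_of_le_of_lt (measure_mono (t := E) fun ω hω => ⟨hω.1, ?_⟩) ?_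
  · have t1 := tf_tail (n := n) hκ hs0 hX1 hd (β := ω * I) (by
      simp only [mul_re, ofReal_re, I_re, ofReal_im, I_im]
      have : 0 < 1 / (4 * s) := by positivity
      linarith)
    rw [hP, tpoly_eval, norm_mul, Complex.norm_exp]
    simp only [mul_re, ofReal_re, I_re, ofReal_im, I_im, natCast_re, mul_im, natCast_im, mul_zero,
      zero_mul, Real.exp_zero, one_mul, sub_self]
    rw [norm_sub_rev] at t1
    have t2 := (norm_sub_norm_le _ _).trans t1
    linarith [hω.2]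
  · rw [← ENNReal.ofReal_toReal hfin]
    exact (ENNReal.ofReal_lt_ofReal_iff (by positivity)).2 k2

theorem base_large {n i0 : ℕ} {d : ℕ → ℂ} {s L κ : ℝ} (hs : 1 ≤ s) (hκ : 0 ≤ κ) (hi : i0 < n)
    (hL : 4000 * s * Real.log (2 * n) ≤ L) (hd1 : ∀ j, ‖d j‖ ≤ 1) (hd0 : ∀ j < i0, d j = 0)
    (hd : 1 / 2 ≤ ‖d i0‖) : ∃ ω0 : ℝ, |ω0| ≤ 1 / 1000 / s ∧
      Real.exp (-L) ≤ ‖tf n i0 κ d (-(1 / 20000 / s : ℝ) + ω0 * I)‖ := by
  by_contra hcon
  push Not at hcon
  have hs0 : 0 < s := by linarith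
  have hn1 : (1 : ℝ) ≤ n := by exact_mod_cast (show 1 ≤ n by omega)
  have hl : 0 < Real.log (2 * n) := Real.log_pos (by linarith)
  have hL0 : 0 < L := lt_of_lt_of_le (by positivity) hL
  let d' : ℕ → ℂ := fun j => d j * cexp (-(1 / 20000 / s : ℝ) * ((j : ℂ) - i0))
  set P := tpoly n i0 0 κ d' with hP
  have hP0 : P.eval 0 = d i0 := by
    rw [hP, tpoly, eval_finsetSum, Finset.sum_eq_single i0]
    · simp [d']
    · intro j hj hne
      have := (Finset.mem_filter.1 hj).2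
      rw [eval_monomial, zero_pow (by omega), mul_zero]
    · intro hh; exact absurd (Finset.mem_filter.2 ⟨Finset.mem_range.2 hi, by omega⟩) hh
  have hs1 : 1 / 1000 / s ≤ 1 := by rw [div_le_one hs0]; linarith
  have key := two_const (w := 0) (by simp) P (by rw [hP0]; exact norm_pos_iff.1 (by linarith))
    (E := Set.Icc (-(1 / 1000 / s)) (1 / 1000 / s)) measurableSet_Icc
    (fun ω hω => by constructor <;> linarith [Real.pi_gt_three, hω.1, hω.2])
    (M := n) (τ := Real.exp (-L)) (k := 1) (Real.exp_pos _)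
    (le_trans (Real.exp_le_one_iff.2 (by linarith)) hn1)
    (tpoly_le n i0 0 hκ fun j hj => by
      simp only [d']
      rw [norm_mul, Complex.norm_exp]
      refine mul_le_one₀ (hd1 j) (Real.exp_pos _).le (Real.exp_le_one_iff.2 ?_)
      have h1 : (i0 : ℝ) ≤ j := by exact_mod_cast hj
      have h2 : 0 < 1 / 20000 / s := by positivity
      simp only [mul_re, neg_re, ofReal_re, sub_re, natCast_re, neg_im, ofReal_im, sub_im,
        natCast_im]
      nlinarith)
    (fun θ hθ => by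
      refine le_trans (le_of_eq ?_) (hcon θ (abs_le.2 hθ)).le
      rw [hP, tpoly_eval, tf, Finset.sum_filter_of_ne]
      · simp only [Nat.cast_zero, mul_zero, Complex.exp_zero, one_mul]
        congr 1
        refine Finset.sum_congr rfl fun j _ => ?_
        simp only [d']
        rw [mul_assoc, ← Complex.exp_add]; congr 2; ring
      · intro j _ hj
        by_contra hh
        exact hj (by simp [d', hd0 j (by omega)]))
    (fun θ _ => by rw [poissonKernel_def]; simp)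
  rw [hP0, Real.volume_Icc, ENNReal.toReal_ofReal (by
    have : 0 < 1 / 1000 / s := by positivity
    linarith), Real.log_div (by positivity) (by positivity), Real.log_exp] at key
  have k1 : -Real.log 2 ≤ Real.log ‖d i0‖ := by
    rw [← Real.log_inv]; exact Real.log_le_log (by norm_num) (by linarith)
  have k2 : Real.log (2 * n) = Real.log 2 + Real.log n := Real.log_mul (by norm_num) (by positivity)
  have k3 : 0 ≤ Real.log n := Real.log_nonneg hn1
  have k4 : 1 * (1 / 1000 / s - -(1 / 1000 / s)) / (2 * Real.pi) = 1 / (1000 * s * Real.pi) := by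
    field_simp; ring
  rw [k4, div_mul_eq_mul_div, div_le_iff₀ (by positivity)] at key
  have k5 : (Real.log n - Real.log ‖d i0‖) * (1000 * s * Real.pi) ≤
      Real.log (2 * n) * (1000 * s * Real.pi) :=
    mul_le_mul_of_nonneg_right (by linarith) (by positivity)
  nlinarith [mul_pos (mul_pos hl hs0) (by linarith [Real.pi_lt_four] : 0 < 4 - Real.pi)]

end Vale.Agent.P321
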