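import Mathlib
import Vale.Agent.P321.Gauss

/-! Three Gaussian expansions: a windowed triple sum is controlled by exponential filters. -/

namespace Vale.Agent.P321

open Complex

lemma gauss_ph' {ι : Type*} (s : Finset ι) (δ E : ι → ℂ) (y : ι → ℝ) {κ μ Ω m M N : ℝ}
    (hκ : 0 < κ) (hΩ : 0 ≤ Ω) (hm0 : 0 ≤ m) (hM0 : 0 ≤ M) (hN : (s.card : ℝ) ≤ N)
    (hm : ∀ ξ : ℝ, |ξ| ≤ Ω → ‖∑ i ∈ s, δ i * cexp (E i + (-μ + ξ * I) * y i)‖ ≤ m)
    (hM : ∀ i ∈ s, ‖δ i‖ * Real.exp ((E i).re - μ * y i) ≤ M) :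
    ‖∑ i ∈ s, δ i * cexp (E i - κ * y i ^ 2)‖ ≤
      Real.exp (μ ^ 2 / (4 * κ)) * (m + 2 * (N * M) * Real.exp (-Ω ^ 2 / (8 * κ))) := by
  have h := gauss_ph s (fun i => δ i * cexp (E i)) y (μ := μ) (M := N * M) hκ hΩ hm0
    (fun ξ hξ => by
      refine le_trans (le_of_eq ?_) (hm ξ hξ)
      congr 1
      exact Finset.sum_congr rfl fun i _ => by rw [Complex.exp_add, mul_assoc]) (by
      refine le_trans (Finset.sum_le_card_nsmul s _ M fun i hi => ?_) ?_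
      · refine le_trans (le_of_eq ?_) (hM i hi)
        rw [norm_mul, Complex.norm_exp, mul_assoc, ← Real.exp_add]; congr 2; ring
      · rw [nsmul_eq_mul]; exact mul_le_mul_of_nonneg_right hN hM0)
  refine le_trans (le_of_eq ?_) h
  congr 1
  exact Finset.sum_congr rfl fun i _ => by
    rw [mul_assoc, ← Complex.exp_add]; congr 2; ring

lemma window3 {ι : Type*} (s : Finset ι) (δ : ι → ℂ) (p u v : ι → ℝ) {α Z κ' Ω N ζ η1 η2 : ℝ}
    (hα : 0 < α) (hZ : 0 < Z) (hκ' : 0 ≤ κ') (hΩ : 4 * α ≤ Ω) (hN : (s.card : ℝ) ≤ N)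
    (hN1 : 1 ≤ N) (hu : ∀ i, 0 ≤ u i) (hv : ∀ i, 0 ≤ v i)
    (hδ : ∀ i ∈ s, ‖δ i‖ ≤ 6 * Real.exp (α / 20000 * (p i + u i + v i)))
    (hm : ∀ ξ : ℝ, |ξ| ≤ Ω →
      ‖∑ i ∈ s, δ i * cexp (-κ' * p i ^ 2 + (-(α / 20000 : ℝ) + ζ * I) * p i +
        (-α + (η1 + ξ : ℝ) * I) * u i + (-α + (η2 - ξ : ℝ) * I) * v i)‖ ≤ Real.exp (-4 * Z)) :
    ‖∑ i ∈ s, δ i * cexp ((-κ' * p i ^ 2 + (-(α / 20000 : ℝ) + ζ * I) * p i +
        (-α + η1 * I) * u i + (-α + η2 * I) * v i) - (α ^ 2 / Z / 2 : ℝ) * (u i - v i : ℝ) ^ 2)‖ ≤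
      13 * N * Real.exp (-4 * Z) := by
  have h := gauss_ph' s δ (fun i => -κ' * p i ^ 2 + (-(α / 20000 : ℝ) + ζ * I) * p i +
        (-α + η1 * I) * u i + (-α + η2 * I) * v i) (fun i => u i - v i) (κ := α ^ 2 / Z / 2)
    (μ := 0) (Ω := Ω) (m := Real.exp (-4 * Z)) (M := 6) (N := N) (by positivity) (by linarith)
    (by positivity) (by norm_num) hN (fun ξ hξ => by
      refine le_trans (le_of_eq ?_) (hm ξ hξ)
      congr 1
      exact Finset.sum_congr rfl fun i _ => by congr 2; push_cast; ring) (fun i hi => by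
      refine (mul_le_mul_of_nonneg_right (hδ i hi) (Real.exp_pos _).le).trans ?_
      rw [mul_assoc, ← Real.exp_add]
      refine mul_le_of_le_one_right (by norm_num) (Real.exp_le_one_iff.2 ?_)
      simp only [add_re, mul_re, neg_re, ofReal_re, neg_im, ofReal_im, I_re, I_im, ← ofReal_pow,
        add_im, mul_im]
      nlinarith [mul_nonneg hκ' (sq_nonneg (p i)), mul_nonneg hα.le (hu i),
        mul_nonneg hα.le (hv i)])
  refine h.trans ?_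
  have h1 : Real.exp (-Ω ^ 2 / (8 * (α ^ 2 / Z / 2))) ≤ Real.exp (-4 * Z) := by
    apply Real.exp_le_exp.2
    rw [div_le_iff₀ (by positivity), show -4 * Z * (8 * (α ^ 2 / Z / 2)) = -(4 * α) ^ 2 by
      field_simp; ring]
    exact neg_le_neg (pow_le_pow_left₀ (by positivity) hΩ 2)
  rw [show (0 : ℝ) ^ 2 / (4 * (α ^ 2 / Z / 2)) = 0 by simp, Real.exp_zero, one_mul]
  nlinarith [Real.exp_pos (-4 * Z), mul_le_mul_of_nonneg_left h1 (by linarith : 0 ≤ N),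
    mul_le_mul_of_nonneg_right hN1 (Real.exp_pos (-4 * Z)).le]

lemma window2 {ι : Type*} (s : Finset ι) (δ : ι → ℂ) (p u v : ι → ℝ)
    {α Z κ' Ω N ζ η1 η2 γ μ : ℝ}
    (hα : 0 < α) (hZ : 0 < Z) (hκ' : 0 ≤ κ') (hΩ : 4 * α ≤ Ω) (hN : (s.card : ℝ) ≤ N)
    (hN1 : 1 ≤ N) (hu : ∀ i, 0 ≤ u i) (hv : ∀ i, 0 ≤ v i) (hγ1 : 1 / 10 ≤ γ) (hγ2 : γ ≤ 1 / 6)
    (hμ0 : 0 ≤ μ) (hμ : μ ≤ α)
    (hδ : ∀ i ∈ s, ‖δ i‖ ≤ 6 * Real.exp (α / 20000 * (p i + u i + v i)))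
    (hm : ∀ ξ ξ' : ℝ, |ξ| ≤ Ω → |ξ'| ≤ Ω →
      ‖∑ i ∈ s, δ i * cexp (-κ' * p i ^ 2 + (-(α / 20000 : ℝ) + ζ * I) * p i +
        (-α + (η1 + ξ' + ξ : ℝ) * I) * u i + (-α + (η2 + ξ' - ξ : ℝ) * I) * v i)‖ ≤
        Real.exp (-4 * Z)) :
    ‖∑ i ∈ s, δ i * cexp ((-κ' * p i ^ 2 + (-(α / 20000 : ℝ) + ζ * I) * p i +
        (-(α - μ : ℝ) + η1 * I) * u i + (-(α - μ : ℝ) + η2 * I) * v i -
        (α ^ 2 / Z / 2 : ℝ) * (u i - v i : ℝ) ^ 2) -
        (γ * (α ^ 2 / Z) : ℝ) * (u i + v i : ℝ) ^ 2)‖ ≤ 25 * N * Real.exp (-(3 / 2) * Z) := by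
  have hγ0 : 0 < γ := by linarith
  have h := gauss_ph' s δ (fun i => -κ' * p i ^ 2 + (-(α / 20000 : ℝ) + ζ * I) * p i +
        (-(α - μ : ℝ) + η1 * I) * u i + (-(α - μ : ℝ) + η2 * I) * v i -
        (α ^ 2 / Z / 2 : ℝ) * (u i - v i : ℝ) ^ 2) (fun i => u i + v i) (κ := γ * (α ^ 2 / Z))
    (μ := μ) (Ω := Ω) (m := 13 * N * Real.exp (-4 * Z)) (M := 6) (N := N) (by positivity)
    (by linarith) (by positivity) (by norm_num) hN (fun ξ' hξ' => by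
      refine le_trans (le_of_eq ?_) (window3 s δ p u v (ζ := ζ) (η1 := η1 + ξ') (η2 := η2 + ξ')
        hα hZ hκ' hΩ hN hN1 hu hv hδ fun ξ hξ => hm ξ ξ' hξ hξ')
      congr 1
      exact Finset.sum_congr rfl fun i _ => by congr 2; push_cast; ring) (fun i hi => by
      refine (mul_le_mul_of_nonneg_right (hδ i hi) (Real.exp_pos _).le).trans ?_
      rw [mul_assoc, ← Real.exp_add]
      refine mul_le_of_le_one_right (by norm_num) (Real.exp_le_one_iff.2 ?_)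
      simp only [add_re, sub_re, mul_re, neg_re, ofReal_re, neg_im, ofReal_im, I_re, I_im,
        ← ofReal_pow, add_im, mul_im]
      nlinarith [mul_nonneg hκ' (sq_nonneg (p i)), mul_nonneg hα.le (hu i),
        mul_nonneg hα.le (hv i),
        (by positivity : 0 ≤ α ^ 2 / Z / 2 * (u i - v i) ^ 2)])
  refine h.trans ?_
  have h1 : Real.exp (-Ω ^ 2 / (8 * (γ * (α ^ 2 / Z)))) ≤ Real.exp (-4 * Z) := by
    apply Real.exp_le_exp.2
    rw [div_le_iff₀ (by positivity), show -4 * Z * (8 * (γ * (α ^ 2 / Z))) = -(32 * γ * α ^ 2) by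
      field_simp; ring]
    nlinarith [pow_le_pow_left₀ (by positivity) hΩ 2, sq_nonneg α]
  have h2 : Real.exp (μ ^ 2 / (4 * (γ * (α ^ 2 / Z)))) ≤ Real.exp (5 / 2 * Z) := by
    apply Real.exp_le_exp.2
    rw [div_le_iff₀ (by positivity), show 5 / 2 * Z * (4 * (γ * (α ^ 2 / Z))) = 10 * γ * α ^ 2 by
      field_simp; ring]
    nlinarith [pow_le_pow_left₀ hμ0 hμ 2, sq_nonneg α]
  have h3 : Real.exp (-(3 / 2) * Z) = Real.exp (5 / 2 * Z) * Real.exp (-4 * Z) := by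
    rw [← Real.exp_add]; congr 1; ring
  rw [h3, mul_left_comm (25 * N)]
  refine mul_le_mul h2 ?_ (by positivity) (by positivity)
  nlinarith [mul_le_mul_of_nonneg_left h1 (by linarith : 0 ≤ N)]

lemma window_ar {α Z κ g N : ℝ} (hα : 0 < α) (hZ : 0 < Z) (hκ : κ = α ^ 2 / Z) (hg1 : 5 / 2 ≤ g)
    (hg2 : g ≤ 3) (hN0 : 0 ≤ N) :
    Real.exp ((α / 20000) ^ 2 / (4 * (g * κ))) * (25 * N * Real.exp (-(3 / 2) * Z) +
      2 * (N * (6 * Real.exp (Z / 160000000))) * Real.exp (-(α / 2000) ^ 2 / (8 * (g * κ)))) ≤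
      37 * N * Real.exp (-(39 / 10 ^ 10) * Z) := by
  have hκ0 : 0 < κ := by rw [hκ]; positivity
  have hg0 : 0 < g := by linarith
  have h1 : Real.exp (-(α / 2000) ^ 2 / (8 * (g * κ))) ≤ Real.exp (-(Z / 96000000)) := by
    apply Real.exp_le_exp.2
    rw [div_le_iff₀ (by positivity), hκ, show -(Z / 96000000) * (8 * (g * (α ^ 2 / Z))) =
      -(g * α ^ 2 / 12000000) by field_simp; ring]
    nlinarith [sq_nonneg α]
  have h2 : Real.exp ((α / 20000) ^ 2 / (4 * (g * κ))) ≤ Real.exp (Z / 4000000000) := by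
    apply Real.exp_le_exp.2
    rw [div_le_iff₀ (by positivity), hκ, show Z / 4000000000 * (4 * (g * (α ^ 2 / Z))) =
      g * α ^ 2 / 1000000000 by field_simp; ring]
    nlinarith [sq_nonneg α]
  have h3 : Real.exp (Z / 4000000000) * Real.exp (-(3 / 2) * Z) ≤
      Real.exp (-(39 / 10 ^ 10) * Z) := by
    rw [← Real.exp_add]; apply Real.exp_le_exp.2; linarith
  have h4 : Real.exp (Z / 4000000000) * (Real.exp (Z / 160000000) * Real.exp (-(Z / 96000000))) ≤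
      Real.exp (-(39 / 10 ^ 10) * Z) := by
    rw [← Real.exp_add, ← Real.exp_add]; apply Real.exp_le_exp.2; linarith
  refine (mul_le_mul h2 (add_le_add le_rfl (mul_le_mul_of_nonneg_left h1 (by positivity)))
    (by positivity) (by positivity)).trans ?_
  nlinarith [mul_le_mul_of_nonneg_left h3 hN0, mul_le_mul_of_nonneg_left h4 hN0]

theorem window {ι : Type*} (s : Finset ι) (δ : ι → ℂ) (p u v : ι → ℝ)
    {α Z κ' Ω N ω1 ω2 ω3 : ℝ} (hα : 0 < α) (hZ : 0 < Z) (hκ' : 0 ≤ κ')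
    (hκ2 : κ' ≤ α ^ 2 / Z / 2) (hΩ : 4 * α ≤ Ω) (hN : (s.card : ℝ) ≤ N)
    (hN1 : 1 ≤ N) (hu : ∀ i, 0 ≤ u i) (hv : ∀ i, 0 ≤ v i)
    (hδ : ∀ i ∈ s, ‖δ i‖ ≤ 6 * Real.exp (α / 20000 * (p i + u i + v i)))
    (h2 : |ω2| ≤ Ω) (h3 : |ω3| ≤ Ω) (hω : |ω1 + ω2 + ω3| ≤ α / 2000)
    (hm : ∀ ζ ξ1 ξ2 : ℝ, |ζ| ≤ α / 1000 → |ξ1| ≤ 4 * Ω → |ξ2| ≤ 4 * Ω →
      ‖∑ i ∈ s, δ i * cexp (-κ' * p i ^ 2 + (-(α / 20000 : ℝ) + ζ * I) * p i +
        (-α + ξ1 * I) * u i + (-α + ξ2 * I) * v i)‖ ≤ Real.exp (-4 * Z)) :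
    ‖∑ i ∈ s, δ i * cexp (-(α ^ 2 / Z : ℝ) * (p i ^ 2 + (p i + u i) ^ 2 + (p i + v i) ^ 2) +
        (ω1 * p i + ω2 * (p i + u i) + ω3 * (p i + v i)) * I)‖ ≤
      37 * N * Real.exp (-(39 / 10 ^ 10) * Z) := by
  obtain ⟨κ, hκ⟩ : ∃ κ : ℝ, κ = α ^ 2 / Z := ⟨_, rfl⟩
  have hκ0 : 0 < κ := by rw [hκ]; positivity
  obtain ⟨g, hg⟩ : ∃ g : ℝ, g = 3 - κ' / κ := ⟨_, rfl⟩
  have hg1 : 5 / 2 ≤ g := by
    have : κ' / κ ≤ 1 / 2 := by rw [div_le_iff₀ hκ0]; linarith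
    linarith
  have hg2 : g ≤ 3 := by
    have : 0 ≤ κ' / κ := by positivity
    linarith
  have hg0 : 0 < g := by linarith
  have hκ'e : κ' = (3 - g) * κ := by rw [hg]; field_simp; ring
  obtain ⟨k, hk⟩ : ∃ k : ℝ, k = 1 / g := ⟨_, rfl⟩
  have hk1 : 1 / 3 ≤ k := by rw [hk]; exact one_div_le_one_div_of_le hg0 hg2
  have hk2 : k ≤ 2 / 5 := by rw [hk, div_le_iff₀ hg0]; linarith
  have hkg : k * g = 1 := by rw [hk]; field_simp
  have hkgc : (k : ℂ) * g = 1 := by exact_mod_cast hkg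
  have h := gauss_ph' s δ (fun i => (-κ' * p i ^ 2 + (ω1 + ω2 + ω3 : ℝ) * I * p i +
        ω2 * I * u i + ω3 * I * v i - (α ^ 2 / Z / 2 : ℝ) * (u i - v i : ℝ) ^ 2) -
        ((1 / 2 - k) * (α ^ 2 / Z) : ℝ) * (u i + v i : ℝ) ^ 2)
    (fun i => p i + k * (u i + v i)) (κ := g * κ)
    (μ := α / 20000) (Ω := α / 2000) (m := 25 * N * Real.exp (-(3 / 2) * Z))
    (M := 6 * Real.exp (Z / 160000000)) (N := N) (by positivity)
    (by positivity) (by positivity) (by positivity) hN (fun ξ0 hξ0 => by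
      have a0 := abs_le.1 hξ0
      have a2 := abs_le.1 h2
      have a3 := abs_le.1 h3
      have a4 : |k * ξ0| ≤ Ω := by
        rw [abs_mul, abs_of_nonneg (by linarith)]
        nlinarith [abs_nonneg ξ0]
      have a5 := abs_le.1 a4
      refine le_trans (le_of_eq ?_) (window2 s δ p u v (ζ := ω1 + ω2 + ω3 + ξ0)
        (η1 := ω2 + k * ξ0) (η2 := ω3 + k * ξ0) (γ := 1 / 2 - k) (μ := α - k * (α / 20000))
        hα hZ hκ' hΩ hN hN1 hu hv (by linarith) (by linarith) (by nlinarith) (by nlinarith) hδ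
        fun ξ ξ' hξ hξ' => hm _ _ _ ((abs_add_le _ _).trans (by linarith)) ?_ ?_)
      · congr 1
        exact Finset.sum_congr rfl fun i _ => by congr 2; push_cast; ring
      · have := abs_le.1 hξ
        have := abs_le.1 hξ'
        exact abs_le.2 ⟨by linarith, by linarith⟩
      · have := abs_le.1 hξ
        have := abs_le.1 hξ'
        exact abs_le.2 ⟨by linarith, by linarith⟩) (fun i hi => by
      refine (mul_le_mul_of_nonneg_right (hδ i hi) (Real.exp_pos _).le).trans ?_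
      rw [mul_assoc, ← Real.exp_add]
      refine mul_le_mul_of_nonneg_left (Real.exp_le_exp.2 ?_) (by norm_num)
      simp only [add_re, sub_re, mul_re, neg_re, ofReal_re, neg_im, ofReal_im, I_re, I_im,
        ← ofReal_pow, mul_im]
      obtain ⟨t, ht⟩ : ∃ t, t = α * (u i + v i) := ⟨_, rfl⟩
      have t0 : 0 ≤ t := by rw [ht]; exact mul_nonneg hα.le (add_nonneg (hu i) (hv i))
      have e1 : (1 / 2 - k) * (α ^ 2 / Z) * (u i + v i) ^ 2 = (1 / 2 - k) * (t ^ 2 / Z) := by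
        rw [ht]; ring
      have e2 : t / 20000 ≤ t ^ 2 / Z / 10 + Z / 160000000 := by
        have : t ^ 2 / Z / 10 + Z / 160000000 - t / 20000 = (t - Z / 4000) ^ 2 / Z / 10 := by
          field_simp; ring
        have : 0 ≤ (t - Z / 4000) ^ 2 / Z / 10 := by positivity
        linarith
      have e3 : 1 / 10 * (t ^ 2 / Z) ≤ (1 / 2 - k) * (t ^ 2 / Z) :=
        mul_le_mul_of_nonneg_right (by linarith) (by positivity)
      have e4 : α / 20000 * (p i + u i + v i) - α / 20000 * (p i + k * (u i + v i)) =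
        (1 - k) * t / 20000 := by rw [ht]; ring
      rw [e1]
      nlinarith [mul_nonneg hκ' (sq_nonneg (p i)), mul_nonneg (by linarith : 0 ≤ k) t0,
        (by positivity : 0 ≤ α ^ 2 / Z / 2 * (u i - v i) ^ 2)])
  refine le_trans (le_of_eq ?_) (h.trans ?_)
  · congr 1
    refine Finset.sum_congr rfl fun i _ => ?_
    congr 2
    rw [← hκ, hκ'e]
    push_cast
    linear_combination (2 * κ * p i * (u i + v i) + κ * k * (u i + v i) ^ 2 : ℂ) * hkgc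
  · exact window_ar hα hZ hκ hg1 hg2 (by linarith)

end Vale.Agent.P321
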