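import Mathlib
import Vale.Agent.P321.Window
import Vale.Agent.P321.Spec
import Vale.Agent.P321.Cauchy

/-! One step of the multiscale induction. -/

namespace Vale.Agent.P321

open Complex Finset

noncomputable def filt (n e : ℕ) (a : ℕ → ℝ) (β : ℂ) (j : ℕ) : ℂ :=
  ∑ u ∈ range n, a (j + e + u) * cexp (β * ((e : ℂ) + u))

noncomputable def cub (n e1 e2 : ℕ) (β1 β2 : ℂ) (a : ℕ → ℝ) (j : ℕ) : ℂ :=
  a j * filt n e1 a β1 j * filt n e2 a β2 j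

structure Pre (n i0 : ℕ) (s : ℝ) (a b : ℕ → ℝ) : Prop where
  a0 : ∀ j, 0 ≤ a j
  a1 : ∀ j, a j ≤ 1
  b0 : ∀ j, 0 ≤ b j
  b1 : ∀ j, b j ≤ 1
  ai : 1 / 3 ≤ a i0
  az : ∀ j, n ≤ j → a j = 0
  bz : ∀ j, n ≤ j → b j = 0
  hd : ∀ j, |a j - b j| ≤ 2 * Real.exp (((j : ℝ) - i0) / s)

def Gap (n i0 : ℕ) (s L κ : ℝ) (a b : ℕ → ℝ) : Prop :=
  ∃ ω0 : ℝ, |ω0| ≤ 1 / 1000 / s ∧
    Real.exp (-L) ≤ ‖tf n i0 κ (fun j => (a j : ℂ) - b j) (-(1 / 20000 / s : ℝ) + ω0 * I)‖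

lemma Pre.d1 {n i0 : ℕ} {s : ℝ} {a b : ℕ → ℝ} (H : Pre n i0 s a b) (j : ℕ) : |a j - b j| ≤ 1 :=
  abs_le.2 ⟨by linarith [H.a0 j, H.b1 j], by linarith [H.a1 j, H.b0 j]⟩

lemma Pre.dl {n i0 : ℕ} {s : ℝ} {a b : ℕ → ℝ} (H : Pre n i0 s a b) {l : ℝ} (hs : 0 < s)
    (hl0 : 0 ≤ l) (hl : l ≤ 1 / s) (j : ℕ) {t : ℝ} (ht : (j : ℝ) - i0 ≤ t) :
    |a j - b j| ≤ 2 * Real.exp (l * t) := by
  rcases le_total 0 t with h | h
  · linarith [H.d1 j, Real.one_le_exp (mul_nonneg hl0 h)]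
  · refine (H.hd j).trans (mul_le_mul_of_nonneg_left (Real.exp_le_exp.2 ?_) zero_le_two)
    have h1 : ((j : ℝ) - i0) / s ≤ 1 / s * t := by
      rw [one_div_mul_eq_div]; exact div_le_div_of_nonneg_right ht hs.le
    nlinarith

lemma Pre.delta {n i0 : ℕ} {s : ℝ} {a b : ℕ → ℝ} (H : Pre n i0 s a b) {l : ℝ} (hs : 0 < s)
    (hl0 : 0 ≤ l) (hl : l ≤ 1 / s) (j u v : ℕ) :
    ‖(a j * a (j + u) * a (j + v) - b j * b (j + u) * b (j + v) : ℂ)‖ ≤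
      6 * Real.exp (l * ((j : ℝ) - i0 + u + v)) := by
  have u0 : (0 : ℝ) ≤ u := Nat.cast_nonneg u
  have v0 : (0 : ℝ) ≤ v := Nat.cast_nonneg v
  have h1 := H.dl hs hl0 hl j (t := (j : ℝ) - i0 + u + v) (by linarith)
  have h2 := H.dl hs hl0 hl (j + u) (t := (j : ℝ) - i0 + u + v) (by push_cast; linarith)
  have h3 := H.dl hs hl0 hl (j + v) (t := (j : ℝ) - i0 + u + v) (by push_cast; linarith)
  have e : (a j * a (j + u) * a (j + v) - b j * b (j + u) * b (j + v) : ℂ) =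
      ((a j - b j) * (a (j + u) * a (j + v)) + (a (j + u) - b (j + u)) * (b j * a (j + v)) +
        (a (j + v) - b (j + v)) * (b j * b (j + u)) : ℝ) := by push_cast; ring
  rw [e, Complex.norm_real, Real.norm_eq_abs]
  have k : ∀ x y z : ℝ, 0 ≤ y → y ≤ 1 → 0 ≤ z → z ≤ 1 → |x * (y * z)| ≤ |x| := by
    intro x y z y0 y1 z0 z1
    rw [abs_mul, abs_of_nonneg (mul_nonneg y0 z0)]
    exact mul_le_of_le_one_right (abs_nonneg x) (mul_le_one₀ y1 z0 z1)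
  refine (abs_add_three _ _ _).trans ?_
  linarith [k (a j - b j) _ _ (H.a0 (j + u)) (H.a1 _) (H.a0 (j + v)) (H.a1 _),
    k (a (j + u) - b (j + u)) _ _ (H.b0 j) (H.b1 _) (H.a0 (j + v)) (H.a1 _),
    k (a (j + v) - b (j + v)) _ _ (H.b0 j) (H.b1 _) (H.b0 (j + u)) (H.b1 _)]

lemma triple_split (n : ℕ) (f1 f2 f3 : ℕ → ℂ) (h1 : ∀ j, n ≤ j → f1 j = 0)
    (h2 : ∀ j, n ≤ j → f2 j = 0) (h3 : ∀ j, n ≤ j → f3 j = 0) :
    (∑ j ∈ range n, f1 j) * (∑ j ∈ range n, f2 j) * (∑ j ∈ range n, f3 j) =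
      ∑ j ∈ range n, f1 j * (∑ u ∈ range n, f2 (j + 0 + u)) * (∑ v ∈ range n, f3 (j + 0 + v)) +
      ∑ j ∈ range n, f2 j * (∑ u ∈ range n, f1 (j + 1 + u)) * (∑ v ∈ range n, f3 (j + 0 + v)) +
      ∑ j ∈ range n, f3 j * (∑ u ∈ range n, f1 (j + 1 + u)) * (∑ v ∈ range n, f2 (j + 1 + v)) := by
  have rec1 : ∀ f : ℕ → ℂ, (∀ j, n ≤ j → f j = 0) → ∀ j,
      ∑ u ∈ range n, f (j + u) = f j + ∑ u ∈ range n, f (j + 1 + u) := by
    intro f hf j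
    have e1 := Finset.sum_range_succ (fun u => f (j + u)) n
    rw [Finset.sum_range_succ', hf (j + n) (by omega), add_zero, add_zero] at e1
    rw [← e1, add_comm]
    congr 1
    exact Finset.sum_congr rfl fun u _ => by congr 1; omega
  let S : ℕ → ℂ := fun j => (∑ u ∈ range n, f1 (j + u)) * (∑ u ∈ range n, f2 (j + u)) *
    (∑ u ∈ range n, f3 (j + u))
  have e := Finset.sum_range_sub' S n
  have hn : S n = 0 := by
    simp only [S]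
    rw [Finset.sum_eq_zero fun u _ => h3 (n + u) (by omega), mul_zero]
  have h0 : S 0 = (∑ j ∈ range n, f1 j) * (∑ j ∈ range n, f2 j) * (∑ j ∈ range n, f3 j) := by
    simp [S]
  rw [← h0, ← sub_zero (S 0), ← hn, ← e, ← Finset.sum_add_distrib, ← Finset.sum_add_distrib]
  refine Finset.sum_congr rfl fun j _ => ?_
  simp only [S, add_zero]
  rw [rec1 f1 h1 j, rec1 f2 h2 j, rec1 f3 h3 j]
  ring

lemma sum3 (n : ℕ) (f : ℕ → ℂ) (g h : ℕ → ℕ → ℂ) :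
    ∑ j ∈ range n, f j * (∑ u ∈ range n, g j u) * (∑ v ∈ range n, h j v) =
      ∑ i ∈ range n ×ˢ range n ×ˢ range n, f i.1 * g i.1 i.2.1 * h i.1 i.2.2 := by
  rw [Finset.sum_product]
  refine Finset.sum_congr rfl fun j _ => ?_
  rw [Finset.sum_product, mul_assoc, Finset.sum_mul_sum, Finset.mul_sum]
  refine Finset.sum_congr rfl fun u _ => ?_
  rw [Finset.mul_sum]
  exact Finset.sum_congr rfl fun v _ => by ring

noncomputable def W (i0 : ℕ) (κ : ℝ) (a : ℕ → ℝ) (ω : ℝ) (j : ℕ) : ℂ :=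
  a j * cexp (-κ * ((j : ℂ) - i0) ^ 2 + ω * I * ((j : ℂ) - i0))

lemma U_bound {n i0 : ℕ} {s : ℝ} {a b : ℕ → ℝ} (H : Pre n i0 s a b) (e1 e2 : ℕ)
    {α Z κ' ω1 ω2 ω3 : ℝ} (hs : 0 < s) (hn : 1 ≤ n) (hα : 0 < α) (hZ : 0 < Z) (hκ' : 0 ≤ κ')
    (hκ2 : κ' ≤ α ^ 2 / Z / 2) (hΩ : 4 * α ≤ 1 / 1000 / s)
    (h2 : |ω2| ≤ 1 / 1000 / s) (h3 : |ω3| ≤ 1 / 1000 / s) (hω : |ω1 + ω2 + ω3| ≤ α / 2000)
    (hm : ∀ ζ ξ1 ξ2 : ℝ, |ζ| ≤ α / 1000 → |ξ1| ≤ 4 * (1 / 1000 / s) → |ξ2| ≤ 4 * (1 / 1000 / s) →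
      ‖tf n i0 κ' (fun j => cub n e1 e2 (-α + ξ1 * I) (-α + ξ2 * I) a j -
        cub n e1 e2 (-α + ξ1 * I) (-α + ξ2 * I) b j) (-(α / 20000 : ℝ) + ζ * I)‖ ≤
        Real.exp (-4 * Z)) :
    ‖∑ j ∈ range n, W i0 (α ^ 2 / Z) a ω1 j * (∑ u ∈ range n, W i0 (α ^ 2 / Z) a ω2 (j + e1 + u)) *
        (∑ v ∈ range n, W i0 (α ^ 2 / Z) a ω3 (j + e2 + v)) -
      ∑ j ∈ range n, W i0 (α ^ 2 / Z) b ω1 j * (∑ u ∈ range n, W i0 (α ^ 2 / Z) b ω2 (j + e1 + u)) *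
        (∑ v ∈ range n, W i0 (α ^ 2 / Z) b ω3 (j + e2 + v))‖ ≤
      37 * (n : ℝ) ^ 3 * Real.exp (-(39 / 10 ^ 10) * Z) := by
  have hn1 : (1 : ℝ) ≤ n := by exact_mod_cast hn
  have h := window (range n ×ˢ range n ×ˢ range n)
    (fun i => (a i.1 * a (i.1 + (e1 + i.2.1)) * a (i.1 + (e2 + i.2.2)) -
      b i.1 * b (i.1 + (e1 + i.2.1)) * b (i.1 + (e2 + i.2.2)) : ℂ))
    (fun i => (i.1 : ℝ) - i0) (fun i => ((e1 + i.2.1 : ℕ) : ℝ)) (fun i => ((e2 + i.2.2 : ℕ) : ℝ))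
    (N := (n : ℝ) ^ 3) (ω1 := ω1) hα hZ hκ' hκ2 hΩ (by simp; ring_nf; rfl) (one_le_pow₀ hn1)
    (fun _ => Nat.cast_nonneg _) (fun _ => Nat.cast_nonneg _)
    (fun i _ => H.delta hs (by positivity) (by
      have : 1 / 1000 / s = 1 / 1000 * (1 / s) := by ring
      have : 0 < 1 / s := by positivity
      linarith) _ _ _) h2 h3 hω (fun ζ ξ1 ξ2 hζ hξ1 hξ2 => by
      refine le_trans (le_of_eq ?_) (hm ζ ξ1 ξ2 hζ hξ1 hξ2)
      congr 1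
      simp only [tf, cub, filt, sub_mul, Finset.sum_sub_distrib]
      congr 1 <;>
      · simp only [mul_right_comm _ _ (cexp (-κ' * _ + _))]
        rw [sum3]
        refine Finset.sum_congr rfl fun i _ => ?_
        simp only [← add_assoc, Complex.exp_add]
        push_cast
        ring)
  refine le_trans (le_of_eq ?_) h
  congr 1
  rw [sum3, sum3, ← Finset.sum_sub_distrib]
  refine Finset.sum_congr rfl fun i _ => ?_
  have e : ∀ x y z A B C : ℂ, x * cexp A * (y * cexp B) * (z * cexp C) =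
      x * y * z * cexp (A + B + C) := by
    intro x y z A B C; simp only [Complex.exp_add]; ring
  simp only [W, e, ← add_assoc, ← sub_mul]
  congr 2
  push_cast
  ring

lemma tf_conj (n i0 : ℕ) (κ : ℝ) (a : ℕ → ℝ) (ω : ℝ) :
    ∑ j ∈ range n, W i0 κ a (-ω) j = starRingEnd ℂ (∑ j ∈ range n, W i0 κ a ω j) := by
  rw [map_sum]
  refine Finset.sum_congr rfl fun j _ => ?_
  simp only [W, map_mul, Complex.conj_ofReal, ← Complex.exp_conj]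
  congr 2
  simp

lemma W_le (n i0 : ℕ) {κ : ℝ} (hκ : 0 ≤ κ) {a : ℕ → ℝ} (a0 : ∀ j, 0 ≤ a j) (a1 : ∀ j, a j ≤ 1)
    (ω : ℝ) : ‖∑ j ∈ range n, W i0 κ a ω j‖ ≤ n := by
  refine (norm_sum_le _ _).trans ((Finset.sum_le_card_nsmul _ _ 1 fun j _ => ?_).trans (by simp))
  rw [W, norm_term, Complex.norm_real, Real.norm_eq_abs, abs_of_nonneg (a0 j)]
  refine mul_le_one₀ (a1 j) (Real.exp_pos _).le (Real.exp_le_one_iff.2 ?_)
  simp only [mul_re, ofReal_re, I_re, ofReal_im, I_im]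
  nlinarith [mul_nonneg hκ (sq_nonneg ((j : ℝ) - i0))]

lemma W_zero {n i0 : ℕ} (hi : i0 < n) (κ : ℝ) {a : ℕ → ℝ} (a0 : ∀ j, 0 ≤ a j) :
    a i0 ≤ ‖∑ j ∈ range n, W i0 κ a 0 j‖ := by
  have e : ∑ j ∈ range n, W i0 κ a 0 j =
      (∑ j ∈ range n, a j * Real.exp (-κ * ((j : ℝ) - i0) ^ 2) : ℝ) := by
    push_cast
    exact Finset.sum_congr rfl fun j _ => by simp [W]
  rw [e, Complex.norm_real, Real.norm_eq_abs]
  refine le_trans ?_ (le_abs_self _)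
  refine le_trans (le_of_eq (by simp)) (Finset.single_le_sum
    (f := fun j : ℕ => a j * Real.exp (-κ * ((j : ℝ) - i0) ^ 2))
    (fun j _ => mul_nonneg (a0 j) (Real.exp_pos _).le) (Finset.mem_range.2 hi))

lemma step_ar {L n N : ℝ} (hL : 1 ≤ L) (hn0 : 0 ≤ n) (hn : n ≤ Real.exp L) (hN0 : 0 ≤ N)
    (hN : N ≤ 2 * Real.exp L) :
    30000 * n ^ 2 * N * (111 * n ^ 3 * Real.exp (-(39 / 10 ^ 10) * (10 ^ 14 * L))) <
      (Real.exp (-80000 * L) / 2) ^ 4 := by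
  have h1 : 30000 * n ^ 2 * N * (111 * n ^ 3 * Real.exp (-(39 / 10 ^ 10) * (10 ^ 14 * L))) ≤
      30000 * Real.exp L ^ 2 * (2 * Real.exp L) *
        (111 * Real.exp L ^ 3 * Real.exp (-(39 / 10 ^ 10) * (10 ^ 14 * L))) := by gcongr
  have h2 : (Real.exp (-80000 * L) / 2) ^ 4 = Real.exp (69994 * L) / 16 * (Real.exp L ^ 6 *
      Real.exp (-(39 / 10 ^ 10) * (10 ^ 14 * L))) := by
    rw [div_pow, ← Real.exp_nat_mul, ← Real.exp_nat_mul, div_mul_eq_mul_div, ← Real.exp_add,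
      ← Real.exp_add]
    congr 1
    · congr 1; push_cast; ring
    · norm_num
  have h3 : 200000000 < Real.exp (69994 * L) := by
    have := Real.quadratic_le_exp_of_nonneg (x := 69994 * L) (by linarith)
    nlinarith
  refine lt_of_le_of_lt h1 ?_
  rw [h2]
  have h4 : 0 < Real.exp L ^ 6 * Real.exp (-(39 / 10 ^ 10) * (10 ^ 14 * L)) := by positivity
  nlinarith

lemma T_bound {n i0 : ℕ} {s : ℝ} {a b : ℕ → ℝ} (H : Pre n i0 s a b)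
    {α Z κ' ω1 ω2 ω3 : ℝ} (hs : 0 < s) (hn : 1 ≤ n) (hα : 0 < α) (hZ : 0 < Z) (hκ' : 0 ≤ κ')
    (hκ2 : κ' ≤ α ^ 2 / Z / 2) (hΩ : 4 * α ≤ 1 / 1000 / s) (k1 : |ω1| ≤ 1 / 1000 / s)
    (k2 : |ω2| ≤ 1 / 1000 / s) (k3 : |ω3| ≤ 1 / 1000 / s) (k : |ω1 + ω2 + ω3| ≤ α / 2000)
    (hm : ∀ (e1 e2 : ℕ) (ζ ξ1 ξ2 : ℝ), e1 ≤ 1 → e2 ≤ 1 → |ζ| ≤ α / 1000 →
      |ξ1| ≤ 4 * (1 / 1000 / s) → |ξ2| ≤ 4 * (1 / 1000 / s) →
      ‖tf n i0 κ' (fun j => cub n e1 e2 (-α + ξ1 * I) (-α + ξ2 * I) a j -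
        cub n e1 e2 (-α + ξ1 * I) (-α + ξ2 * I) b j) (-(α / 20000 : ℝ) + ζ * I)‖ ≤
        Real.exp (-4 * Z)) :
    ‖(∑ j ∈ range n, W i0 (α ^ 2 / Z) a ω1 j) * (∑ j ∈ range n, W i0 (α ^ 2 / Z) a ω2 j) *
        (∑ j ∈ range n, W i0 (α ^ 2 / Z) a ω3 j) -
      (∑ j ∈ range n, W i0 (α ^ 2 / Z) b ω1 j) * (∑ j ∈ range n, W i0 (α ^ 2 / Z) b ω2 j) *
        (∑ j ∈ range n, W i0 (α ^ 2 / Z) b ω3 j)‖ ≤
      111 * (n : ℝ) ^ 3 * Real.exp (-(39 / 10 ^ 10) * Z) := by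
  have za : ∀ ω j, n ≤ j → W i0 (α ^ 2 / Z) a ω j = 0 := fun ω j hj => by simp [W, H.az j hj]
  have zb : ∀ ω j, n ≤ j → W i0 (α ^ 2 / Z) b ω j = 0 := fun ω j hj => by simp [W, H.bz j hj]
  have u1 := U_bound H 0 0 hs hn hα hZ hκ' hκ2 hΩ k2 k3 k
    fun ζ ξ1 ξ2 => hm 0 0 ζ ξ1 ξ2 (by omega) (by omega)
  have u2 := U_bound H 1 0 (ω1 := ω2) hs hn hα hZ hκ' hκ2 hΩ k1 k3 (by rwa [add_comm ω2])
    fun ζ ξ1 ξ2 => hm 1 0 ζ ξ1 ξ2 (by omega) (by omega)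
  have u3 := U_bound H 1 1 (ω1 := ω3) hs hn hα hZ hκ' hκ2 hΩ k1 k2
    (by rwa [add_assoc, add_comm ω3]) fun ζ ξ1 ξ2 => hm 1 1 ζ ξ1 ξ2 (by omega) (by omega)
  rw [triple_split n _ _ _ (za ω1) (za ω2) (za ω3), triple_split n _ _ _ (zb ω1) (zb ω2) (zb ω3),
    add_sub_add_comm, add_sub_add_comm]
  refine norm_add₃_le.trans ((add_le_add (add_le_add u1 u2) u3).trans (le_of_eq ?_))
  ring

theorem step_main {n i0 : ℕ} {s L α κ' Z : ℝ} {a b : ℕ → ℝ} (H : Pre n i0 s a b) (hs : 1 ≤ s)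
    (hL : 1 ≤ L) (hZ : Z = 10 ^ 14 * L) (hn : (n : ℝ) ≤ Real.exp L) (hi : i0 < n) (hα : 0 < α)
    (hΩ : 4 * α ≤ 1 / 1000 / s) (hα2 : 1 ≤ α * s * Real.exp L) (hκ' : 0 ≤ κ')
    (hκ2 : κ' ≤ α ^ 2 / Z / 2) (hG : Gap n i0 s L (α ^ 2 / Z) a b) :
    ∃ (e1 e2 : ℕ) (ζ ξ1 ξ2 : ℝ), e1 ≤ 1 ∧ e2 ≤ 1 ∧ |ζ| ≤ α / 1000 ∧ |ξ1| ≤ 4 * (1 / 1000 / s) ∧
      |ξ2| ≤ 4 * (1 / 1000 / s) ∧ Real.exp (-4 * Z) <
      ‖tf n i0 κ' (fun j => cub n e1 e2 (-α + ξ1 * I) (-α + ξ2 * I) a j -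
        cub n e1 e2 (-α + ξ1 * I) (-α + ξ2 * I) b j) (-(α / 20000 : ℝ) + ζ * I)‖ := by
  by_contra hcon
  push Not at hcon
  have hs0 : 0 < s := by linarith
  have hn1 : 1 ≤ n := by omega
  have hZ0 : 0 < Z := by rw [hZ]; positivity
  have hκ : 0 ≤ α ^ 2 / Z := by positivity
  obtain ⟨ω0, hω0, hG⟩ := hG
  have hbad := bad_small hs hκ hL hn (d := fun j => (a j : ℂ) - b j)
    (fun j => by rw [← Complex.ofReal_sub, Complex.norm_real]; exact H.d1 j)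
    (fun j => by rw [← Complex.ofReal_sub, Complex.norm_real]; exact H.hd j) hω0 hG
  have e : ∀ ω : ℝ, tf n i0 (α ^ 2 / Z) (fun j => (a j : ℂ) - b j) (ω * I) =
      ∑ j ∈ range n, W i0 (α ^ 2 / Z) a ω j - ∑ j ∈ range n, W i0 (α ^ 2 / Z) b ω j := by
    intro ω
    simp only [tf, W, sub_mul, Finset.sum_sub_distrib]
  simp only [e] at hbad
  have hN : (⌈Real.exp L⌉₊ : ℝ) ≤ 2 * Real.exp L := by
    linarith [Nat.ceil_lt_add_one (Real.exp_pos L).le, Real.one_le_exp (by linarith : 0 ≤ L)]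
  have hN2 : 1 / 1000 / s / 2 ≤ (⌈Real.exp L⌉₊ : ℝ) * (α / 2000) := by
    rw [div_div, div_div, div_le_iff₀ (by positivity)]
    nlinarith [mul_le_mul_of_nonneg_left (Nat.le_ceil (Real.exp L)) (mul_pos hα hs0).le]
  have hτ : Real.exp (-80000 * L) / 2 ≤ 1 := by
    linarith [Real.exp_le_one_iff.2 (by linarith : -80000 * L ≤ 0)]
  have key := three_point (by positivity) (by positivity) hN2
    (Nat.ceil_pos.2 (Real.exp_pos L)) (by positivity) hτ (show (1 : ℝ) ≤ n by exact_mod_cast hn1)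
    (tf_conj n i0 _ a) (tf_conj n i0 _ b) (W_le n i0 hκ H.a0 H.a1) (W_le n i0 hκ H.b0 H.b1)
    (H.ai.trans (W_zero hi _ H.a0))
    (fun ω1 ω2 ω3 k1 k2 k3 k => T_bound H hs0 hn1 hα hZ0 hκ' hκ2 hΩ k1 k2 k3 k hcon) hbad
  rw [hZ] at key
  exact absurd key (not_le.2 (step_ar hL (Nat.cast_nonneg n) hn (Nat.cast_nonneg _) hN))

/-- the next real signal -/
noncomputable def nxt (n e1 e2 : ℕ) (β1 β2 c : ℂ) (a : ℕ → ℝ) (j : ℕ) : ℝ :=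
  if j < n then 2 / 3 + (c * cub n e1 e2 β1 β2 a j).re / (3 * n ^ 2) else 0

lemma filt_le (n e : ℕ) {a : ℕ → ℝ} (a0 : ∀ j, 0 ≤ a j) (a1 : ∀ j, a j ≤ 1) {β : ℂ}
    (hβ : β.re ≤ 0) (j : ℕ) : ‖filt n e a β j‖ ≤ n := by
  refine (norm_sum_le _ _).trans ((Finset.sum_le_card_nsmul _ _ 1 fun u _ => ?_).trans (by simp))
  rw [norm_mul, Complex.norm_real, Real.norm_eq_abs, abs_of_nonneg (a0 _), Complex.norm_exp]
  refine mul_le_one₀ (a1 _) (Real.exp_pos _).le (Real.exp_le_one_iff.2 ?_)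
  simp only [mul_re, add_re, natCast_re, add_im, natCast_im, add_zero, mul_zero, sub_zero]
  exact mul_nonpos_of_nonpos_of_nonneg hβ (by positivity)

lemma nxt_bd {n : ℕ} (e1 e2 : ℕ) {β1 β2 c : ℂ} (h1 : β1.re ≤ 0) (h2 : β2.re ≤ 0) (hc : ‖c‖ ≤ 1)
    {a : ℕ → ℝ} (a0 : ∀ j, 0 ≤ a j) (a1 : ∀ j, a j ≤ 1) {j : ℕ} (hj : j < n) :
    1 / 3 ≤ nxt n e1 e2 β1 β2 c a j ∧ nxt n e1 e2 β1 β2 c a j ≤ 1 := by
  have hn : (0 : ℝ) < n := by exact_mod_cast (show 0 < n by omega)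
  have h3 : ‖c * cub n e1 e2 β1 β2 a j‖ ≤ n ^ 2 := by
    rw [norm_mul, cub, norm_mul, norm_mul, Complex.norm_real, Real.norm_eq_abs,
      abs_of_nonneg (a0 _)]
    refine (mul_le_of_le_one_left (by have := a0 j; positivity) hc).trans ?_
    rw [sq]
    exact mul_le_mul ((mul_le_of_le_one_left (norm_nonneg _) (a1 j)).trans
      (filt_le n e1 a0 a1 h1 j)) (filt_le n e2 a0 a1 h2 j) (norm_nonneg _) hn.le
  have h4 := abs_le.1 ((Complex.abs_re_le_norm _).trans h3)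
  have h5 : (c * cub n e1 e2 β1 β2 a j).re / (3 * n ^ 2) ≤ 1 / 3 := by
    rw [div_le_iff₀ (by positivity)]; linarith
  have h6 : -(1 / 3) ≤ (c * cub n e1 e2 β1 β2 a j).re / (3 * n ^ 2) := by
    rw [le_div_iff₀ (by positivity)]; linarith
  rw [nxt, if_pos hj]
  constructor <;> linarith

lemma Pre.next {n i0 : ℕ} {s α : ℝ} {a b : ℕ → ℝ} (H : Pre n i0 s a b) (hs : 0 < s) (hi : i0 < n)
    (hα : 0 < α) (hαs : α ≤ 1 / s) (e1 e2 : ℕ) (ξ1 ξ2 : ℝ) {c : ℂ} (hc : ‖c‖ ≤ 1) :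
    Pre n i0 (1 / α) (nxt n e1 e2 (-α + ξ1 * I) (-α + ξ2 * I) c a)
      (nxt n e1 e2 (-α + ξ1 * I) (-α + ξ2 * I) c b) := by
  have r : ∀ ξ : ℝ, (-α + ξ * I : ℂ).re ≤ 0 := fun ξ => by simp [hα.le]
  have ba := fun j => nxt_bd (n := n) (j := j) e1 e2 (r ξ1) (r ξ2) hc H.a0 H.a1
  have bb := fun j => nxt_bd (n := n) (j := j) e1 e2 (r ξ1) (r ξ2) hc H.b0 H.b1
  have z : ∀ (a : ℕ → ℝ) j, n ≤ j → nxt n e1 e2 (-α + ξ1 * I) (-α + ξ2 * I) c a j = 0 :=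
    fun a j hj => by rw [nxt, if_neg (by omega)]
  refine ⟨fun j => ?_, fun j => ?_, fun j => ?_, fun j => ?_, (ba i0 hi).1, z a, z b, fun j => ?_⟩
  · rcases lt_or_ge j n with h | h
    · linarith [(ba j h).1]
    · rw [z a j h]
  · rcases lt_or_ge j n with h | h
    · exact (ba j h).2
    · rw [z a j h]; norm_num
  · rcases lt_or_ge j n with h | h
    · linarith [(bb j h).1]
    · rw [z b j h]
  · rcases lt_or_ge j n with h | h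
    · exact (bb j h).2
    · rw [z b j h]; norm_num
  · rcases lt_or_ge j n with h | h
    · have hn : (0 : ℝ) < n := by exact_mod_cast (show 0 < n by omega)
      rw [nxt, nxt, if_pos h, if_pos h, add_sub_add_left_eq_sub, ← sub_div, ← sub_re, ← mul_sub,
        abs_div, abs_of_pos (by positivity : (0 : ℝ) < 3 * n ^ 2), div_le_iff₀ (by positivity)]
      refine (Complex.abs_re_le_norm _).trans ?_
      rw [norm_mul]
      refine (mul_le_of_le_one_left (norm_nonneg _) hc).trans ?_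
      have e : cub n e1 e2 (-α + ξ1 * I) (-α + ξ2 * I) a j -
          cub n e1 e2 (-α + ξ1 * I) (-α + ξ2 * I) b j = ∑ i ∈ range n ×ˢ range n,
          (a j * a (j + (e1 + i.1)) * a (j + (e2 + i.2)) -
            b j * b (j + (e1 + i.1)) * b (j + (e2 + i.2)) : ℂ) *
            cexp ((-α + ξ1 * I) * (e1 + i.1) + (-α + ξ2 * I) * (e2 + i.2)) := by
        simp only [cub, filt, mul_assoc, Finset.sum_mul_sum]
        simp only [Finset.sum_product, Finset.mul_sum, ← Finset.sum_sub_distrib]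
        refine Finset.sum_congr rfl fun u _ => Finset.sum_congr rfl fun v _ => ?_
        simp only [Complex.exp_add, ← add_assoc]
        ring
      rw [e]
      refine (norm_sum_le _ _).trans ((Finset.sum_le_card_nsmul _ _
        (6 * Real.exp (((j : ℝ) - i0) / (1 / α))) fun i _ => ?_).trans (le_of_eq ?_))
      · rw [norm_mul, Complex.norm_exp]
        refine (mul_le_mul_of_nonneg_right (H.delta hs hα.le hαs j _ _) (Real.exp_pos _).le).trans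
          (le_of_eq ?_)
        rw [mul_assoc, ← Real.exp_add]
        congr 2
        simp
        ring
      · simp; ring
    · rw [z a j h, z b j h]; simp; positivity

lemma re_im_split {n i0 : ℕ} (hi : i0 < n) (κ : ℝ) (β : ℂ) (e1 e2 : ℕ) (β1 β2 : ℂ)
    (a b : ℕ → ℝ) : ∃ c : ℂ, ‖c‖ ≤ 1 ∧
      ‖tf n i0 κ (fun j => cub n e1 e2 β1 β2 a j - cub n e1 e2 β1 β2 b j) β‖ ≤ 6 * n ^ 2 *
        ‖tf n i0 κ (fun j => (nxt n e1 e2 β1 β2 c a j : ℂ) - nxt n e1 e2 β1 β2 c b j) β‖ := by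
  have hn : (n : ℂ) ≠ 0 := by exact_mod_cast (show n ≠ 0 by omega)
  have e : tf n i0 κ (fun j => cub n e1 e2 β1 β2 a j - cub n e1 e2 β1 β2 b j) β = 3 * n ^ 2 *
      (tf n i0 κ (fun j => (nxt n e1 e2 β1 β2 1 a j : ℂ) - nxt n e1 e2 β1 β2 1 b j) β + I *
      tf n i0 κ (fun j => (nxt n e1 e2 β1 β2 (-I) a j : ℂ) - nxt n e1 e2 β1 β2 (-I) b j) β) := by
    simp only [tf, Finset.mul_sum, ← Finset.sum_add_distrib]
    refine Finset.sum_congr rfl fun j hj => ?_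
    simp only [nxt, if_pos (Finset.mem_range.1 hj), one_mul, neg_mul, neg_re, I_mul_re, neg_neg]
    conv_lhs => rw [← Complex.re_add_im (cub n e1 e2 β1 β2 a j),
      ← Complex.re_add_im (cub n e1 e2 β1 β2 b j)]
    push_cast
    field_simp
    ring
  have f2 := congrArg norm e
  rw [norm_mul, show ‖(3 * n ^ 2 : ℂ)‖ = 3 * n ^ 2 by simp] at f2
  have e3 := norm_add_le
    (tf n i0 κ (fun j => (nxt n e1 e2 β1 β2 1 a j : ℂ) - nxt n e1 e2 β1 β2 1 b j) β) (I *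
      tf n i0 κ (fun j => (nxt n e1 e2 β1 β2 (-I) a j : ℂ) - nxt n e1 e2 β1 β2 (-I) b j) β)
  rw [norm_mul, Complex.norm_I, one_mul] at e3
  have e4 := mul_le_mul_of_nonneg_left e3 (by positivity : (0 : ℝ) ≤ 3 * n ^ 2)
  have n0 : (0 : ℝ) ≤ 3 * n ^ 2 := by positivity
  rcases le_total
    ‖tf n i0 κ (fun j => (nxt n e1 e2 β1 β2 1 a j : ℂ) - nxt n e1 e2 β1 β2 1 b j) β‖
    ‖tf n i0 κ (fun j => (nxt n e1 e2 β1 β2 (-I) a j : ℂ) - nxt n e1 e2 β1 β2 (-I) b j) β‖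
    with h | h
  · exact ⟨-I, by simp, by nlinarith [mul_le_mul_of_nonneg_left h n0]⟩
  · exact ⟨1, by simp, by nlinarith [mul_le_mul_of_nonneg_left h n0]⟩

theorem step {n i0 : ℕ} {s L α κ' : ℝ} {a b : ℕ → ℝ} (H : Pre n i0 s a b) (hs : 1 ≤ s)
    (hL : 1 ≤ L) (hn : (n : ℝ) ≤ Real.exp L) (hi : i0 < n) (hα : 0 < α)
    (hΩ : 4 * α ≤ 1 / 1000 / s) (hα2 : 1 ≤ α * s * Real.exp L) (hκ' : 0 ≤ κ')
    (hκ2 : κ' ≤ α ^ 2 / (10 ^ 14 * L) / 2) (hG : Gap n i0 s L (α ^ 2 / (10 ^ 14 * L)) a b) :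
    ∃ (e1 e2 : ℕ) (ξ1 ξ2 : ℝ) (c : ℂ), e1 ≤ 1 ∧ e2 ≤ 1 ∧ |ξ1| ≤ 4 * (1 / 1000 / s) ∧
      |ξ2| ≤ 4 * (1 / 1000 / s) ∧ ‖c‖ ≤ 1 ∧
      Pre n i0 (1 / α) (nxt n e1 e2 (-α + ξ1 * I) (-α + ξ2 * I) c a)
        (nxt n e1 e2 (-α + ξ1 * I) (-α + ξ2 * I) c b) ∧
      Gap n i0 (1 / α) (5 * 10 ^ 14 * L) κ' (nxt n e1 e2 (-α + ξ1 * I) (-α + ξ2 * I) c a)
        (nxt n e1 e2 (-α + ξ1 * I) (-α + ξ2 * I) c b) := by
  obtain ⟨e1, e2, ζ, ξ1, ξ2, h1, h2, hζ, hξ1, hξ2, h⟩ :=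
    step_main H hs hL rfl hn hi hα hΩ hα2 hκ' hκ2 hG
  obtain ⟨c, hc, h'⟩ := re_im_split hi κ' (-(α / 20000 : ℝ) + ζ * I) e1 e2 (-α + ξ1 * I)
    (-α + ξ2 * I) a b
  have hs0 : 0 < s := by linarith
  refine ⟨e1, e2, ξ1, ξ2, c, h1, h2, hξ1, hξ2, hc, H.next hs0 hi hα ?_ e1 e2 ξ1 ξ2 hc, ζ, ?_, ?_⟩
  · have : 1 / 1000 / s = 1 / 1000 * (1 / s) := by ring
    have : 0 < 1 / s := by positivity
    linarith
  · rw [show 1 / 1000 / (1 / α) = α / 1000 by field_simp]; exact hζ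
  · rw [show 1 / 20000 / (1 / α) = α / 20000 by field_simp]
    have hn0 : (0 : ℝ) < n := by exact_mod_cast (show 0 < n by omega)
    refine le_of_mul_le_mul_left (le_trans ?_ (h.le.trans h')) (by positivity : (0 : ℝ) < 6 * n ^ 2)
    have e1 : Real.exp (-4 * (10 ^ 14 * L)) = Real.exp ((10 ^ 14 - 2) * L) * Real.exp L ^ 2 *
        Real.exp (-(5 * 10 ^ 14 * L)) := by
      rw [← Real.exp_nat_mul, ← Real.exp_add, ← Real.exp_add]; congr 1; push_cast; ring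
    have e2 : 6 ≤ Real.exp ((10 ^ 14 - 2) * L) := by
      nlinarith [Real.add_one_le_exp ((10 ^ 14 - 2) * L)]
    rw [e1]
    gcongr

end Vale.Agent.P321
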