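import Mathlib
import Vale.Agent.P321.Adm
import Vale.Agent.P321.Step

/-! The multiscale induction on signals read from suffixes. -/

namespace Vale.Agent.P321

open Complex Finset

def sig (Γ : List Bool → ℝ) (x : List Bool) (j : ℕ) : ℝ := Γ (x.drop j)

def Sig (K : ℝ) (h : ℕ) (B : ℝ) (Γ : List Bool → ℝ) : Prop :=
  Γ [] = 0 ∧ ∀ b, Adm K h B fun x => (Γ (b :: x) : ℂ)

noncomputable def lf (β : ℂ) (Γ : List Bool → ℝ) : List Bool → ℂ
  | [] => 0
  | b :: x => cexp β * lf β Γ x + Γ (b :: x)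

lemma lf_eq (β : ℂ) {Γ : List Bool → ℝ} (h0 : Γ [] = 0) (n : ℕ) :
    ∀ x : List Bool, x.length ≤ n → lf β Γ x = ∑ u ∈ range n, Γ (x.drop u) * cexp (β * u) := by
  induction n with
  | zero => intro x hx; rw [List.length_eq_zero_iff.1 (Nat.le_zero.1 hx)]; simp [lf]
  | succ n ih =>
    intro x hx
    cases x with
    | nil => simp [lf, h0]
    | cons b x =>
      rw [lf, ih x (by simpa using hx), Finset.sum_range_succ', Finset.mul_sum]
      congr 1
      · refine Finset.sum_congr rfl fun u _ => ?_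
        rw [List.drop_succ_cons, mul_left_comm, ← Complex.exp_add]
        congr 2; push_cast; ring
      · simp

lemma Sig.lf {K : ℝ} {h : ℕ} {B : ℝ} {Γ : List Bool → ℝ} (H : Sig K h B Γ) {β : ℂ}
    (hβ : InD K (cexp β)) : Adm K (h + 1) B (lf β Γ) :=
  .step (cexp β) (fun b x => (Γ (b :: x) : ℂ)) hβ
    (by simpa [Vale.Agent.P321.lf] using (H.2 true).nonneg) H.2 fun _ _ => rfl

noncomputable def lfe (e : ℕ) (β : ℂ) (Γ : List Bool → ℝ) (y : List Bool) : ℂ :=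
  cexp (β * e) * lf β Γ (y.drop e)

lemma filt_sig (β : ℂ) {Γ : List Bool → ℝ} (h0 : Γ [] = 0) {n : ℕ} {x : List Bool}
    (hx : x.length = n) (e j : ℕ) : filt n e (sig Γ x) β j = lfe e β Γ (x.drop j) := by
  rw [lfe, lf_eq β h0 n _ (by simp; omega), filt, Finset.mul_sum]
  refine Finset.sum_congr rfl fun u _ => ?_
  rw [sig, List.drop_drop, List.drop_drop, mul_left_comm, ← Complex.exp_add, add_assoc]
  congr 2; ring

lemma Sig.lfe {K : ℝ} (hK : 0 < K) {h : ℕ} {B : ℝ} {Γ : List Bool → ℝ} (H : Sig K h B Γ) {β : ℂ}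
    (hβ : InD K (cexp β)) {e : ℕ} (he : e ≤ 1) (b : Bool) :
    Adm K (h + 1) (2 * B) fun x => lfe e β Γ (b :: x) := by
  have h1 := (H.lf hβ).smul_le (hβ.norm_le hK)
  have hB := h1.nonneg
  interval_cases e
  · exact ((h1.add ((H.2 b).mono (Nat.le_succ h) le_rfl)).mono le_rfl (by linarith)).congr
      fun x => by simp [Vale.Agent.P321.lfe, Vale.Agent.P321.lf]
  · exact (h1.mono le_rfl (by linarith)).congr fun x => by simp [Vale.Agent.P321.lfe]

noncomputable def nxtG (n e1 e2 : ℕ) (β1 β2 c : ℂ) (Γ : List Bool → ℝ) : List Bool → ℝ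
  | [] => 0
  | b :: x => 2 / 3 + (c * (Γ (b :: x) * lfe e1 β1 Γ (b :: x) * lfe e2 β2 Γ (b :: x))).re /
      (3 * n ^ 2)

lemma sig_nxt (e1 e2 : ℕ) (β1 β2 c : ℂ) {Γ : List Bool → ℝ} (h0 : Γ [] = 0) {n : ℕ}
    {x : List Bool} (hx : x.length = n) :
    sig (nxtG n e1 e2 β1 β2 c Γ) x = nxt n e1 e2 β1 β2 c (sig Γ x) := by
  funext j
  rw [nxt, cub, filt_sig β1 h0 hx, filt_sig β2 h0 hx, sig, sig]
  split_ifs with hj
  · obtain ⟨b, y, hy⟩ : ∃ b y, x.drop j = b :: y :=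
      ⟨_, _, (List.drop_eq_getElem_cons (by omega))⟩
    rw [hy, nxtG]
  · rw [List.drop_of_length_le (by omega), nxtG]

lemma Sig.next {K : ℝ} (hK : 0 < K) {N : ℕ} (hN : 1 ≤ N) {Γ : List Bool → ℝ}
    (H : Sig K N (3 ^ N) Γ) {n : ℕ} (hn : 1 ≤ n) {e1 e2 : ℕ} (h1 : e1 ≤ 1) (h2 : e2 ≤ 1)
    {β1 β2 c : ℂ} (hβ1 : InD K (cexp β1)) (hβ2 : InD K (cexp β2)) (hc : ‖c‖ ≤ 1) :
    Sig (K / 4) (13 * N) (3 ^ (13 * N)) (nxtG n e1 e2 β1 β2 c Γ) := by
  refine ⟨rfl, fun b => ?_⟩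
  have a1 := ((H.2 b).mul hK (H.lfe hK hβ1 h1 b)).mul (half_pos hK)
    ((H.lfe hK hβ2 h2 b).monoK (half_pos hK) (half_le_self hK.le))
  rw [show K / 2 / 2 = K / 4 by ring] at a1
  have hn1 : (1 : ℝ) ≤ n := by exact_mod_cast hn
  have hc2 : ‖((1 / (6 * n ^ 2) : ℝ) : ℂ)‖ ≤ 1 := by
    rw [Complex.norm_real, Real.norm_eq_abs, abs_of_nonneg (by positivity), div_le_one
      (by positivity)]
    nlinarith
  have a2 := a1.smul_le hc
  have a3 := (a2.add a2.conj).smul_le hc2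
  have a4 := ((adm_const (by positivity : 0 < K / 4) ((2 / 3 : ℝ) : ℂ)).mono
    (h' := N + (N + 1) + (N + 1)) (B' := 1) (by omega) (by
      rw [Complex.norm_real]; norm_num)).add a3
  refine (a4.mono (by omega) ?_).congr fun x => ?_
  · have e1 : (3 : ℝ) ^ (N + (N + 1) + (N + 1)) * (3 ^ (N + (N + 1)) * 3 ^ N * (2 * 3 ^ N)) *
        (2 * 3 ^ N) = 4 * 3 ^ (8 * N + 3) := by ring
    have e2 : (3 : ℝ) ^ (8 * N + 3 + 2) ≤ 3 ^ (13 * N) := pow_le_pow_right₀ (by norm_num) (by omega)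
    have e3 : (1 : ℝ) ≤ 3 ^ (8 * N + 3) := one_le_pow₀ (by norm_num)
    rw [pow_add] at e2
    rw [e1]
    linarith
  · simp only [nxtG, Pi.add_apply, Pi.smul_apply, Pi.mul_apply, smul_eq_mul]
    rw [Complex.add_conj]
    push_cast
    ring

def Good (n i0 : ℕ) (x y : List Bool) (K K' : ℝ) (N : ℕ) (t L : ℝ) : Prop :=
  ∀ κ : ℝ, 0 ≤ κ → κ ≤ (1 / (K * t ^ 2)) ^ 2 / (10 ^ 14 * L) → ∃ Γ, Sig K' N (3 ^ N) Γ ∧
    Pre n i0 (K * t) (sig Γ x) (sig Γ y) ∧ Gap n i0 (K * t) L κ (sig Γ x) (sig Γ y)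

lemma Good.next {n i0 : ℕ} {x y : List Bool} (hx : x.length = n) (hy : y.length = n)
    (hi : i0 < n) {K K' : ℝ} {N : ℕ} {t L : ℝ} (hK : 1 ≤ K) (hK' : 0 < K') (hKK : K' ≤ K)
    (hN : 1 ≤ N) (ht : 4000 ≤ t) (htL : t ≤ Real.exp L) (hL : 1 ≤ L) (hn : (n : ℝ) ≤ Real.exp L)
    (H : Good n i0 x y K K' N t L) :
    Good n i0 x y K (K' / 4) (13 * N) (t ^ 2) (5 * 10 ^ 14 * L) := by
  intro κ hκ0 hκ
  have ht0 : 0 < t := by linarith
  have hK0 : 0 < K := by linarith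
  obtain ⟨Γ, hS, hP, hG⟩ := H _ (by positivity) le_rfl
  obtain ⟨e1, e2, ξ1, ξ2, c, h1, h2, hξ1, hξ2, hc, hP', hG'⟩ := step (α := 1 / (K * t ^ 2))
    (κ' := κ) hP (by nlinarith) hL hn hi (by positivity) (by
      rw [mul_one_div, div_div, div_le_div_iff₀ (by positivity) (by positivity)]
      nlinarith [mul_pos hK0 ht0]) (by
      rw [show 1 / (K * t ^ 2) * (K * t) = 1 / t by field_simp, one_div_mul_eq_div, one_le_div ht0]
      exact htL) hκ0 (hκ.trans (by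
      rw [div_div]
      refine div_le_div₀ (by positivity) (pow_le_pow_left₀ (by positivity)
        (one_div_le_one_div_of_le (by positivity) ?_) 2) (by positivity) (by linarith)
      refine mul_le_mul_of_nonneg_left ?_ hK0.le
      exact le_self_pow₀ (one_le_pow₀ (by linarith)) (by norm_num))) hG
  have hD : ∀ ξ : ℝ, |ξ| ≤ 4 * (1 / 1000 / (K * t)) →
      InD K' (cexp (-(1 / (K * t ^ 2) : ℝ) + ξ * I)) := by
    intro ξ hξ
    refine InD.mono hK' hKK ⟨1 / (K * t ^ 2), ξ, ?_, ?_, rfl⟩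
    · have h3 : ξ ^ 2 ≤ (1 / (K * t)) ^ 2 := by
        rw [← sq_abs]
        refine pow_le_pow_left₀ (abs_nonneg _) (hξ.trans ?_) 2
        have : 0 < 1 / (K * t) := by positivity
        rw [show 1 / 1000 / (K * t) = 1 / 1000 * (1 / (K * t)) by ring]
        linarith
      refine (mul_le_mul_of_nonneg_left h3 hK0.le).trans (le_of_eq ?_)
      field_simp
    · exact one_div_le_one_div_of_le hK0 (le_mul_of_one_le_right hK0.le (by nlinarith))
  rw [one_div_one_div, ← sig_nxt _ _ _ _ _ hS.1 hx, ← sig_nxt _ _ _ _ _ hS.1 hy] at hP' hG'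
  exact ⟨_, hS.next hK' hN (by omega) h1 h2 (hD ξ1 hξ1) (hD ξ2 hξ2) hc, hP', hG'⟩

noncomputable def g0 : Option Bool → ℝ
  | none => 0
  | some true => 1
  | some false => 1 / 2

lemma good_base {n i0 : ℕ} {x y : List Bool} (hx : x.length = n) (hy : y.length = n)
    (hi : i0 < n) (h1 : ∀ j < i0, x[j]? = y[j]?) (h2 : x[i0]? ≠ y[i0]?) {K L : ℝ} (hK : 1 ≤ K)
    (hL : 4000 * (K * 4000) * Real.log (2 * n) ≤ L) : Good n i0 x y K K 1 4000 L := by
  intro κ hκ0 _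
  have hs : ∀ (z : List Bool) j, sig (fun w => g0 w.head?) z j = g0 z[j]? := fun z j => by
    rw [sig, List.head?_drop]
  have g1 : ∀ o, 0 ≤ g0 o ∧ g0 o ≤ 1 := by
    rintro (_ | _ | _) <;> simp only [g0] <;> norm_num
  have hd1 : ∀ j : ℕ, |g0 x[j]? - g0 y[j]?| ≤ 1 := fun j =>
    abs_le.2 ⟨by linarith [(g1 x[j]?).1, (g1 y[j]?).2], by linarith [(g1 x[j]?).2, (g1 y[j]?).1]⟩
  refine ⟨fun w => g0 w.head?, ⟨rfl, fun b => ?_⟩, ⟨?_, ?_, ?_, ?_, ?_, ?_, ?_, ?_⟩, ?_⟩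
  · refine ((adm_const (by linarith) (g0 (some b))).mono le_rfl ?_).congr fun w => rfl
    rw [Complex.norm_real, Real.norm_eq_abs, abs_of_nonneg (g1 _).1]
    linarith [(g1 (some b)).2]
  · intro j; rw [hs]; exact (g1 _).1
  · intro j; rw [hs]; exact (g1 _).2
  · intro j; rw [hs]; exact (g1 _).1
  · intro j; rw [hs]; exact (g1 _).2
  · rw [hs, List.getElem?_eq_getElem (by omega)]
    cases x[i0] <;> simp only [g0] <;> norm_num
  · intro j hj; rw [hs, List.getElem?_eq_none (by omega)]; rfl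
  · intro j hj; rw [hs, List.getElem?_eq_none (by omega)]; rfl
  · intro j
    rw [hs, hs]
    rcases lt_or_ge j i0 with h | h
    · rw [h1 j h, sub_self, abs_zero]; positivity
    · have h3 : (i0 : ℝ) ≤ j := by exact_mod_cast h
      have h4 : 0 ≤ ((j : ℝ) - i0) / (K * 4000) := div_nonneg (by linarith) (by linarith)
      linarith [hd1 j, Real.one_le_exp h4]
  · refine base_large (by linarith) hκ0 hi hL (fun j => ?_) (fun j hj => ?_) ?_
    · rw [← Complex.ofReal_sub, Complex.norm_real, hs, hs]; exact hd1 j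
    · rw [hs, hs, h1 j hj, sub_self]
    · rw [← Complex.ofReal_sub, Complex.norm_real, hs, hs]
      rw [List.getElem?_eq_getElem (by omega), List.getElem?_eq_getElem (by omega)] at h2 ⊢
      revert h2
      cases x[i0] <;> cases y[i0] <;> simp only [g0] <;> norm_num

lemma good_all {n i0 : ℕ} {x y : List Bool} (hx : x.length = n) (hy : y.length = n)
    (hi : i0 < n) (h1 : ∀ j < i0, x[j]? = y[j]?) (h2 : x[i0]? ≠ y[i0]?) {K L : ℝ} (hK : 1 ≤ K)
    (hL : 4000 * (K * 4000) * Real.log (2 * n) ≤ L) (l : ℕ) :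
    Good n i0 x y K (K / 4 ^ l) (13 ^ l) (4000 ^ 2 ^ l) ((5 * 10 ^ 14) ^ l * L) ∧
      (4000 : ℝ) ^ 2 ^ l ≤ Real.exp ((5 * 10 ^ 14) ^ l * L) := by
  have hn1 : (1 : ℝ) ≤ n := by exact_mod_cast (show 1 ≤ n by omega)
  have hl2 : 1 / 2 ≤ Real.log (2 * n) := by
    linarith [Real.log_two_gt_d9, Real.log_le_log (by norm_num) (by linarith : (2 : ℝ) ≤ 2 * n)]
  have hL1 : 4000 ≤ L := by nlinarith
  have hnL : (n : ℝ) ≤ Real.exp L := by
    rw [← Real.log_le_iff_le_exp (by linarith)]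
    nlinarith [Real.log_le_log (by linarith) (by linarith : (n : ℝ) ≤ 2 * n)]
  induction l with
  | zero =>
    refine ⟨by simpa using good_base hx hy hi h1 h2 hK hL, ?_⟩
    simp only [pow_zero, pow_one, one_mul]
    linarith [Real.add_one_le_exp L]
  | succ l ih =>
    have a1 : L ≤ (5 * 10 ^ 14) ^ l * L :=
      le_mul_of_one_le_left (by linarith) (one_le_pow₀ (by norm_num))
    have := ih.1.next hx hy hi hK (by positivity) (div_le_self (by linarith)
      (one_le_pow₀ (by norm_num))) (Nat.one_le_pow _ _ (by norm_num))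
      (le_self_pow₀ (by norm_num) (by positivity)) ih.2 (by linarith)
      (hnL.trans (Real.exp_le_exp.2 a1))
    constructor
    · rw [pow_succ (4 : ℝ), ← div_div, pow_succ' 13, pow_succ 2, pow_mul, pow_succ' (5 * 10 ^ 14),
        mul_assoc (5 * 10 ^ 14)]
      exact this
    · rw [pow_succ 2, pow_mul]
      refine (pow_le_pow_left₀ (by positivity) ih.2 2).trans ?_
      rw [← Real.exp_nat_mul, pow_succ' (5 * 10 ^ 14), mul_assoc (5 * 10 ^ 14)]
      apply Real.exp_le_exp.2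
      push_cast
      nlinarith

theorem separate {n : ℕ} {x y : List Bool} (hx : x.length = n) (hy : y.length = n) (hxy : x ≠ y)
    {K L : ℝ} (hK : 1 ≤ K) (l : ℕ) (hl : n ≤ 2 ^ 2 ^ l)
    (hL : 4000 * (K * 4 ^ l * 4000) * Real.log (2 * n) ≤ L) :
    ∃ Φ : List Bool → ℂ, Adm K (13 ^ l + 1) (3 ^ 13 ^ l) Φ ∧
      Real.exp (-((5 * 10 ^ 14) ^ l * L) - 1) ≤ ‖Φ x - Φ y‖ := by
  have hex : ∃ j : ℕ, x[j]? ≠ y[j]? := by
    by_contra h
    push Not at h
    exact hxy (List.ext_getElem? h)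
  have h2 := Nat.find_spec hex
  have h1 : ∀ j < Nat.find hex, x[j]? = y[j]? := fun j hj => not_not.1 (Nat.find_min hex hj)
  generalize Nat.find hex = i0 at h1 h2
  have hi : i0 < n := by
    by_contra h
    exact h2 (by rw [List.getElem?_eq_none (by omega), List.getElem?_eq_none (by omega)])
  have h4 : (1 : ℝ) ≤ 4 ^ l := one_le_pow₀ (by norm_num)
  have hK1 : K ≤ K * 4 ^ l := le_mul_of_one_le_right (by linarith) h4
  have hL0 : 0 ≤ L := le_trans (mul_nonneg (by positivity) (Real.log_nonneg (by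
    have : (1 : ℝ) ≤ n := by exact_mod_cast (show 1 ≤ n by omega)
    linarith))) hL
  obtain ⟨Γ, hS, -, ω0, hω0, hG⟩ := (good_all hx hy hi h1 h2 (hK.trans hK1) hL l).1 0 le_rfl
    (by positivity)
  rw [mul_div_cancel_right₀ _ (by positivity)] at hS
  obtain ⟨s, hs⟩ : ∃ s : ℝ, s = K * 4 ^ l * 4000 ^ 2 ^ l := ⟨_, rfl⟩
  rw [← hs] at hω0 hG
  have t1 : (n : ℝ) ≤ 4000 ^ 2 ^ l := by
    refine le_trans ?_ (pow_le_pow_left₀ zero_le_two (by norm_num : (2 : ℝ) ≤ 4000) _)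
    exact_mod_cast hl
  have t2 : (1 : ℝ) ≤ 4000 ^ 2 ^ l := one_le_pow₀ (by norm_num)
  have hsK : K ≤ s := hs ▸ hK1.trans (le_mul_of_one_le_right (by linarith) t2)
  have hsn : (n : ℝ) ≤ s := hs ▸ t1.trans (le_mul_of_one_le_left (by linarith) (by linarith))
  have hs0 : 0 < s := by linarith
  refine ⟨lf (-(1 / 20000 / s : ℝ) + ω0 * I) Γ, hS.lf ⟨1 / 20000 / s, ω0, ?_, ?_, rfl⟩, ?_⟩
  · have h3 : ω0 ^ 2 ≤ (1 / 1000 / s) ^ 2 := by
      rw [← sq_abs]; exact pow_le_pow_left₀ (abs_nonneg _) hω0 2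
    refine (mul_le_mul hsK h3 (sq_nonneg _) hs0.le).trans ?_
    rw [show s * (1 / 1000 / s) ^ 2 = 1 / 1000000 / s by field_simp; norm_num]
    exact div_le_div_of_nonneg_right (by norm_num) hs0.le
  · exact div_le_div₀ zero_le_one (by norm_num) (by linarith) hsK
  · have e : lf (-(1 / 20000 / s : ℝ) + ω0 * I) Γ x - lf (-(1 / 20000 / s : ℝ) + ω0 * I) Γ y =
        cexp ((-(1 / 20000 / s : ℝ) + ω0 * I) * i0) * tf n i0 0
          (fun j => (sig Γ x j : ℂ) - sig Γ y j) (-(1 / 20000 / s : ℝ) + ω0 * I) := by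
      rw [lf_eq _ hS.1 n x hx.le, lf_eq _ hS.1 n y hy.le, tf, Finset.mul_sum,
        ← Finset.sum_sub_distrib]
      refine Finset.sum_congr rfl fun j _ => ?_
      rw [mul_left_comm, ← Complex.exp_add, ← sub_mul, sig, sig]
      congr 2; push_cast; ring
    rw [e, norm_mul, Complex.norm_exp, sub_eq_add_neg, add_comm, Real.exp_add]
    refine mul_le_mul (Real.exp_le_exp.2 ?_) hG (by positivity) (by positivity)
    simp only [mul_re, add_re, neg_re, ofReal_re, I_re, ofReal_im, I_im, natCast_re, natCast_im]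
    have h5 : (i0 : ℝ) ≤ n := by exact_mod_cast hi.le
    have h6 : 1 / 20000 / s * i0 ≤ 1 := by
      rw [div_mul_eq_mul_div, div_le_one hs0]
      linarith [(Nat.cast_nonneg i0 : (0 : ℝ) ≤ i0)]
    linarith

end Vale.Agent.P321
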