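import Vale.Agent.P321.LowBasic

namespace Vale.Agent.P321

open Finset

variable {G : Type*} [Monoid G]

noncomputable def spread (μ : Al G) (Q : ℕ → Al G) (J : ℕ) : Al G :=
  ∑ j ∈ range J, μ ^ j * Q j * μ ^ (J - 1 - j)

lemma spread_succ (μ : Al G) (Q : ℕ → Al G) (J : ℕ) :
    spread μ Q (J + 1) = Q 0 * μ ^ J + μ * spread μ (fun j => Q (j + 1)) J := by
  unfold spread
  rw [Finset.sum_range_succ', Finset.mul_sum, add_comm]
  congr 1
  · simp
  · refine Finset.sum_congr rfl fun j hj => ?_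
    have : J + 1 - 1 - (j + 1) = J - 1 - j := by omega
    rw [this, pow_succ']
    simp only [mul_assoc]

lemma eq_sum_single (F : Al G) (s : Finset G) (hs : F.coeff.support ⊆ s) :
    F = ∑ u ∈ s, MonoidAlgebra.single u (F.coeff u) := by
  conv_lhs => rw [← MonoidAlgebra.sum_coeff_single F]
  refine Finset.sum_subset hs ?_
  intro x _ hx
  simp [Finsupp.notMem_support_iff.1 hx]

lemma exp_chord (β e : ℝ) : ∃ s : ℝ, ∀ x : ℝ, |x| ≤ e →
    Real.exp (β * x) ≤ Real.cosh (β * e) + s * x := by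
  by_cases he : e ≤ 0
  · refine ⟨0, fun x hx => ?_⟩
    have : x = 0 := abs_nonpos_iff.1 (hx.trans he)
    simp [this, Real.one_le_cosh]
  push Not at he
  refine ⟨Real.sinh (β * e) / e, fun x hx => ?_⟩
  obtain ⟨h1, h2⟩ := abs_le.1 hx
  have hc := convexOn_exp.2 (Set.mem_univ (β * e)) (Set.mem_univ (-(β * e)))
    (show 0 ≤ (e + x) / (2 * e) by apply div_nonneg <;> linarith)
    (show 0 ≤ (e - x) / (2 * e) by apply div_nonneg <;> linarith)
    (by field_simp; ring)
  simp only [smul_eq_mul] at hc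
  have e1 : (e + x) / (2 * e) * (β * e) + (e - x) / (2 * e) * -(β * e) = β * x := by
    field_simp; ring
  rw [e1] at hc
  refine hc.trans (le_of_eq ?_)
  rw [Real.cosh_eq, Real.sinh_eq]
  field_simp; ring

lemma cosh_chord (β e a : ℝ) : ∃ s : ℝ, ∀ x : ℝ, |x| ≤ e →
    Real.cosh (β * (a + x)) ≤ Real.cosh (β * a) * Real.cosh (β * e) + s * x := by
  obtain ⟨s, hs⟩ := exp_chord β e
  refine ⟨s * Real.sinh (β * a), fun x hx => ?_⟩
  have h1 := hs x hx
  have h2 := hs (-x) (by simpa using hx)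
  have e1 : Real.cosh (β * (a + x)) =
      (Real.exp (β * a) * Real.exp (β * x) + Real.exp (-(β * a)) * Real.exp (β * -x)) / 2 := by
    rw [Real.cosh_eq, ← Real.exp_add, ← Real.exp_add]
    congr 3 <;> ring
  rw [e1, Real.cosh_eq (β * a), Real.sinh_eq (β * a)]
  have p1 := Real.exp_pos (β * a)
  have p2 := Real.exp_pos (-(β * a))
  nlinarith [mul_le_mul_of_nonneg_left h1 p1.le, mul_le_mul_of_nonneg_left h2 p2.le]

lemma dom_one {a t β : ℝ} (ht : 0 ≤ t) (hβ : 0 < β) :
    Dom (a • (1 : Al G)) (t • 1) (2 / β * Real.exp (-(β * t)) * Real.cosh (β * a)) := by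
  refine ⟨Pos.one.smul ht, max (|a| - t) 0 • (1 : Al G), Pos.one.smul (le_max_right _ _), ?_, ?_⟩
  · rw [mass_smul, map_one, mul_one]
    refine max_le ?_ (by positivity)
    have h1 : β * (|a| - t) + 1 ≤ Real.exp (β * (|a| - t)) := Real.add_one_le_exp _
    have h2 : Real.exp (β * |a|) ≤ 2 * Real.cosh (β * a) := by
      rw [← Real.cosh_abs, abs_mul, abs_of_pos hβ, Real.cosh_eq]
      have := Real.exp_pos (-(β * |a|))
      linarith
    have h3 : Real.exp (β * (|a| - t)) = Real.exp (-(β * t)) * Real.exp (β * |a|) := by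
      rw [← Real.exp_add]; congr 1; ring
    have h4 := Real.exp_pos (-(β * t))
    have h5 : β * (|a| - t) ≤ Real.exp (-(β * t)) * (2 * Real.cosh (β * a)) := by
      nlinarith [mul_le_mul_of_nonneg_left h2 h4.le]
    rw [div_mul_eq_mul_div, div_mul_eq_mul_div, le_div_iff₀ hβ]
    linarith
  · rw [← add_smul]
    exact (Le.refl Pos.one).smul (by have := le_max_left (|a| - t) 0; linarith)

lemma avg0 {μ : Al G} (hμ : Prob μ) {t β : ℝ} (ht : 0 ≤ t) (hβ : 0 < β) :
    ∀ (J : ℕ) (Q : ℕ → Al G) (e : ℕ → ℝ) (a : ℝ), (∀ j < J, Le (Q j) (e j • μ)) →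
      (∀ j < J, mass (Q j) = 0) →
      Dom (a • μ ^ J + spread μ Q J) (t • μ ^ J)
        (2 / β * Real.exp (-(β * t)) * Real.cosh (β * a) *
          ∏ j ∈ range J, Real.cosh (β * e j)) := by
  intro J
  induction J with
  | zero =>
    intro Q e a _ _
    simpa [spread] using dom_one (G := G) (a := a) ht hβ
  | succ J ih =>
    intro Q e a hQ hm
    set s := μ.coeff.support with hs
    set q : G → ℝ := fun u => (Q 0).coeff u / μ.coeff u with hq
    have hQ0 := hQ 0 (by omega)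
    have hpos : ∀ u ∈ s, 0 < μ.coeff u := fun u hu =>
      lt_of_le_of_ne (hμ.1 u) (Finsupp.mem_support_iff.1 hu).symm
    have hsupp : (Q 0).coeff.support ⊆ s := by
      intro u hu
      by_contra h
      have h0 : μ.coeff u = 0 := Finsupp.notMem_support_iff.1 h
      have := hQ0 u
      simp [h0] at this
      exact Finsupp.mem_support_iff.1 hu this
    have hqle : ∀ u ∈ s, |q u| ≤ e 0 := by
      intro u hu
      have := hQ0 u
      simp only [MonoidAlgebra.coeff_smul, Finsupp.smul_apply, smul_eq_mul] at this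
      rw [hq]; dsimp only
      rw [abs_div, abs_of_pos (hpos u hu), div_le_iff₀ (hpos u hu)]
      exact this
    have hqmul : ∀ u ∈ s, μ.coeff u * q u = (Q 0).coeff u := by
      intro u hu
      rw [hq]; dsimp only
      field_simp [(hpos u hu).ne']
    set D := spread μ (fun j => Q (j + 1)) J with hD
    set K := 2 / β * Real.exp (-(β * t)) with hK
    set P := ∏ j ∈ range J, Real.cosh (β * e (j + 1)) with hP
    have hKpos : 0 ≤ K := by positivity
    have hPpos : 0 ≤ P := Finset.prod_nonneg fun j _ => (Real.cosh_pos _).le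
    have key := Dom.sum (s := s) (fun u hu =>
      (ih (fun j => Q (j + 1)) (fun j => e (j + 1)) (a + q u) (fun j hj => hQ (j + 1) (by omega))
        (fun j hj => hm (j + 1) (by omega))).mul_left (Pos.single u (hpos u hu).le))
    have hμs := eq_sum_single μ s (by rw [hs])
    have e1 : ∑ u ∈ s, MonoidAlgebra.single u (μ.coeff u) * ((a + q u) • μ ^ J + D) =
        a • μ ^ (J + 1) + spread μ Q (J + 1) := by
      rw [spread_succ, ← hD]
      have : ∀ u ∈ s, MonoidAlgebra.single u (μ.coeff u) * ((a + q u) • μ ^ J + D) =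
          a • (MonoidAlgebra.single u (μ.coeff u) * μ ^ J) +
          MonoidAlgebra.single u ((Q 0).coeff u) * μ ^ J +
          MonoidAlgebra.single u (μ.coeff u) * D := by
        intro u hu
        rw [← hqmul u hu, mul_comm (μ.coeff u) (q u), ← smul_eq_mul (q u), ← MonoidAlgebra.smul_single]
        simp only [mul_add, add_smul, mul_smul_comm, smul_mul_assoc]
      rw [Finset.sum_congr rfl this]
      simp only [Finset.sum_add_distrib, ← Finset.smul_sum, ← Finset.sum_mul]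
      rw [← hμs, ← eq_sum_single (Q 0) s hsupp, pow_succ', add_assoc]
    have e2 : ∑ u ∈ s, MonoidAlgebra.single u (μ.coeff u) * (t • μ ^ J) = t • μ ^ (J + 1) := by
      rw [← Finset.sum_mul, ← hμs, pow_succ', mul_smul_comm]
    rw [e1, e2] at key
    refine key.mono_rho ?_
    obtain ⟨c, hc⟩ := cosh_chord β (e 0) a
    have hsum1 : ∑ u ∈ s, μ.coeff u = 1 := by
      have := hμ.2
      rw [mass_eq_pr, pr_def] at this
      simpa using this
    have hsum2 : ∑ u ∈ s, μ.coeff u * q u = 0 := by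
      have := hm 0 (by omega)
      rw [mass_eq_pr, pr_eq_sum _ _ s hsupp] at this
      rw [Finset.sum_congr rfl hqmul]
      simpa using this
    calc ∑ u ∈ s, mass (MonoidAlgebra.single u (μ.coeff u)) * (K * Real.cosh (β * (a + q u)) * P)
        ≤ ∑ u ∈ s, μ.coeff u * (K * (Real.cosh (β * a) * Real.cosh (β * e 0) + c * q u) * P) := by
          refine Finset.sum_le_sum fun u hu => ?_
          rw [mass_single]
          have := hc (q u) (hqle u hu)
          have := (hpos u hu).le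
          gcongr
      _ = K * (Real.cosh (β * a) * Real.cosh (β * e 0)) * P * ∑ u ∈ s, μ.coeff u +
            K * c * P * ∑ u ∈ s, μ.coeff u * q u := by
          rw [Finset.mul_sum, Finset.mul_sum, ← Finset.sum_add_distrib]
          exact Finset.sum_congr rfl fun u _ => by ring
      _ = _ := by
          rw [hsum1, hsum2, Finset.prod_range_succ', ← hP]; ring

lemma avg0' {μ : Al G} (hμ : Prob μ) {σ Λ : ℝ} (hσ : 0 < σ) (hΛ : 1 ≤ Λ)
    (J : ℕ) (Q : ℕ → Al G) (e : ℕ → ℝ) (hQ : ∀ j < J, Le (Q j) (e j • μ))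
    (hm : ∀ j < J, mass (Q j) = 0) (hs : ∑ j ∈ range J, e j ^ 2 ≤ σ ^ 2) :
    Dom (spread μ Q J) ((Λ * σ) • μ ^ J) (2 * σ * Real.exp (-(Λ ^ 2 / 2))) := by
  have hβ : 0 < Λ / σ := by positivity
  have := avg0 hμ (t := Λ * σ) (by positivity) hβ J Q e 0 hQ hm
  simp only [zero_smul, zero_add, mul_zero, Real.cosh_zero, mul_one] at this
  refine this.mono_rho ?_
  have h1 : ∏ j ∈ range J, Real.cosh (Λ / σ * e j) ≤ Real.exp (Λ ^ 2 / 2) := by
    calc ∏ j ∈ range J, Real.cosh (Λ / σ * e j)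
        ≤ ∏ j ∈ range J, Real.exp ((Λ / σ * e j) ^ 2 / 2) :=
          Finset.prod_le_prod (fun j _ => (Real.cosh_pos _).le)
            (fun j _ => Real.cosh_le_exp_half_sq _)
      _ = Real.exp ((Λ / σ) ^ 2 / 2 * ∑ j ∈ range J, e j ^ 2) := by
          rw [← Real.exp_sum, Finset.mul_sum]
          congr 1
          exact Finset.sum_congr rfl fun j _ => by ring
      _ ≤ _ := by
          apply Real.exp_le_exp.2
          calc (Λ / σ) ^ 2 / 2 * ∑ j ∈ range J, e j ^ 2 ≤ (Λ / σ) ^ 2 / 2 * σ ^ 2 := by gcongr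
            _ = Λ ^ 2 / 2 := by field_simp
  have h2 : Λ / σ * (Λ * σ) = Λ ^ 2 := by field_simp
  rw [h2]
  have h3 : 2 / (Λ / σ) ≤ 2 * σ := by
    rw [div_div_eq_mul_div, div_le_iff₀ (by linarith)]
    nlinarith
  calc 2 / (Λ / σ) * Real.exp (-Λ ^ 2) * ∏ j ∈ range J, Real.cosh (Λ / σ * e j)
      ≤ 2 * σ * Real.exp (-Λ ^ 2) * Real.exp (Λ ^ 2 / 2) := by
        gcongr
    _ = _ := by
        rw [mul_assoc, ← Real.exp_add]; congr 2; ring

lemma avg1 {μ lam : Al G} (hμ : Prob μ) (hl : Prob lam) {σ Λ : ℝ} (hσ : 0 < σ) (hΛ : 1 ≤ Λ)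
    (J : ℕ) (Q V : ℕ → Al G) (e d : ℕ → ℝ) (hQ : ∀ j < J, Le (Q j) (e j • μ))
    (hm : ∀ j < J, mass (Q j) = 0) (hV : ∀ j < J, Le (V j) (d j • lam))
    (hs : ∑ j ∈ range J, (e j * d j) ^ 2 ≤ σ ^ 2) :
    Dom (∑ j ∈ range J, μ ^ j * Q j * μ ^ (J - 1 - j) * V j) ((Λ * σ) • (μ ^ J * lam))
      (2 * σ * Real.exp (-(Λ ^ 2 / 2))) := by
  set s := lam.coeff.support with hs'
  set v : ℕ → G → ℝ := fun j u => (V j).coeff u / lam.coeff u with hv
  have hpos : ∀ u ∈ s, 0 < lam.coeff u := fun u hu =>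
    lt_of_le_of_ne (hl.1 u) (Finsupp.mem_support_iff.1 hu).symm
  have hsupp : ∀ j < J, (V j).coeff.support ⊆ s := by
    intro j hj u hu
    by_contra h
    have h0 : lam.coeff u = 0 := Finsupp.notMem_support_iff.1 h
    have := hV j hj u
    simp [h0] at this
    exact Finsupp.mem_support_iff.1 hu this
  have hvle : ∀ j < J, ∀ u ∈ s, |v j u| ≤ d j := by
    intro j hj u hu
    have := hV j hj u
    simp only [MonoidAlgebra.coeff_smul, Finsupp.smul_apply, smul_eq_mul] at this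
    rw [hv]; dsimp only
    rw [abs_div, abs_of_pos (hpos u hu), div_le_iff₀ (hpos u hu)]
    exact this
  have hvmul : ∀ j, ∀ u ∈ s, v j u * lam.coeff u = (V j).coeff u := by
    intro j u hu
    rw [hv]; dsimp only
    field_simp [(hpos u hu).ne']
  have key := Dom.sum (s := s) (fun u hu =>
    (avg0' hμ hσ hΛ J (fun j => v j u • Q j) (fun j => e j * d j)
      (fun j hj => by
        have := (hQ j hj).smul (hvle j hj u hu)
        rwa [smul_smul, mul_comm] at this)
      (fun j hj => by rw [mass_smul, hm j hj, mul_zero]) hs).mul_right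
      (Pos.single u (hpos u hu).le))
  have hls := eq_sum_single lam s (by rw [hs'])
  have e1 : ∑ u ∈ s, spread μ (fun j => v j u • Q j) J * MonoidAlgebra.single u (lam.coeff u) =
      ∑ j ∈ range J, μ ^ j * Q j * μ ^ (J - 1 - j) * V j := by
    simp only [spread, Finset.sum_mul]
    rw [Finset.sum_comm]
    refine Finset.sum_congr rfl fun j hj => ?_
    conv_rhs => rw [eq_sum_single (V j) s (hsupp j (Finset.mem_range.1 hj)), Finset.mul_sum]
    refine Finset.sum_congr rfl fun u hu => ?_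
    rw [← hvmul j u hu, ← smul_eq_mul (v j u), ← MonoidAlgebra.smul_single]
    simp only [mul_smul_comm, smul_mul_assoc]
  have e2 : ∑ u ∈ s, ((Λ * σ) • μ ^ J) * MonoidAlgebra.single u (lam.coeff u) =
      (Λ * σ) • (μ ^ J * lam) := by
    rw [← Finset.mul_sum, ← hls, smul_mul_assoc]
  rw [e1, e2] at key
  refine key.mono_rho (le_of_eq ?_)
  rw [← Finset.mul_sum, ← map_sum, ← hls, hl.2, mul_one]

/-- The averaging lemma. -/
lemma avg {μ lam : Al G} (hμ : Prob μ) (hl : Prob lam) {σ Λ ρ : ℝ} (hσ : 0 < σ) (hΛ : 1 ≤ Λ)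
    (J : ℕ) (Q V : ℕ → Al G) (e d : ℕ → ℝ) (hQ : ∀ j < J, Dom (Q j) (e j • μ) ρ)
    (hm : ∀ j < J, mass (Q j) = 0) (hV : ∀ j < J, Dom (V j) (d j • lam) ρ)
    (he : ∀ j < J, ρ ≤ e j ∧ e j ≤ 1) (hd : ∀ j < J, 0 ≤ d j ∧ d j ≤ 1)
    (hs : ∑ j ∈ range J, (2 * e j * d j) ^ 2 ≤ σ ^ 2) :
    Dom (∑ j ∈ range J, μ ^ j * Q j * μ ^ (J - 1 - j) * V j) ((Λ * σ) • (μ ^ J * lam))
      (2 * σ * Real.exp (-(Λ ^ 2 / 2)) + J * (6 * ρ)) := by
  have hQ' : ∀ j, ∃ Q', j < J → Le Q' ((2 * e j) • μ) ∧ mass Q' = 0 ∧ nm (Q j - Q') ≤ 2 * ρ := by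
    intro j
    by_cases hj : j < J
    · obtain ⟨Q', h1, h2⟩ := (hQ j hj).split
      have h3 : |mass Q'| ≤ ρ := by
        have := abs_mass_le_nm (Q j - Q')
        rw [map_sub, hm j hj, zero_sub, abs_neg] at this
        linarith
      refine ⟨Q' - mass Q' • μ, fun _ => ⟨?_, by simp [hμ.2], ?_⟩⟩
      · rw [two_mul, add_smul]
        exact h1.sub ((Le.refl hμ.1).smul (h3.trans (he j hj).1))
      · have : Q j - (Q' - mass Q' • μ) = (Q j - Q') + mass Q' • μ := by abel
        rw [this]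
        have h4 := nm_smul_le (mass Q') μ
        rw [hμ.nm] at h4
        linarith [nm_add_le (Q j - Q') (mass Q' • μ)]
    · exact ⟨0, fun h => absurd h hj⟩
  have hV' : ∀ j, ∃ V', j < J → Le V' (d j • lam) ∧ nm (V j - V') ≤ ρ := by
    intro j
    by_cases hj : j < J
    · obtain ⟨V', h1, h2⟩ := (hV j hj).split
      exact ⟨V', fun _ => ⟨h1, h2⟩⟩
    · exact ⟨0, fun h => absurd h hj⟩
  choose Q' hQ' using hQ'
  choose V' hV' using hV'
  have key := avg1 hμ hl hσ hΛ J Q' V' (fun j => 2 * e j) d (fun j hj => (hQ' j hj).1)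
    (fun j hj => (hQ' j hj).2.1) (fun j hj => (hV' j hj).1) hs
  refine key.perturb ?_
  rw [← Finset.sum_sub_distrib]
  refine (nm_sum_le _ _).trans ?_
  have : ∀ j ∈ range J, nm (μ ^ j * Q j * μ ^ (J - 1 - j) * V j -
      μ ^ j * Q' j * μ ^ (J - 1 - j) * V' j) ≤ 6 * ρ := by
    intro j hj
    have hj := Finset.mem_range.1 hj
    have hρ := (hQ j hj).rho_nonneg
    have e1 : μ ^ j * Q j * μ ^ (J - 1 - j) * V j - μ ^ j * Q' j * μ ^ (J - 1 - j) * V' j =
        μ ^ j * ((Q j - Q' j) * (μ ^ (J - 1 - j) * V j)) +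
        μ ^ j * (Q' j * (μ ^ (J - 1 - j) * (V j - V' j))) := by
      simp only [mul_sub, sub_mul, mul_assoc]; abel
    rw [e1]
    have a1 : nm (V j) ≤ 2 := by
      have := (hV j hj).nm_le' hl
      linarith [(he j hj).1, (he j hj).2, (hd j hj).2]
    have a2 : nm (Q' j) ≤ 2 := by
      have := (hQ' j hj).1.nm_le
      rw [mass_smul, hμ.2] at this
      linarith [(he j hj).2]
    have b1 : nm (μ ^ j * ((Q j - Q' j) * (μ ^ (J - 1 - j) * V j))) ≤ 2 * ρ * 2 := by
      refine ((hμ.pow j).nm_mul_left _).trans ((nm_mul_le _ _).trans ?_)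
      exact mul_le_mul (hQ' j hj).2.2 (((hμ.pow _).nm_mul_left _).trans a1) (nm_nonneg _)
        (by linarith)
    have b2 : nm (μ ^ j * (Q' j * (μ ^ (J - 1 - j) * (V j - V' j)))) ≤ 2 * ρ := by
      refine ((hμ.pow j).nm_mul_left _).trans ((nm_mul_le _ _).trans ?_)
      exact mul_le_mul a2 (((hμ.pow _).nm_mul_left _).trans (hV' j hj).2) (nm_nonneg _)
        (by linarith)
    linarith [nm_add_le (μ ^ j * ((Q j - Q' j) * (μ ^ (J - 1 - j) * V j)))
      (μ ^ j * (Q' j * (μ ^ (J - 1 - j) * (V j - V' j))))]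
  refine (Finset.sum_le_sum this).trans ?_
  simp

/-- The averaging lemma without right factors. -/
lemma avg_spread {μ : Al G} (hμ : Prob μ) {σ Λ ρ : ℝ} (hσ : 0 < σ) (hΛ : 1 ≤ Λ)
    (J : ℕ) (Q : ℕ → Al G) (e : ℕ → ℝ) (hQ : ∀ j < J, Dom (Q j) (e j • μ) ρ)
    (hm : ∀ j < J, mass (Q j) = 0) (he : ∀ j < J, ρ ≤ e j ∧ e j ≤ 1)
    (hs : ∑ j ∈ range J, (2 * e j) ^ 2 ≤ σ ^ 2) :
    Dom (spread μ Q J) ((Λ * σ) • μ ^ J)
      (2 * σ * Real.exp (-(Λ ^ 2 / 2)) + J * (6 * ρ)) := by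
  have := avg hμ Prob.one hσ hΛ J Q (fun _ => 1) e (fun _ => 1) hQ hm
    (fun j hj => by simpa using (Dom.refl Pos.one).mono_rho (hQ j hj).rho_nonneg) he
    (fun _ _ => ⟨zero_le_one, le_rfl⟩) (by simpa using hs)
  simpa [spread] using this

end Vale.Agent.P321
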