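import Vale.Agent.P321.LowStep

namespace Vale.Agent.P321

open Finset

variable {G : Type*} [Monoid G] {α : Type*}

/-- the invariant of the construction -/
def St (D : FreeMonoid α →* Al G) (h : ℕ) (X Y : FreeMonoid α) (E F R : ℕ) : Prop :=
  X.length = Y.length ∧ X ≠ Y ∧ Y.length ≤ h ^ E ∧
    Dom (D X - D Y) ((1 / (h : ℝ)) ^ F • D Y) ((1 / (h : ℝ)) ^ R) ∧ Inv (D Y) (h ^ E)

lemma sum_terms {B : Al G} {T : Bool → ℕ → Al G} {a : Bool → ℕ → ℝ} {h : ℕ} {β r : ℝ}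
    (ha : ∀ b i, |a b i| ≤ 1) (hT : ∀ b, ∀ i < h, Dom (T b i) (β • B) r) :
    Dom (∑ b, ∑ i ∈ range h, a b i • T b i) ((2 * h * β) • B) (2 * h * r) := by
  have := Dom.sum' (s := (univ : Finset Bool)) (B := B)
    (F := fun b => ∑ i ∈ range h, a b i • T b i) (ε := fun _ => ∑ i ∈ range h, β)
    (ρ := fun _ => ∑ i ∈ range h, r) (fun b _ => Dom.sum' fun i hi => by
      simpa using (hT b i (Finset.mem_range.1 hi)).smul (ha b i))
  simpa [mul_assoc] using this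

lemma str_step {X Y : FreeMonoid α} (h1 : X.length = Y.length) (h2 : X ≠ Y) {h E : ℕ}
    (hh : 3 ≤ h) (h3 : Y.length ≤ h ^ E) {f f' : ℕ → Bool} (hf : ∃ i < h, f i ≠ f' i) :
    ((Y ^ h) ^ h ^ (E + 6) * pat X Y f h * (Y ^ h) ^ h ^ (E + 6)).length =
      ((Y ^ h) ^ h ^ (E + 6) * pat X Y f' h * (Y ^ h) ^ h ^ (E + 6)).length ∧
    (Y ^ h) ^ h ^ (E + 6) * pat X Y f h * (Y ^ h) ^ h ^ (E + 6) ≠
      (Y ^ h) ^ h ^ (E + 6) * pat X Y f' h * (Y ^ h) ^ h ^ (E + 6) ∧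
    ((Y ^ h) ^ h ^ (E + 6) * pat X Y f' h * (Y ^ h) ^ h ^ (E + 6)).length ≤ h ^ (2 * E + 10) := by
  refine ⟨by simp [length_pat h1], fun he => ?_, ?_⟩
  · obtain ⟨i, hi, hne⟩ := hf
    exact hne (pat_inj h1 h2 h f f' (mul_left_cancel (mul_right_cancel he)) i hi)
  · simp only [FreeMonoid.length_mul, length_pow, length_pat h1]
    have : 1 ≤ h ^ (E + 6) := Nat.one_le_pow _ _ (by omega)
    have h' : 1 ≤ h ^ 2 := Nat.one_le_pow _ _ (by omega)
    calc h ^ (E + 6) * (h * Y.length) + h * Y.length + h ^ (E + 6) * (h * Y.length)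
        = (2 * h ^ (E + 6) + 1) * (h * Y.length) := by ring
      _ ≤ (h * h ^ (E + 6) * h ^ 2) * (h * h ^ E) :=
          Nat.mul_le_mul (by
            calc 2 * h ^ (E + 6) + 1 ≤ 3 * h ^ (E + 6) * 1 := by omega
              _ ≤ _ := by gcongr) (Nat.mul_le_mul_left _ h3)
      _ = _ := by ring

set_option maxHeartbeats 1000000 in
lemma step2 {D : FreeMonoid α →* Al G} (hDp : ∀ X, Prob (D X)) {t h E F R : ℕ} (ht : 11 ≤ t)
    (hh : h = 2 ^ t) {X Y : FreeMonoid α} (hS : St D h X Y E F R) (a0 : 1000 ≤ E)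
    (a1 : 7 * E ≤ 10 * F) (a2 : 4 * F + 10 * E ≤ R) (a4 : R ≤ t) {F' R' : ℕ}
    (b1 : F' + 14 ≤ 4 * F + E / 8) (b2 : R' + E ≤ R) :
    ∃ X' Y', St D h X' Y' (4 * E + 30) F' R' := by
  obtain ⟨s1, s2, s3, s4, s5⟩ := hS
  have hb : 2048 ≤ h := hh ▸ big_h ht
  have hb' : (2048 : ℝ) ≤ h := by exact_mod_cast hb
  have h1 : (1 : ℝ) ≤ h := by linarith
  have h6 : 6 * t ≤ h := hh ▸ six_t ht
  have hτ : Real.exp (-((h : ℝ) ^ 2 / 2)) ≤ (1 / (h : ℝ)) ^ t := hh ▸ exp_tiny ht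
  obtain ⟨f, f', hf1, hf2⟩ := exists_pte (m := h) (K := t) (by omega) (hh ▸ pte_card ht)
  obtain ⟨F1, hF1⟩ : ∃ F1, F1 + 3 = 2 * F := ⟨2 * F - 3, by omega⟩
  obtain ⟨R1, hR1⟩ : ∃ R1, R1 + 3 = R := ⟨R - 3, by omega⟩
  obtain ⟨R2, hR2⟩ : ∃ R2, R2 + 5 = R := ⟨R - 5, by omega⟩
  obtain ⟨dE, hI1, W, a, ha, hW, hn⟩ := step1 (hDp X) (hDp Y) ht hh s4 s5 f f' hf2 (by omega)
    (by omega) (by omega) a4
  obtain ⟨l1, l2, l3⟩ := str_step s1 s2 (by omega) s3 hf1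
  set X1 := (Y ^ h) ^ h ^ (E + 6) * pat X Y f h * (Y ^ h) ^ h ^ (E + 6) with hX1
  set Y1 := (Y ^ h) ^ h ^ (E + 6) * pat X Y f' h * (Y ^ h) ^ h ^ (E + 6) with hY1
  have eX1 : D X1 = (D Y ^ h) ^ h ^ (E + 6) * pat (D X) (D Y) f h * (D Y ^ h) ^ h ^ (E + 6) := by
    simp [hX1, map_pat]
  have eY1 : D Y1 = (D Y ^ h) ^ h ^ (E + 6) * pat (D X) (D Y) f' h * (D Y ^ h) ^ h ^ (E + 6) := by
    simp [hY1, map_pat]
  rw [← eY1] at dE hI1 hn
  rw [← eX1] at hn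
  set u : ℝ := 1 / (h : ℝ) with hu
  have hu0 : 0 < u := by positivity
  set ν := D Y with hν
  set μ := ν ^ h with hμ
  set g := h ^ (E + 6) with hg
  have hνp : Prob ν := hDp Y
  have hμp : Prob μ := hνp.pow h
  have hPp : Prob (μ ^ (2 * g + 1)) := hμp.pow _
  have k1 : 2 * h * u ^ F ≤ 1 / 2 := by
    have := pw0 h1 (show (4 : ℝ) ≤ h by linarith) (a := 1) (b := F) (by omega)
    rw [pow_one] at this; linarith
  have k2 : 2 * h * u ^ R ≤ 1 / 2 := by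
    have := pw0 h1 (show (4 : ℝ) ≤ h by linarith) (a := 1) (b := R) (by omega)
    rw [pow_one] at this; linarith
  have uF1 : u ^ F ≤ 1 := (umono h1 (Nat.zero_le F)).trans (pow_zero _).le
  have uF0 : 0 < u ^ F := by positivity
  have uR0 : 0 < u ^ R := by positivity
  set Q := ∑ b, ∑ i ∈ range h, a b i • (ν ^ i * (D X - ν) * W b i) with hQ
  have dQ : Dom Q ((2 * h * (u ^ F * (2 * h * u ^ F))) • μ) (2 * h * (5 * (2 * h * u ^ R))) := by
    refine sum_terms ha fun b i hi => ?_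
    have := (s4.mul5 (hW b i hi) hνp (hνp.pow _) (by linarith) (by linarith)
      (show u ^ R ≤ 2 * h * u ^ R by nlinarith) le_rfl (by linarith)).prob_left (hνp.pow i)
    rw [← pow_succ', ← pow_add, show i + (h - 1 - i + 1) = h by omega, ← mul_assoc] at this
    exact this
  have mQ : mass Q = 0 := by simp [hQ, (hDp X).2, hνp.2]
  have k3 : 2 * (2 * h * (u ^ F * (2 * h * u ^ F))) ≤ u ^ F1 := by
    have := pw h1 (show (8 : ℝ) ≤ h by linarith) (a := 2) (b := 2 * F) (c := F1) (by omega)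
    rw [two_mul F, pow_add] at this
    linarith
  have uF11 : u ^ F1 ≤ 1 := (umono h1 (Nat.zero_le F1)).trans (pow_zero _).le
  have k4 : 26 * h ^ 2 * u ^ R ≤ u ^ R1 := pw h1 (by linarith) (by omega)
  have hh2 : (h : ℝ) ≤ h ^ 2 := by nlinarith
  have d1 : Dom (D X1 - D Y1) (u ^ F1 • D Y1) (u ^ R1) := by
    have p1 := ((dQ.prob_left (hμp.pow g)).prob_right (hμp.pow g)).perturb hn
    rw [← pow_succ, ← pow_add, show g + 1 + g = 2 * g + 1 by omega] at p1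
    have back := Dom.ref_back (dE.mono_smul hPp.1 k1 le_rfl) (hDp Y1).1
    refine (p1.ref back (by positivity)).mono_smul (hDp Y1).1 (by linarith) ?_
    have q1 : 2 * h * (u ^ F * (2 * h * u ^ F)) * (2 * (2 * h * u ^ R)) ≤
        1 * (2 * (2 * h * u ^ R)) := by
      gcongr; linarith
    nlinarith [mul_le_mul_of_nonneg_right hh2 uR0.le]
  obtain ⟨dE', hI2, W', a', ha', hW', hn'⟩ := step1 (hDp X1) (hDp Y1) ht hh d1 hI1 f f' hf2
    (by omega) (by omega) (by omega) (by omega)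
  obtain ⟨m1, m2, m3⟩ := str_step l1 l2 (by omega) l3 hf1
  set X2 := (Y1 ^ h) ^ h ^ (2 * E + 10 + 6) * pat X1 Y1 f h * (Y1 ^ h) ^ h ^ (2 * E + 10 + 6)
    with hX2
  set Y2 := (Y1 ^ h) ^ h ^ (2 * E + 10 + 6) * pat X1 Y1 f' h * (Y1 ^ h) ^ h ^ (2 * E + 10 + 6)
    with hY2
  have eX2 : D X2 = (D Y1 ^ h) ^ h ^ (2 * E + 10 + 6) * pat (D X1) (D Y1) f h *
      (D Y1 ^ h) ^ h ^ (2 * E + 10 + 6) := by simp [hX2, map_pat]
  have eY2 : D Y2 = (D Y1 ^ h) ^ h ^ (2 * E + 10 + 6) * pat (D X1) (D Y1) f' h *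
      (D Y1 ^ h) ^ h ^ (2 * E + 10 + 6) := by simp [hY2, map_pat]
  rw [← eY2] at dE' hI2 hn'
  rw [← eX2] at hn'
  rw [← hu] at dE' hW' hn'
  rw [show 2 * (2 * E + 10) + 10 = 4 * E + 30 by ring] at hI2 m3
  refine ⟨X2, Y2, m1, m2, m3, ?_, hI2⟩
  rw [← hu]
  set ν1 := D Y1 with hν1
  set g1 := h ^ (2 * E + 10 + 6) with hg1
  have hν1p : Prob ν1 := hDp Y1
  set e := E / 8 with he
  have uR1 : 0 < u ^ R1 := by positivity
  have uF10 : 0 < u ^ F1 := by positivity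
  have k5 : 2 * h * u ^ R1 ≤ u ^ R2 := by
    have := pw h1 (show (2 : ℝ) ≤ h by linarith) (a := 1) (b := R1) (c := R2) (by omega)
    rwa [pow_one] at this
  have k6 : u ^ R1 ≤ u ^ R2 := umono h1 (by omega)
  have k7 : u ^ t ≤ u ^ R2 := umono h1 (by omega)
  have k8 : 2 * h * u ^ F1 ≤ 1 / 2 := by
    have := pw0 h1 (show (4 : ℝ) ≤ h by linarith) (a := 1) (b := F1) (by omega)
    rw [pow_one] at this; linarith
  have he4 : (h ^ e) ^ 4 ≤ h * g1 := by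
    rw [← pow_mul, hg1, ← pow_succ']
    exact Nat.pow_le_pow_right (by omega) (by omega)
  have dT : ∀ b, ∀ i < h, Dom ((ν1 ^ h) ^ g1 * (ν1 ^ i * (D X1 - ν1) * W' b i) * (ν1 ^ h) ^ g1)
      ((6 * h ^ 3 * u ^ F1 * (2 * h * u ^ F1) / (h ^ e : ℕ)) • (ν1 ^ h) ^ (2 * g1 + 1))
      (h ^ 5 * (h ^ e : ℕ) ^ 4 * u ^ R2) := by
    intro b i hi
    have := gain hμp hν1p (g := g) (b := h ^ (E + 4)) (K := t) (r := h ^ e) (c := h - 1 - i)
      (A := h * g1 + i) (B := h * g1) (h := h) (δ := D X1 - ν1) (Q := Q) (W := W' b i)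
      (εQ := u ^ F1) (ρ := u ^ R2) (by linarith) (by exact_mod_cast h6)
      (by rw [hh]; push_cast; rfl) (hτ.trans k7) k7
      (dE.mono_rho (by nlinarith [mul_le_mul_of_nonneg_right hh2 uR0.le])) (by positivity)
      (dQ.mono_smul hμp.1 (by
        have : 0 ≤ 2 * h * (u ^ F * (2 * h * u ^ F)) := by positivity
        linarith) (by nlinarith)) mQ (hn.trans (by nlinarith))
      ((hW' b i hi).mono_rho k5)
      (by
        have := s5.sm' (by omega) (J := (h ^ e) ^ 2) (by positivity)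
        rwa [← pow_mul (h ^ e)] at this)
      (by
        have : 1 ≤ h ^ (E + 4) := Nat.one_le_pow _ _ (by omega)
        calc (h ^ (E + 4) + 1) * t ≤ (h ^ (E + 4) * h) * h :=
            Nat.mul_le_mul (by nlinarith) (by omega)
          _ = g := by rw [hg]; ring)
      (by
        calc t * (h ^ e) ^ 2 ≤ h * (h ^ e) ^ 2 := Nat.mul_le_mul_right _ (by omega)
          _ = h ^ (e * 2 + 1) := by ring
          _ ≤ g := Nat.pow_le_pow_right (by omega) (by omega))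
      (by positivity)
      (by
        calc h - 1 - i + 1 ≤ h ^ 1 := by rw [pow_one]; omega
          _ ≤ (h ^ e) ^ 4 := by
            rw [← pow_mul]; exact Nat.pow_le_pow_right (by omega) (by omega))
      (by omega) he4
      (by
        push_cast
        calc 12 * ((h : ℝ) ^ e) ^ 5 * (2 * h * u ^ F) = 24 * h ^ (5 * e + 1) * u ^ F := by ring
          _ ≤ 1 := pw0 h1 (by linarith) (by omega))
      uF10 uF11 (by positivity) k8
      (by
        push_cast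
        rw [← pow_mul]
        exact pw h1 (by linarith) (by omega))
    rw [← pow_mul, ← pow_mul, show h * (2 * g1 + 1) = h * g1 + i + 1 + (h - 1 - i) + h * g1 by
      rw [mul_add, mul_left_comm]; omega, ← mul_assoc, ← mul_assoc, ← pow_add]
    exact this
  have p0 := sum_terms ha' dT
  have e0 : ∑ b, ∑ i ∈ range h, a' b i • ((ν1 ^ h) ^ g1 * (ν1 ^ i * (D X1 - ν1) * W' b i) *
      (ν1 ^ h) ^ g1) = (ν1 ^ h) ^ g1 * (∑ b, ∑ i ∈ range h, a' b i • (ν1 ^ i * (D X1 - ν1) *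
        W' b i)) * (ν1 ^ h) ^ g1 := by
    simp only [Finset.mul_sum, Finset.sum_mul, mul_smul_comm, smul_mul_assoc]
  rw [e0] at p0
  have p1 := p0.perturb hn'
  have back := Dom.ref_back (dE'.mono_smul ((hν1p.pow h).pow _).1 k8 le_rfl) (hDp Y2).1
  have k9 : 2 * h * (6 * h ^ 3 * u ^ F1 * (2 * h * u ^ F1) / (h ^ e : ℕ)) * 2 ≤ u ^ F' := by
    have := pw h1 (show (48 : ℝ) ≤ h by linarith) (a := 5) (b := F1 + F1 + e) (c := F') (by omega)
    refine le_trans (le_of_eq ?_) this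
    push_cast
    rw [pow_add, pow_add, ← hu, div_eq_mul_one_div _ ((h : ℝ) ^ e), ← one_div_pow, ← hu]
    ring
  refine (p1.ref back (by positivity)).mono_smul (hDp Y2).1 k9 ?_
  have uF' : u ^ F' ≤ 1 := (umono h1 (Nat.zero_le F')).trans (pow_zero _).le
  have q0 : 0 ≤ 2 * h * (6 * h ^ 3 * u ^ F1 * (2 * h * u ^ F1) / (h ^ e : ℕ)) := by positivity
  have q1 : 2 * h * (6 * h ^ 3 * u ^ F1 * (2 * h * u ^ F1) / (h ^ e : ℕ)) * (2 * (2 * h * u ^ R1))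
      ≤ 1 * (2 * u ^ R2) := by
    gcongr; linarith
  have q2 : (8 : ℝ) * h ^ (4 * e + 6) * u ^ R2 ≤ u ^ R' := pw h1 (by linarith) (by omega)
  have q3 : (h : ℝ) ^ 2 ≤ h ^ (4 * e + 6) := pow_le_pow_right₀ h1 (by omega)
  have q4 : (1 : ℝ) ≤ h ^ (4 * e + 6) := one_le_pow₀ h1
  have uR2 : 0 < u ^ R2 := by positivity
  have q5 : 2 * (h : ℝ) ^ 2 * u ^ R1 ≤ 2 * h ^ (4 * e + 6) * u ^ R2 := by gcongr
  have q6 : 2 * (h : ℝ) * (h ^ 5 * ((h ^ e : ℕ) : ℝ) ^ 4 * u ^ R2) =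
      2 * h ^ (4 * e + 6) * u ^ R2 := by push_cast; ring
  rw [q6]
  nlinarith [mul_le_mul_of_nonneg_right q4 uR2.le]

end Vale.Agent.P321
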