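import Vale.Agent.P321.LowChain
import Vale.Agent.P321.LowIter

namespace Vale.Agent.P321

open Finset

section gen
variable {G : Type*} [Monoid G]

lemma padgain {b v : Al G} (hb : Prob b) {t h y A B : ℕ} (ht : 11 ≤ t) (hh : h = 2 ^ t)
    (hI : Inv b h) (hv : Le v b) (hm : mass v = 0) (hA : h ^ (4 * y + 6) ≤ A)
    (hB : h ^ (4 * y + 6) ≤ B) :
    Dom (b ^ A * v * b ^ B) (((h : ℝ) ^ 3 * (1 / h) ^ y) • b ^ (A + 1 + B))
      (2 * h ^ 3 * (1 / (h : ℝ)) ^ t) := by
  have hb0 : 2048 ≤ h := hh ▸ big_h ht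
  have hb' : (2048 : ℝ) ≤ h := by exact_mod_cast hb0
  have h1 : (1 : ℝ) ≤ h := by linarith
  have h6 : 6 * t ≤ h := hh ▸ six_t ht
  have hτ : Real.exp (-((h : ℝ) ^ 2 / 2)) ≤ (1 / (h : ℝ)) ^ t := hh ▸ exp_tiny ht
  set ρ := (1 / (h : ℝ)) ^ t with hρ
  have hρ0 : 0 < ρ := by positivity
  have hρ1 : ρ ≤ 1 := (umono h1 (Nat.zero_le t)).trans (pow_zero _).le
  set r := h ^ y with hr
  have hr0 : 0 < r := by positivity
  obtain ⟨w, hw, H⟩ := smooth (G := G) (J := r ^ 2) (by positivity) t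
  have hw' : ∀ l, |w l| ≤ h / (r ^ 2 : ℕ) := fun l => (hw l).trans (by
    gcongr; rw [hh]; push_cast; linarith)
  have hS : Sm b (r ^ 4 * h ^ 4) (r ^ 2) (1 / h) := by
    have := hI.sm (m := 1) (a0 := r ^ 4 * h ^ 4) (J := r ^ 2) (H := 8 * r ^ 2 * h) (θ := 1 / h)
      (Nat.succ_le_of_lt (by positivity))
      (by
        calc h * (8 * r ^ 2 * h) ^ 2 = 64 * (r ^ 4 * h ^ 3) := by ring
          _ ≤ h * (r ^ 4 * h ^ 3) := Nat.mul_le_mul_right _ (by omega)
          _ = _ := by ring)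
      (le_of_eq (by push_cast; field_simp))
    rwa [pow_one] at this
  have hpad : r ^ 4 * h ^ 4 * t + t * r ^ 2 ≤ h ^ (4 * y + 6) := by
    have a : r ^ 2 ≤ r ^ 4 * h ^ 4 :=
      (Nat.pow_le_pow_right hr0 (by norm_num)).trans (Nat.le_mul_of_pos_right _ (by positivity))
    calc r ^ 4 * h ^ 4 * t + t * r ^ 2 ≤ r ^ 4 * h ^ 4 * (2 * t) := by nlinarith
      _ ≤ r ^ 4 * h ^ 4 * (h * h) := Nat.mul_le_mul_left _ (by nlinarith)
      _ = _ := by rw [hr]; ring
  have mid := (midavg hb (hb.pow (B + 1 - t * r ^ 2)) hr0 (show (3 : ℝ) ≤ h by linarith)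
    (by exact_mod_cast h6) hτ (R := v) (ε := 1)
    (by simpa using (Dom.of_le hv).mono_rho hρ0.le) hm one_pos ⟨hρ1, le_rfl⟩ one_pos le_rfl w hw'
    (fun _ => b ^ (B + 1 - t * r ^ 2))
    (fun _ _ => by simpa using (Dom.refl (hb.pow _).1).mono_rho hρ0.le)).prob_left (hb.pow A)
  rw [← pow_add, ← pow_add, show A + (t * r ^ 2 + (B + 1 - t * r ^ 2)) = A + 1 + B by omega] at mid
  have sm := H b _ _ hb (by positivity) hS v A B (by omega) (by omega)
  have e : b ^ A * ∑ j ∈ range (t * r ^ 2), w j • (b ^ j * v * b ^ (t * r ^ 2 - 1 - j) *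
      b ^ (B + 1 - t * r ^ 2)) = ∑ j ∈ range (t * r ^ 2), w j • (b ^ (A + j) * v * b ^ (B - j)) := by
    rw [Finset.mul_sum]
    refine Finset.sum_congr rfl fun j hj => ?_
    have hj := Finset.mem_range.1 hj
    rw [mul_smul_comm, ← mul_assoc, sand]
    exact congrArg _ (sand_eq _ _ rfl (by omega))
  rw [e] at mid
  have nv : nm v ≤ 1 := by have := hv.nm_le; rwa [hb.2] at this
  refine (mid.perturb (sm.trans (mul_le_mul_of_nonneg_left nv hρ0.le))).mono_smul (hb.pow _).1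
    (le_of_eq ?_) ?_
  · rw [hr]; push_cast; rw [one_div_pow]; ring
  · have : (1 : ℝ) ≤ h ^ 3 := one_le_pow₀ h1
    nlinarith

lemma derivgain {b : Al G} (hb : Prob b) {t h x : ℕ} (ht : 11 ≤ t) (hh : h = 2 ^ t)
    (hv : Le (b - 1) ((h : ℝ) • b)) (hx : 1 ≤ x) :
    Dom (b ^ (h ^ (2 * x) - 1) * (b - 1)) (((h : ℝ) ^ 2 * (1 / h) ^ x) • b ^ h ^ (2 * x))
      (2 * (1 / (h : ℝ)) ^ t) := by
  have hb0 : 2048 ≤ h := hh ▸ big_h ht
  have hb' : (2048 : ℝ) ≤ h := by exact_mod_cast hb0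
  have h1 : (1 : ℝ) ≤ h := by linarith
  have hτ : Real.exp (-((h : ℝ) ^ 2 / 2)) ≤ (1 / (h : ℝ)) ^ t := hh ▸ exp_tiny ht
  set J := h ^ (2 * x) with hJ
  have hJ0 : (0 : ℝ) < J := by positivity
  have key := avg0' hb (σ := h * (1 / h) ^ x) (Λ := h) (by positivity) h1 J
    (fun _ => (1 / J : ℝ) • (b - 1)) (fun _ => 1 / J * h)
    (fun _ _ => by rw [mul_smul]; exact hv.smul (abs_of_pos (by positivity)).le)
    (fun _ _ => by simp [hb.2])
    (by
      simp only [sum_const, card_range, nsmul_eq_mul]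
      apply le_of_eq
      rw [hJ, one_div_pow]; push_cast; field_simp; ring)
  have e : spread b (fun _ => (1 / J : ℝ) • (b - 1)) J = b ^ (J - 1) * (b - 1) := by
    have : ∀ j ∈ range J, b ^ j * (1 / J : ℝ) • (b - 1) * b ^ (J - 1 - j) =
        (1 / J : ℝ) • (b ^ (J - 1) * (b - 1)) := by
      intro j hj
      have hj := Finset.mem_range.1 hj
      have c : Commute (b - 1) (b ^ (J - 1 - j)) :=
        ((Commute.refl b).sub_left (Commute.one_left b)).pow_right _
      rw [mul_smul_comm, smul_mul_assoc, mul_assoc, c.eq, ← mul_assoc, ← pow_add,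
        show j + (J - 1 - j) = J - 1 by omega]
    rw [spread, Finset.sum_congr rfl this, sum_const, card_range, ← Nat.cast_smul_eq_nsmul ℝ,
      smul_smul, mul_one_div_cancel hJ0.ne', one_smul]
  rw [e] at key
  refine key.mono_smul (hb.pow _).1 (le_of_eq (by ring)) ?_
  have : (h : ℝ) * (1 / h) ^ x ≤ 1 := by simpa using pw0 h1 le_rfl (a := 0) (b := x) (by omega)
  calc 2 * (h * (1 / (h : ℝ)) ^ x) * Real.exp (-((h : ℝ) ^ 2 / 2)) ≤ 2 * 1 * (1 / (h : ℝ)) ^ t := by
        gcongr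
    _ = _ := by ring

set_option maxHeartbeats 1000000 in
lemma base_dom {b u v : Al G} (hb : Prob b) (hu : Prob u) (ha : Pos (u + v)) (hc : Commute u b)
    {t h N R : ℕ} (ht : 11 ≤ t) (hh : h = 2 ^ t) (hI : Inv b h) (hv : Le v ((h : ℝ) • b))
    (hm : mass v = 0) (hb1 : Le (b - 1) ((h : ℝ) • b)) (hub : Pos ((2 : ℝ) • u - b))
    (hN : h ^ 998 ≤ N + 1) (hR : R + 5 ≤ t) :
    Dom (b ^ (N + 2) * (u + v) * b ^ N - b ^ (N + 1) * (u + v) * b ^ (N + 1))
      ((1 / (h : ℝ)) ^ 738 • (b ^ (N + 1) * (u + v) * b ^ (N + 1))) ((1 / (h : ℝ)) ^ R) := by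
  have hb0 : 2048 ≤ h := hh ▸ big_h ht
  have hb' : (2048 : ℝ) ≤ h := by exact_mod_cast hb0
  have h1 : (1 : ℝ) ≤ h := by linarith
  have h0 : (0 : ℝ) < h := by linarith
  obtain ⟨x, hx⟩ : ∃ x, x = 498 := ⟨_, rfl⟩
  obtain ⟨y, hy⟩ : ∃ y, y = 247 := ⟨_, rfl⟩
  obtain ⟨F, hF⟩ : ∃ F, F = 738 := ⟨_, rfl⟩
  obtain ⟨z, hz⟩ : ∃ z, z = 997 := ⟨_, rfl⟩
  rw [← hF]
  rw [show 998 = z + 1 by omega] at hN
  have p1 : h ^ (2 * x) ≤ h ^ z := Nat.pow_le_pow_right (by omega) (by omega)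
  have p2 : h ^ (4 * y + 6) ≤ h ^ z := Nat.pow_le_pow_right (by omega) (by omega)
  have p3 : 1 ≤ h ^ (2 * x) := Nat.one_le_pow _ _ (by omega)
  have p4 : 3 * h ^ z ≤ N + 1 := le_trans (by rw [pow_succ]; nlinarith) hN
  set ρ := (1 / (h : ℝ)) ^ t with hρ
  have hρ0 : 0 < ρ := by positivity
  have pg : ∀ A B, h ^ (4 * y + 6) ≤ A → h ^ (4 * y + 6) ≤ B →
      Dom (b ^ A * v * b ^ B) (((h : ℝ) ^ 4 * (1 / h) ^ y) • b ^ (A + 1 + B)) (2 * h ^ 4 * ρ) := by
    intro A B hA hB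
    have := (padgain hb ht hh hI (v := (1 / h : ℝ) • v) (y := y)
      (by
        have := hv.smul (c := 1 / h) (d := 1 / h) (abs_of_pos (by positivity)).le
        rwa [smul_smul, one_div_mul_cancel h0.ne', one_smul] at this)
      (by simp [hm]) hA hB).smul (c := h) (d := h) (abs_of_pos h0).le
    rw [mul_smul_comm, smul_mul_assoc, smul_smul, mul_one_div_cancel h0.ne', one_smul,
      smul_smul] at this
    exact this.mono_smul (hb.pow _).1 (le_of_eq (by ring)) (le_of_eq (by ring))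
  have dg := derivgain hb ht hh hb1 (x := x) (by omega)
  rw [← hρ] at dg
  set J := h ^ (2 * x) with hJ
  set θ1 := (h : ℝ) ^ 2 * (1 / h) ^ x with hθ1
  set θ2 := (h : ℝ) ^ 4 * (1 / h) ^ y with hθ2
  have t1 : θ1 ≤ 1 := by
    have := pw0 h1 h1 (a := 2) (b := x) (by omega)
    rwa [one_mul] at this
  have t2 : 4 * θ2 ≤ 1 := by
    have := pw0 h1 (show (4 : ℝ) ≤ h by linarith) (a := 4) (b := y) (by omega)
    rwa [mul_assoc] at this
  have t10 : 0 ≤ θ1 := by positivity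
  have t20 : 0 ≤ θ2 := by positivity
  have h4 : (1 : ℝ) ≤ h ^ 4 := one_le_pow₀ h1
  have x1 : 2 * ρ ≤ 2 * h ^ 4 * ρ := by nlinarith
  have x2 : 28 * h ^ 4 * ρ ≤ (1 / (h : ℝ)) ^ R := pw h1 (by linarith) (by omega)
  have x3 : (1 / (h : ℝ)) ^ R ≤ 1 := (umono h1 (Nat.zero_le R)).trans (pow_zero _).le
  have x4 : 0 ≤ h ^ 4 * ρ := by positivity
  have T1 := dg.mul5 (pg (N + 2 - J) N (by omega) (by omega)) (hb.pow _) (hb.pow _) (by linarith)
    (by linarith) x1 le_rfl (by linarith)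
  have T2 := (pg (N + 1) (N + 1 - J) (by omega) (by omega)).mul5 dg (hb.pow _) (hb.pow _)
    (by linarith) (by linarith) le_rfl x1 (by linarith)
  rw [← pow_add, show J + (N + 2 - J + 1 + N) = 2 * N + 3 by omega] at T1
  rw [← pow_add, show N + 1 + 1 + (N + 1 - J) + J = 2 * N + 3 by omega] at T2
  have tot := T1.sub' T2
  have cu : ∀ k l : ℕ, b ^ k * u * b ^ l = u * b ^ (k + l) := fun k l => by
    rw [← (hc.pow_right k).eq, mul_assoc, ← pow_add]
  have e : b ^ (J - 1) * (b - 1) * (b ^ (N + 2 - J) * v * b ^ N) -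
      b ^ (N + 1) * v * b ^ (N + 1 - J) * (b ^ (J - 1) * (b - 1)) =
      b ^ (N + 2) * (u + v) * b ^ N - b ^ (N + 1) * (u + v) * b ^ (N + 1) := by
    have a1 : b ^ (J - 1) * (b - 1) * (b ^ (N + 2 - J) * v * b ^ N) =
        b ^ (N + 2) * v * b ^ N - b ^ (N + 1) * v * b ^ N := by
      rw [mul_sub, mul_one, ← pow_succ, sub_mul]
      simp only [← mul_assoc, ← pow_add]
      rw [show J - 1 + 1 + (N + 2 - J) = N + 2 by omega, show J - 1 + (N + 2 - J) = N + 1 by omega]
    have a2 : b ^ (N + 1) * v * b ^ (N + 1 - J) * (b ^ (J - 1) * (b - 1)) =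
        b ^ (N + 1) * v * b ^ (N + 1) - b ^ (N + 1) * v * b ^ N := by
      rw [mul_sub (b ^ (J - 1)), mul_one, ← pow_succ, mul_sub]
      simp only [mul_assoc, ← pow_add]
      rw [show N + 1 - J + (J - 1 + 1) = N + 1 by omega, show N + 1 - J + (J - 1) = N by omega]
    rw [a1, a2]
    simp only [mul_add, add_mul, cu]
    rw [show N + 2 + N = N + 1 + (N + 1) by omega]
    abel
  rw [e] at tot
  set lam := b ^ (N + 1) * u * b ^ (N + 1) with hlam
  have r1 : Dom (b ^ (2 * N + 3)) ((2 : ℝ) • lam) 0 := by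
    refine Dom.of_le ((Le.refl (hb.pow _).1).mono ?_)
    have := ((hb.pow (N + 1)).1.mul hub).mul (hb.pow (N + 1)).1
    rw [mul_sub, sub_mul, mul_smul_comm, smul_mul_assoc, ← pow_succ, ← pow_add,
      show N + 1 + 1 + (N + 1) = 2 * N + 3 by omega] at this
    exact this
  have plam : Prob lam := ((hb.pow _).mul hu).mul (hb.pow _)
  have r2 := pg (N + 1) (N + 1) (by omega) (by omega)
  rw [show N + 1 + 1 + (N + 1) = 2 * N + 3 by omega] at r2
  have r3 : Dom (b ^ (N + 1) * (u + v) * b ^ (N + 1) - lam) ((1 / 2 : ℝ) • lam) (2 * h ^ 4 * ρ) := by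
    have := (r2.ref r1 t20).mono_smul plam.1 (show θ2 * 2 ≤ 1 / 2 by linarith)
      (show _ ≤ 2 * h ^ 4 * ρ by linarith)
    rwa [mul_add, add_mul, ← hlam, add_sub_cancel_left]
  have pν : Pos (b ^ (N + 1) * (u + v) * b ^ (N + 1)) := ((hb.pow _).1.mul ha).mul (hb.pow _).1
  have r4 := r1.ref (Dom.ref_back r3 pν) (by norm_num)
  have θθ : θ1 * θ2 ≤ 1 / 4 := by nlinarith
  refine (tot.ref r4 (by positivity)).mono_smul pν ?_ ?_
  · have := pw h1 (show (8 : ℝ) ≤ h by linarith) (a := 6) (b := x + y) (c := F) (by omega)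
    refine le_trans (le_of_eq ?_) this
    rw [hθ1, hθ2, pow_add]; ring
  · have : (θ1 * θ2 + θ2 * θ1) * (0 + 2 * (2 * (2 * h ^ 4 * ρ))) ≤
        1 * (0 + 2 * (2 * (2 * h ^ 4 * ρ))) := by
      gcongr; linarith
    linarith

end gen

/-- the law of the trace, as an element of the monoid algebra -/
noncomputable def Dq (q : ℝ) : FreeMonoid Bool →* Al (FreeMonoid Bool) :=
  FreeMonoid.lift fun x => q • 1 + (1 - q) • MonoidAlgebra.single (FreeMonoid.of x) 1

lemma prob_Dq {q : ℝ} (h0 : 0 ≤ q) (h1 : q ≤ 1) (X : FreeMonoid Bool) : Prob (Dq q X) := by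
  induction X using FreeMonoid.inductionOn' with
  | one => simpa using Prob.one
  | of_mul x w ih =>
    rw [map_mul]
    refine Prob.mul ⟨?_, by simp [Dq]⟩ ih
    simpa [Dq] using (Pos.one.smul h0).add ((Pos.single _ zero_le_one).smul (sub_nonneg.2 h1))

def tok : Option Bool → FreeMonoid Bool
  | some x => FreeMonoid.of x
  | none => FreeMonoid.of false * FreeMonoid.of true

noncomputable def rho (q : ℝ) : Option Bool → ℝ
  | some _ => q / (1 + q)
  | none => (1 - q) / (1 + q)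

lemma le_lt_lt {T : Type*} [Fintype T] {c c' : T → ℝ} (h : ∀ τ, |c τ| ≤ c' τ) :
    Le (lt c) (lt c') := Le.sum fun τ _ => by
  simpa using (Le.refl (Pos.single (FreeMonoid.of τ) zero_le_one)).smul (h τ)

lemma smul_lt {T : Type*} [Fintype T] (a : ℝ) (c : T → ℝ) : a • lt c = lt fun τ => a * c τ := by
  simp [lt, Finset.smul_sum]

set_option maxHeartbeats 1000000 in
lemma base_state {q : ℝ} (h0 : 0 < q) (h1 : q < 1) : ∃ t0 : ℕ, ∀ t ≥ t0, ∀ R, R + 5 ≤ t →
    ∃ X Y, St (Dq q) (2 ^ t) X Y 1000 738 R := by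
  have hρ : ∀ τ, 0 < rho q τ := by
    rintro (_ | x) <;> simp only [rho]
    · apply div_pos <;> linarith
    · positivity
  have hρ1 : ∑ τ, rho q τ = 1 := by
    simp only [Fintype.sum_option, Fintype.sum_bool, rho]; field_simp; ring
  set cv : Option Bool → ℝ := fun τ => (1 - q) * ((if τ = some false then 1 else 0) - rho q τ)
    with hcv
  have hv : ∑ τ, cv τ = 0 := by
    simp only [hcv, ← Finset.mul_sum, Finset.sum_sub_distrib, hρ1]; simp
  set e := lt (rho q) with he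
  have hep : Prob e := ⟨pos_lt fun τ => (hρ τ).le, by rw [he, mass_lt, hρ1]⟩
  have hr0 : 0 < 1 - q ^ 2 := by nlinarith
  have hr1 : 1 - q ^ 2 < 1 := by nlinarith
  have hpr : 1 - q ≤ 1 - q ^ 2 := by nlinarith
  have ea : ev e (bern (1 - q)) + lt cv =
      q • 1 + (1 - q) • MonoidAlgebra.single (FreeMonoid.of (some false)) 1 := by
    rw [ev_bern, he, smul_lt, add_assoc, sub_sub_cancel]
    refine congrArg _ ?_
    simp only [lt, ← Finset.sum_add_distrib, ← MonoidAlgebra.single_add, hcv]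
    rw [Finset.sum_eq_single (some false)]
    · simp [mul_sub]
    · intro τ _ hτ; simp [hτ]
    · simp
  have ha : Pos (ev e (bern (1 - q)) + lt cv) := by
    rw [ea]; exact (Pos.one.smul h0.le).add ((Pos.single _ zero_le_one).smul (by linarith))
  obtain ⟨i, hi⟩ := base_inv hρ hρ1 hv hr0 hr1 (by linarith) hpr ha
  obtain ⟨c, hc⟩ := exists_nat_ge (2 / ((1 - q ^ 2) * (q * (1 - q))) + (1 + 1 / q ^ 2))
  refine ⟨c + (12 * i + 17) * 4 ^ (2 * i + 3) + 11, fun t ht R hR => ?_⟩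
  set h := 2 ^ t with hh
  have hth : t ≤ h := Nat.lt_two_pow_self.le
  have p4 : 1 ≤ 4 ^ (2 * i + 3) := Nat.one_le_pow _ _ (by norm_num)
  have hi1 : 12 * i + 17 ≤ h := by nlinarith
  have hch : (c : ℝ) ≤ h := by exact_mod_cast (by omega : c ≤ h)
  have c1 : 0 ≤ 2 / ((1 - q ^ 2) * (q * (1 - q))) := by
    apply div_nonneg (by norm_num); apply mul_nonneg hr0.le; nlinarith
  have c2 : 0 ≤ 1 / q ^ 2 := by positivity
  set b := ev e (bern (1 - q ^ 2)) with hb
  set u := ev e (bern (1 - q)) with hu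
  have eb : b = q ^ 2 • 1 + (1 - q ^ 2) • e := by rw [hb, ev_bern, sub_sub_cancel]
  have eu : u = q • 1 + (1 - q) • e := by rw [hu, ev_bern, sub_sub_cancel]
  have hbp : Prob b := hep.ev (prob_bern hr0.le hr1.le)
  have hup : Prob u := hep.ev (prob_bern (by linarith) (by linarith))
  obtain ⟨σ, hσ⟩ : ∃ σ, σ = h ^ 998 := ⟨_, rfl⟩
  have hσ1 : h ≤ σ := hσ ▸ Nat.le_self_pow (by norm_num) h
  have hσ2 : h ^ 1000 = h * h * σ := by rw [hσ, show 1000 = 998 + 1 + 1 by norm_num]; ring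
  obtain ⟨N, hN⟩ : ∃ N, N + 1 = (i + 1) * (2 * σ + 1) + σ :=
    ⟨(i + 1) * (2 * σ + 1) + σ - 1, by omega⟩
  have I1 := hi σ (N + 1) (by omega) hN
  have D1 := base_dom hbp hup ha ((Commute.all _ _).map _) (t := t) (h := h) (N := N) (R := R)
    (by omega) rfl
    (((inv_bern hr0.le hr1.le (c := h) (by
      rw [sub_sub_cancel]
      have : 1 / q ^ 2 ≤ h := by linarith
      rwa [div_le_iff₀ (by positivity)] at this))).ev hep)
    (by
      refine (le_lt_lt (c' := fun τ => h * ((1 - q ^ 2) * rho q τ)) fun τ => ?_).mono ?_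
      · have a1 : q * (1 - q) / 2 ≤ rho q τ := by
          rcases τ with _ | x <;> simp only [rho] <;> rw [div_le_div_iff₀ (by norm_num) (by linarith)]
            <;> nlinarith [mul_pos h0 (sub_pos.2 h1)]
        have a2 : rho q τ ≤ 1 := by
          rw [← hρ1]
          exact Finset.single_le_sum (fun τ _ => (hρ τ).le) (Finset.mem_univ τ)
        have a3 : |cv τ| ≤ 1 := by
          rw [hcv]; dsimp only
          rw [abs_mul]
          refine mul_le_one₀ (by rw [abs_le]; constructor <;> linarith) (abs_nonneg _) ?_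
          have := hρ τ
          split_ifs <;> rw [abs_le] <;> constructor <;> linarith
        have a4 : 2 / ((1 - q ^ 2) * (q * (1 - q))) ≤ h := by linarith
        rw [div_le_iff₀ (mul_pos hr0 (mul_pos h0 (by linarith)))] at a4
        have a5 : (h : ℝ) * ((1 - q ^ 2) * (q * (1 - q) / 2)) ≤ h * ((1 - q ^ 2) * rho q τ) := by
          gcongr
        linarith
      · rw [← smul_lt, ← smul_lt, ← he, eb, smul_add, add_sub_cancel_right]
        exact (Pos.one.smul (by positivity)).smul (by positivity))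
    (by rw [mass_lt, hv])
    (by
      refine ((Le.refl hbp.1).sub (Le.refl Pos.one)).mono ?_
      have : (h : ℝ) • b - (b + 1) = ((h - 1) * q ^ 2 - 1) • 1 + ((h - 1) * (1 - q ^ 2)) • e := by
        rw [eb]; module
      rw [this]
      have a : 1 / q ^ 2 ≤ h - 1 := by linarith
      rw [div_le_iff₀ (by positivity)] at a
      exact (Pos.one.smul (by linarith)).add (hep.1.smul (mul_nonneg (by linarith) hr0.le)))
    (by
      have : (2 : ℝ) • u - b = (2 * q - q ^ 2) • 1 + ((1 - q) ^ 2) • e := by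
        rw [eb, eu]; module
      rw [this]
      exact (Pos.one.smul (by nlinarith)).add (hep.1.smul (by positivity)))
    (by rw [← hσ]; omega) hR
  have pa : push (FreeMonoid.lift tok) (u + lt cv) = Dq q (FreeMonoid.of false) := by
    rw [hu, ea]; simp [Dq, tok]
  have pb : push (FreeMonoid.lift tok) b = Dq q (FreeMonoid.of false * FreeMonoid.of true) := by
    rw [eb, he, smul_lt]
    simp only [lt, Fintype.sum_option, Fintype.sum_bool, map_add, map_smul, map_one, push_single,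
      FreeMonoid.lift_eval_of, tok, rho, Dq, map_mul, add_mul, mul_add, smul_mul_assoc,
      mul_smul_comm, one_mul, mul_one, MonoidAlgebra.single_mul_single, smul_add, smul_smul,
      MonoidAlgebra.smul_single, smul_eq_mul]
    rw [show (1 - q ^ 2) * ((1 - q) / (1 + q)) = (1 - q) * (1 - q) by field_simp; ring,
      show (1 - q ^ 2) * (q / (1 + q)) = q * (1 - q) by field_simp; ring, sq]
    abel
  set w := FreeMonoid.of false * FreeMonoid.of true with hw
  refine ⟨w ^ (N + 2) * FreeMonoid.of false * w ^ N,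
    w ^ (N + 1) * FreeMonoid.of false * w ^ (N + 1), ?_, ?_, ?_, ?_, ?_⟩
  · simp only [FreeMonoid.length_mul, length_pow]; ring
  · intro hE
    rw [pow_succ w (N + 1), pow_succ' w N] at hE
    simp only [← mul_assoc] at hE
    have hE := mul_right_cancel hE
    simp only [mul_assoc] at hE
    have := congrArg FreeMonoid.toList (mul_left_cancel (mul_left_cancel hE))
    simp [hw] at this
  · simp only [FreeMonoid.length_mul, length_pow, hw, FreeMonoid.length_of]
    rw [hσ2, hN]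
    have : (12 * i + 17) * σ ≤ h * h * σ := Nat.mul_le_mul_right _ (by nlinarith)
    nlinarith
  · have := D1.push (FreeMonoid.lift tok)
    simpa only [map_sub, map_mul, map_smul, map_pow, pa, pb] using this
  · have := I1.push (FreeMonoid.lift tok)
    simp only [map_mul, map_pow, pa, pb] at this ⊢
    refine this.mono ?_
    rw [hσ2]
    calc ((2 * i + 3) * (2 * σ + 1) + 1) * 4 ^ (2 * i + 3)
        ≤ ((12 * i + 17) * σ) * 4 ^ (2 * i + 3) := Nat.mul_le_mul_right _ (by nlinarith)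
      _ = ((12 * i + 17) * 4 ^ (2 * i + 3)) * σ := by ring
      _ ≤ h * h * σ := Nat.mul_le_mul_right _ (by nlinarith)

end Vale.Agent.P321
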