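import Mathlib

namespace Vale.Agent.P321

open Finset

abbrev Al (G : Type*) [Monoid G] := MonoidAlgebra ℝ G

variable {G : Type*} [Monoid G]

def Pos (F : Al G) : Prop := ∀ w, 0 ≤ F.coeff w

noncomputable def pr (ψ : G → ℝ) : Al G →ₗ[ℝ] ℝ where
  toFun F := F.coeff.sum fun w a => a * ψ w
  map_add' F H := by
    simp only [MonoidAlgebra.coeff_add]
    exact Finsupp.sum_add_index' (by simp) (by intros; ring)
  map_smul' c F := by
    simp only [MonoidAlgebra.coeff_smul, RingHom.id_apply, smul_eq_mul]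
    rw [Finsupp.sum_smul_index' (by simp), Finsupp.mul_sum]
    simp [mul_assoc]

lemma pr_def (ψ : G → ℝ) (F : Al G) :
    pr ψ F = ∑ w ∈ F.coeff.support, F.coeff w * ψ w := rfl

lemma pr_eq_sum (ψ : G → ℝ) (F : Al G) (s : Finset G) (hs : F.coeff.support ⊆ s) :
    pr ψ F = ∑ w ∈ s, F.coeff w * ψ w := by
  rw [pr_def]
  refine Finset.sum_subset hs ?_
  intro x _ hx
  simp [Finsupp.notMem_support_iff.1 hx]

@[simp] lemma pr_single (ψ : G → ℝ) (w : G) (a : ℝ) :
    pr ψ (MonoidAlgebra.single w a) = a * ψ w := by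
  change (MonoidAlgebra.single w a).coeff.sum (fun w a => a * ψ w) = _
  simp

lemma pr_one (ψ : G → ℝ) : pr ψ (1 : Al G) = ψ 1 := by
  rw [MonoidAlgebra.one_def, pr_single, one_mul]

lemma pr_add_fun (ψ φ : G → ℝ) (F : Al G) :
    pr (fun w => ψ w + φ w) F = pr ψ F + pr φ F := by
  simp [pr_def, mul_add, Finset.sum_add_distrib]

lemma pr_mul_fun (c : ℝ) (ψ : G → ℝ) (F : Al G) :
    pr (fun w => c * ψ w) F = c * pr ψ F := by
  simp only [pr_def, Finset.mul_sum]
  exact Finset.sum_congr rfl fun _ _ => by ring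

lemma pr_mul (ψ : G → ℝ) (F H : Al G) :
    pr ψ (F * H) = pr (fun u => pr (fun v => ψ (u * v)) H) F := by
  induction F using MonoidAlgebra.induction_linear with
  | zero => simp
  | add F F' h h' => simp [add_mul, h, h']
  | single u a =>
    induction H using MonoidAlgebra.induction_linear with
    | zero => simp
    | add H H' h h' =>
      simp only [mul_add, map_add, h, h', pr_single]
    | single v b => simp [MonoidAlgebra.single_mul_single, mul_assoc]

lemma pr_mono {F : Al G} (hF : Pos F) {ψ φ : G → ℝ} (h : ∀ w, ψ w ≤ φ w) : pr ψ F ≤ pr φ F := by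
  simp only [pr_def]
  exact Finset.sum_le_sum fun w _ => mul_le_mul_of_nonneg_left (h w) (hF w)

lemma pr_nonneg {F : Al G} (hF : Pos F) {ψ : G → ℝ} (h : ∀ w, 0 ≤ ψ w) : 0 ≤ pr ψ F := by
  simp only [pr_def]
  exact Finset.sum_nonneg fun w _ => mul_nonneg (hF w) (h w)

noncomputable def mass : Al G →ₐ[ℝ] ℝ := MonoidAlgebra.lift ℝ ℝ G 1

@[simp] lemma mass_single (w : G) (a : ℝ) : mass (MonoidAlgebra.single w a) = a := by
  simp [mass]

lemma mass_eq_pr (F : Al G) : mass F = pr (fun _ => 1) F := by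
  induction F using MonoidAlgebra.induction_linear with
  | zero => simp
  | add F F' h h' => simp [h, h']
  | single u a => simp

lemma pr_const (c : ℝ) (F : Al G) : pr (fun _ => c) F = c * mass F := by
  rw [mass_eq_pr, ← pr_mul_fun]; simp

lemma mass_smul (c : ℝ) (F : Al G) : mass (c • F) = c * mass F := by simp

namespace Pos

lemma zero : Pos (0 : Al G) := fun _ => by simp

lemma add {F H : Al G} (h : Pos F) (h' : Pos H) : Pos (F + H) := fun w => by
  simpa using add_nonneg (h w) (h' w)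

lemma smul {F : Al G} {c : ℝ} (hc : 0 ≤ c) (h : Pos F) : Pos (c • F) := fun w => by
  simpa using mul_nonneg hc (h w)

lemma single (w : G) {a : ℝ} (ha : 0 ≤ a) : Pos (MonoidAlgebra.single w a : Al G) := fun v => by
  classical
  simp only [MonoidAlgebra.coeff_single, Finsupp.single_apply]
  split_ifs <;> simp [ha]

lemma one : Pos (1 : Al G) := single 1 zero_le_one

lemma mul {F H : Al G} (h : Pos F) (h' : Pos H) : Pos (F * H) := fun w => by
  classical
  rw [MonoidAlgebra.coeff_mul]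
  refine Finsupp.sum_nonneg' fun a => Finsupp.sum_nonneg' fun b => ?_
  split_ifs
  · exact mul_nonneg (h a) (h' b)
  · exact le_rfl

lemma pow {F : Al G} (h : Pos F) : ∀ n : ℕ, Pos (F ^ n)
  | 0 => by simpa using one
  | n + 1 => by rw [pow_succ]; exact (pow h n).mul h

lemma sum {ι : Type*} {s : Finset ι} {F : ι → Al G} (h : ∀ i ∈ s, Pos (F i)) :
    Pos (∑ i ∈ s, F i) := by
  classical
  induction s using Finset.induction_on with
  | empty => simpa using zero
  | insert a s ha ih =>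
    rw [Finset.sum_insert ha]
    exact (h a (by simp)).add (ih fun i hi => h i (by simp [hi]))

lemma mass_nonneg {F : Al G} (h : Pos F) : 0 ≤ mass F := by
  rw [mass_eq_pr]; exact pr_nonneg h fun _ => zero_le_one

lemma coeff_le_mass {F : Al G} (h : Pos F) (w : G) : F.coeff w ≤ mass F := by
  classical
  rw [mass_eq_pr, pr_eq_sum _ _ (insert w F.coeff.support) (Finset.subset_insert _ _)]
  simp only [mul_one]
  exact Finset.single_le_sum (f := fun w => F.coeff w) (fun i _ => h i) (by simp)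

end Pos

def Le (F B : Al G) : Prop := ∀ w, |F.coeff w| ≤ B.coeff w

lemma le_iff {F B : Al G} : Le F B ↔ Pos (B - F) ∧ Pos (B + F) := by
  constructor
  · intro h
    exact ⟨fun w => by have := abs_le.1 (h w); simp; linarith,
      fun w => by have := abs_le.1 (h w); simp; linarith⟩
  · rintro ⟨h1, h2⟩ w
    have a := h1 w
    have b := h2 w
    simp at a b
    exact abs_le.2 ⟨by linarith, by linarith⟩

namespace Le

lemma pos {F B : Al G} (h : Le F B) : Pos B := fun w => (abs_nonneg _).trans (h w)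

lemma refl {F : Al G} (h : Pos F) : Le F F := fun w => (abs_of_nonneg (h w)).le

lemma mono {F B C : Al G} (h : Le F B) (h' : Pos (C - B)) : Le F C := fun w => by
  have := h' w
  simp at this
  exact (h w).trans this

lemma trans {F B C : Al G} (h : Le F B) (h' : Le B C) : Le F C := fun w =>
  (h w).trans ((le_abs_self _).trans (h' w))

lemma add {F B F' B' : Al G} (h : Le F B) (h' : Le F' B') : Le (F + F') (B + B') := fun w => by
  simpa using (abs_add_le _ _).trans (add_le_add (h w) (h' w))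

lemma neg {F B : Al G} (h : Le F B) : Le (-F) B := fun w => by simpa using h w

lemma sub {F B F' B' : Al G} (h : Le F B) (h' : Le F' B') : Le (F - F') (B + B') := by
  rw [sub_eq_add_neg]; exact h.add h'.neg

lemma smul {F B : Al G} (h : Le F B) {c d : ℝ} (hc : |c| ≤ d) : Le (c • F) (d • B) := fun w => by
  simp only [MonoidAlgebra.coeff_smul, Finsupp.smul_apply, smul_eq_mul, abs_mul]
  exact mul_le_mul hc (h w) (abs_nonneg _) ((abs_nonneg _).trans hc)

lemma mul {F B F' B' : Al G} (h : Le F B) (h' : Le F' B') : Le (F * F') (B * B') := by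
  rw [le_iff] at h h' ⊢
  obtain ⟨a, b⟩ := h
  obtain ⟨c, d⟩ := h'
  constructor
  · have : B * B' - F * F' = (1 / 2 : ℝ) • ((B - F) * (B' + F') + (B + F) * (B' - F')) := by
      simp only [sub_mul, mul_sub, add_mul, mul_add]
      module
    rw [this]
    exact Pos.smul (by norm_num) ((a.mul d).add (b.mul c))
  · have : B * B' + F * F' = (1 / 2 : ℝ) • ((B - F) * (B' - F') + (B + F) * (B' + F')) := by
      simp only [sub_mul, mul_sub, add_mul, mul_add]
      module
    rw [this]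
    exact Pos.smul (by norm_num) ((a.mul c).add (b.mul d))

lemma sum {ι : Type*} {s : Finset ι} {F B : ι → Al G} (h : ∀ i ∈ s, Le (F i) (B i)) :
    Le (∑ i ∈ s, F i) (∑ i ∈ s, B i) := by
  classical
  induction s using Finset.induction_on with
  | empty => simpa using refl Pos.zero
  | insert a s ha ih =>
    rw [Finset.sum_insert ha, Finset.sum_insert ha]
    exact (h a (by simp)).add (ih fun i hi => h i (by simp [hi]))

lemma abs_pr_le {F B : Al G} (h : Le F B) {ψ φ : G → ℝ} (hψ : ∀ w, |ψ w| ≤ φ w) :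
    |pr ψ F| ≤ pr φ B := by
  classical
  rw [pr_eq_sum _ F (F.coeff.support ∪ B.coeff.support) Finset.subset_union_left,
    pr_eq_sum _ B (F.coeff.support ∪ B.coeff.support) Finset.subset_union_right]
  refine (Finset.abs_sum_le_sum_abs _ _).trans (Finset.sum_le_sum fun w _ => ?_)
  rw [abs_mul]
  exact mul_le_mul (h w) (hψ w) (abs_nonneg _) (h.pos w)

lemma abs_mass_le {F B : Al G} (h : Le F B) : |mass F| ≤ mass B := by
  rw [mass_eq_pr, mass_eq_pr]
  exact h.abs_pr_le fun _ => by simp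

end Le

noncomputable def absA (F : Al G) : Al G := .ofCoeff (F.coeff.mapRange abs abs_zero)

lemma le_absA (F : Al G) : Le F (absA F) := fun w => by simp [absA]

lemma absA_le {F B : Al G} (h : Le F B) : Le (absA F) B := fun w => by simpa [absA] using h w

noncomputable def nm (F : Al G) : ℝ := mass (absA F)

lemma nm_nonneg (F : Al G) : 0 ≤ nm F := (le_absA F).pos.mass_nonneg

lemma Le.nm_le {F B : Al G} (h : Le F B) : nm F ≤ mass B :=
  (le_abs_self _).trans (absA_le h).abs_mass_le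

lemma Pos.nm_eq {F : Al G} (h : Pos F) : nm F = mass F := by
  have : absA F = F := by
    ext w; simp [absA, abs_of_nonneg (h w)]
  rw [nm, this]

lemma nm_zero : nm (0 : Al G) = 0 := by rw [Pos.zero.nm_eq]; simp

lemma nm_add_le (F H : Al G) : nm (F + H) ≤ nm F + nm H := by
  simpa [nm] using ((le_absA F).add (le_absA H)).nm_le

lemma nm_neg (F : Al G) : nm (-F) = nm F := by
  have : absA (-F) = absA F := by ext w; simp [absA]
  rw [nm, this, nm]

lemma nm_sub_le (F H : Al G) : nm (F - H) ≤ nm F + nm H := by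
  rw [sub_eq_add_neg]; exact (nm_add_le _ _).trans (by rw [nm_neg])

lemma nm_sub_comm (F H : Al G) : nm (F - H) = nm (H - F) := by
  rw [← nm_neg]; congr 1; abel

lemma nm_tri (F H K : Al G) : nm (F - K) ≤ nm (F - H) + nm (H - K) := by
  have : F - K = (F - H) + (H - K) := by abel
  rw [this]; exact nm_add_le _ _

lemma nm_mul_le (F H : Al G) : nm (F * H) ≤ nm F * nm H := by
  simpa [nm] using ((le_absA F).mul (le_absA H)).nm_le

lemma nm_smul_le (c : ℝ) (F : Al G) : nm (c • F) ≤ |c| * nm F := by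
  simpa [nm] using ((le_absA F).smul (le_refl |c|)).nm_le

lemma nm_sum_le {ι : Type*} (s : Finset ι) (F : ι → Al G) :
    nm (∑ i ∈ s, F i) ≤ ∑ i ∈ s, nm (F i) := by
  simpa [nm] using (Le.sum (s := s) fun i _ => le_absA (F i)).nm_le

lemma abs_pr_le_nm (F : Al G) {ψ : G → ℝ} (hψ : ∀ w, |ψ w| ≤ 1) : |pr ψ F| ≤ nm F := by
  rw [nm, mass_eq_pr]; exact (le_absA F).abs_pr_le hψ

lemma abs_mass_le_nm (F : Al G) : |mass F| ≤ nm F := (le_absA F).abs_mass_le

lemma abs_coeff_le_nm (F : Al G) (w : G) : |F.coeff w| ≤ nm F :=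
  ((le_absA F) w).trans ((le_absA F).pos.coeff_le_mass w)

def Prob (F : Al G) : Prop := Pos F ∧ mass F = 1

namespace Prob

lemma one : Prob (1 : Al G) := ⟨Pos.one, by simp⟩

lemma mul {F H : Al G} (h : Prob F) (h' : Prob H) : Prob (F * H) :=
  ⟨h.1.mul h'.1, by simp [h.2, h'.2]⟩

lemma pow {F : Al G} (h : Prob F) (n : ℕ) : Prob (F ^ n) := ⟨h.1.pow n, by simp [h.2]⟩

lemma nm {F : Al G} (h : Prob F) : nm F = 1 := by rw [h.1.nm_eq, h.2]

lemma nm_mul_left {F : Al G} (h : Prob F) (H : Al G) : P321.nm (F * H) ≤ P321.nm H := by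
  simpa [h.nm] using nm_mul_le F H

lemma nm_mul_right {F : Al G} (h : Prob F) (H : Al G) : P321.nm (H * F) ≤ P321.nm H := by
  simpa [h.nm] using nm_mul_le H F

lemma nm_sub_le {F H : Al G} (h : Prob F) (h' : Prob H) : P321.nm (F - H) ≤ 2 := by
  have := P321.nm_sub_le F H
  rw [h.nm, h'.nm] at this; linarith

end Prob

/-- `F` is dominated by `B` up to a positive remainder of mass at most `ρ`. -/
def Dom (F B : Al G) (ρ : ℝ) : Prop := Pos B ∧ ∃ R, Pos R ∧ mass R ≤ ρ ∧ Le F (B + R)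

namespace Dom

lemma of_le {F B : Al G} (h : Le F B) : Dom F B 0 :=
  ⟨h.pos, 0, Pos.zero, by simp, by simpa using h⟩

lemma refl {F : Al G} (h : Pos F) : Dom F F 0 := of_le (Le.refl h)

lemma rho_nonneg {F B : Al G} {ρ : ℝ} (h : Dom F B ρ) : 0 ≤ ρ := by
  obtain ⟨_, R, h1, h2, _⟩ := h
  exact h1.mass_nonneg.trans h2

lemma mono {F B C : Al G} {ρ ρ' : ℝ} (h : Dom F B ρ) (hC : Pos (C - B)) (hρ : ρ ≤ ρ') :
    Dom F C ρ' := by
  obtain ⟨hB, R, h1, h2, h3⟩ := h
  refine ⟨by simpa using hC.add hB, R, h1, h2.trans hρ, h3.mono ?_⟩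
  simpa using hC

lemma mono_rho {F B : Al G} {ρ ρ' : ℝ} (h : Dom F B ρ) (hρ : ρ ≤ ρ') : Dom F B ρ' :=
  h.mono (by simpa using Pos.zero) hρ

lemma mono_smul {F B : Al G} {ρ ρ' ε ε' : ℝ} (h : Dom F (ε • B) ρ) (hB : Pos B) (hε : ε ≤ ε')
    (hρ : ρ ≤ ρ') : Dom F (ε' • B) ρ' :=
  h.mono (by rw [← sub_smul]; exact Pos.smul (by linarith) hB) hρ

lemma nm_le {F B : Al G} {ρ : ℝ} (h : Dom F B ρ) : nm F ≤ mass B + ρ := by
  obtain ⟨_, R, _, h2, h3⟩ := h
  have := h3.nm_le
  simp only [map_add] at this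
  linarith

lemma add {F B F' B' : Al G} {ρ ρ' : ℝ} (h : Dom F B ρ) (h' : Dom F' B' ρ') :
    Dom (F + F') (B + B') (ρ + ρ') := by
  obtain ⟨hB, R, h1, h2, h3⟩ := h
  obtain ⟨hB', R', h1', h2', h3'⟩ := h'
  refine ⟨hB.add hB', R + R', h1.add h1', by simp only [map_add]; linarith, ?_⟩
  have := h3.add h3'
  rwa [add_add_add_comm] at this

lemma neg {F B : Al G} {ρ : ℝ} (h : Dom F B ρ) : Dom (-F) B ρ := by
  obtain ⟨hB, R, h1, h2, h3⟩ := h
  exact ⟨hB, R, h1, h2, h3.neg⟩

lemma sub {F B F' B' : Al G} {ρ ρ' : ℝ} (h : Dom F B ρ) (h' : Dom F' B' ρ') :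
    Dom (F - F') (B + B') (ρ + ρ') := by
  rw [sub_eq_add_neg]; exact h.add h'.neg

lemma of_nm {F : Al G} {ρ : ℝ} (h : nm F ≤ ρ) : Dom F 0 ρ :=
  ⟨Pos.zero, absA F, (le_absA F).pos, h, by simpa using le_absA F⟩

lemma perturb {F F' B : Al G} {ρ x : ℝ} (h : Dom F B ρ) (hx : nm (F' - F) ≤ x) :
    Dom F' B (ρ + x) := by
  simpa using h.add (of_nm hx)

lemma smul {F B : Al G} {ρ : ℝ} (h : Dom F B ρ) {c d : ℝ} (hc : |c| ≤ d) :
    Dom (c • F) (d • B) (d * ρ) := by
  obtain ⟨hB, R, h1, h2, h3⟩ := h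
  have hd : 0 ≤ d := (abs_nonneg _).trans hc
  refine ⟨hB.smul hd, d • R, h1.smul hd, ?_, ?_⟩
  · rw [mass_smul]; exact mul_le_mul_of_nonneg_left h2 hd
  · rw [← smul_add]; exact h3.smul hc

lemma mul {F B F' B' : Al G} {ρ ρ' : ℝ} (h : Dom F B ρ) (h' : Dom F' B' ρ') :
    Dom (F * F') (B * B') (mass B * ρ' + ρ * mass B' + ρ * ρ') := by
  have hρ := h.rho_nonneg
  obtain ⟨hB, R, h1, h2, h3⟩ := h
  obtain ⟨hB', R', h1', h2', h3'⟩ := h'
  refine ⟨hB.mul hB', B * R' + R * B' + R * R', ((hB.mul h1').add (h1.mul hB')).add (h1.mul h1'),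
    ?_, ?_⟩
  · simp only [map_add, map_mul]
    have := hB.mass_nonneg
    have := hB'.mass_nonneg
    have := h1'.mass_nonneg
    gcongr
  · have := h3.mul h3'
    have e : (B + R) * (B' + R') = B * B' + (B * R' + R * B' + R * R') := by
      simp only [add_mul, mul_add]; abel
    rwa [e] at this

lemma mul_left {F B P : Al G} {ρ : ℝ} (h : Dom F B ρ) (hP : Pos P) :
    Dom (P * F) (P * B) (mass P * ρ) := by
  simpa using (refl hP).mul h

lemma mul_right {F B P : Al G} {ρ : ℝ} (h : Dom F B ρ) (hP : Pos P) :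
    Dom (F * P) (B * P) (ρ * mass P) := by
  simpa using h.mul (refl hP)

lemma prob_left {F B P : Al G} {ρ ε : ℝ} (h : Dom F (ε • B) ρ) (hP : Prob P) :
    Dom (P * F) (ε • (P * B)) ρ := by
  simpa [hP.2] using h.mul_left hP.1

lemma prob_right {F B P : Al G} {ρ ε : ℝ} (h : Dom F (ε • B) ρ) (hP : Prob P) :
    Dom (F * P) (ε • (B * P)) ρ := by
  simpa [hP.2] using h.mul_right hP.1

lemma sum {ι : Type*} {s : Finset ι} {F B : ι → Al G} {ρ : ι → ℝ}
    (h : ∀ i ∈ s, Dom (F i) (B i) (ρ i)) :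
    Dom (∑ i ∈ s, F i) (∑ i ∈ s, B i) (∑ i ∈ s, ρ i) := by
  classical
  induction s using Finset.induction_on with
  | empty => simpa using refl Pos.zero
  | insert a s ha ih =>
    rw [Finset.sum_insert ha, Finset.sum_insert ha, Finset.sum_insert ha]
    exact (h a (by simp)).add (ih fun i hi => h i (by simp [hi]))

lemma trans {F B C : Al G} {ρ ρ' : ℝ} (h : Dom F B ρ) (h' : Dom B C ρ') : Dom F C (ρ + ρ') := by
  obtain ⟨hB, R, h1, h2, h3⟩ := h
  obtain ⟨hC, R', h1', h2', h3'⟩ := h'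
  refine ⟨hC, R + R', h1.add h1', by simp only [map_add]; linarith, h3.mono ?_⟩
  have : C + (R + R') - (B + R) = C + R' - B := by abel
  rw [this]
  exact (le_iff.1 h3').1

/-- product of two normalised dominations -/
lemma mul' {F B F' B' : Al G} {ρ ρ' ε ε' : ℝ} (h : Dom F (ε • B) ρ) (h' : Dom F' (ε' • B') ρ')
    (hB : Prob B) (hB' : Prob B') :
    Dom (F * F') ((ε * ε') • (B * B')) (ε * ρ' + ρ * ε' + ρ * ρ') := by
  have := h.mul h'
  simpa [hB.2, hB'.2, smul_smul, mul_comm ε' ε] using this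

lemma add' {F F' B : Al G} {ρ ρ' ε ε' : ℝ} (h : Dom F (ε • B) ρ) (h' : Dom F' (ε' • B) ρ') :
    Dom (F + F') ((ε + ε') • B) (ρ + ρ') := by
  rw [add_smul]; exact h.add h'

lemma sub' {F F' B : Al G} {ρ ρ' ε ε' : ℝ} (h : Dom F (ε • B) ρ) (h' : Dom F' (ε' • B) ρ') :
    Dom (F - F') ((ε + ε') • B) (ρ + ρ') := by
  rw [add_smul]; exact h.sub h'

lemma sum' {ι : Type*} {s : Finset ι} {F : ι → Al G} {B : Al G} {ρ ε : ι → ℝ}
    (h : ∀ i ∈ s, Dom (F i) (ε i • B) (ρ i)) :
    Dom (∑ i ∈ s, F i) ((∑ i ∈ s, ε i) • B) (∑ i ∈ s, ρ i) := by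
  rw [Finset.sum_smul]; exact sum h

/-- change of reference -/
lemma ref {F B C : Al G} {ρ ρ' ε c : ℝ} (h : Dom F (ε • B) ρ) (h' : Dom B (c • C) ρ')
    (hε : 0 ≤ ε) : Dom F ((ε * c) • C) (ρ + ε * ρ') := by
  have := h'.smul (c := ε) (d := ε) (abs_of_nonneg hε).le
  rw [smul_smul] at this
  exact h.trans this

lemma nm_le' {F B : Al G} {ρ ε : ℝ} (h : Dom F (ε • B) ρ) (hB : Prob B) : nm F ≤ ε + ρ := by
  simpa [hB.2] using h.nm_le

/-- closeness gives domination of the reference by the perturbed measure -/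
lemma ref_back {B C : Al G} {ρ : ℝ} (h : Dom (C - B) ((1 / 2 : ℝ) • B) ρ) (hC : Pos C) :
    Dom B ((2 : ℝ) • C) (2 * ρ) := by
  obtain ⟨hB, R, h1, h2, h3⟩ := h
  refine ⟨hC.smul (by norm_num), (2 : ℝ) • R, h1.smul (by norm_num),
    by rw [mass_smul]; linarith, fun w => ?_⟩
  have a := abs_le.1 (h3 w)
  have b := hB w
  simp at a b ⊢
  rw [abs_of_nonneg b]
  linarith [a.1]

lemma ref_fwd {B C : Al G} {ρ : ℝ} (h : Dom (C - B) ((1 : ℝ) • B) ρ) :
    Dom C ((2 : ℝ) • B) ρ := by
  have hB : Pos B := by simpa using h.1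
  have := h.add (refl hB)
  rw [sub_add_cancel, one_smul, ← two_smul ℝ B, add_zero] at this
  exact this

/-- Riesz decomposition -/
lemma split {F B : Al G} {ρ : ℝ} (h : Dom F B ρ) : ∃ F', Le F' B ∧ nm (F - F') ≤ ρ := by
  obtain ⟨hB, R, h1, h2, h3⟩ := h
  refine ⟨.ofCoeff (Finsupp.zipWith (fun x b => max (-b) (min x b)) (by simp) F.coeff B.coeff),
    fun w => ?_, le_trans (Le.nm_le (B := R) fun w => ?_) h2⟩
  · have := hB w
    simp only [Finsupp.zipWith_apply]
    rw [abs_le]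
    exact ⟨le_max_left _ _, max_le (by linarith) (min_le_right _ _)⟩
  · have a := abs_le.1 (h3 w)
    have b := hB w
    have c := h1 w
    simp only [MonoidAlgebra.coeff_add, Finsupp.coe_add, Pi.add_apply, MonoidAlgebra.coeff_sub,
      Finsupp.coe_sub, Pi.sub_apply, Finsupp.zipWith_apply] at a ⊢
    rw [abs_le]
    rcases le_total (F.coeff w) (B.coeff w) with h | h
    · rw [min_eq_left h]
      rcases le_total (-B.coeff w) (F.coeff w) with h' | h'
      · rw [max_eq_right h']; constructor <;> linarith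
      · rw [max_eq_left h']; constructor <;> linarith [a.1]
    · rw [min_eq_right h, max_eq_right (by linarith)]
      constructor <;> linarith [a.2]

end Dom

/-- common part of two probability elements -/
lemma exists_common {F H : Al G} (hF : Prob F) (hH : Prob H) :
    ∃ κ, Pos κ ∧ Pos (F - κ) ∧ Pos (H - κ) ∧ mass κ = 1 - nm (F - H) / 2 := by
  refine ⟨(1 / 2 : ℝ) • (F + H - absA (F - H)), fun w => ?_, fun w => ?_, fun w => ?_, ?_⟩
  · have a := hF.1 w
    have b := hH.1 w
    have : |F.coeff w - H.coeff w| ≤ F.coeff w + H.coeff w := abs_le.2 ⟨by linarith, by linarith⟩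
    simp [absA]; linarith
  · have := neg_abs_le (F.coeff w - H.coeff w)
    simp [absA]; linarith
  · have := le_abs_self (F.coeff w - H.coeff w)
    simp [absA]; linarith
  · simp only [map_smul, map_sub, map_add, hF.2, hH.2, nm, smul_eq_mul]; ring

section push
variable {G' : Type*} [Monoid G']

noncomputable def push (f : G →* G') : Al G →ₐ[ℝ] Al G' := MonoidAlgebra.mapDomainAlgHom ℝ ℝ f

@[simp] lemma push_single (f : G →* G') (w : G) (a : ℝ) :
    push f (MonoidAlgebra.single w a) = MonoidAlgebra.single (f w) a := by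
  simp [push]

lemma pr_push (f : G →* G') (ψ : G' → ℝ) (F : Al G) : pr ψ (push f F) = pr (fun w => ψ (f w)) F := by
  induction F using MonoidAlgebra.induction_linear with
  | zero => simp
  | add F F' h h' => simp [h, h']
  | single u a => simp

lemma mass_push (f : G →* G') (F : Al G) : mass (push f F) = mass F := by
  rw [mass_eq_pr, pr_push, mass_eq_pr]

lemma Pos.push (f : G →* G') {F : Al G} (h : Pos F) : Pos (push f F) := fun w => by
  have : (P321.push f F).coeff = Finsupp.mapDomain f F.coeff := rfl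
  rw [this]
  exact Finsupp.mapDomain_nonneg (f := f) (g := F.coeff) (fun w => h w) w

lemma Prob.push (f : G →* G') {F : Al G} (h : Prob F) : Prob (push f F) :=
  ⟨h.1.push f, by rw [mass_push, h.2]⟩

lemma Le.push (f : G →* G') {F B : Al G} (h : Le F B) : Le (push f F) (push f B) := by
  rw [le_iff] at h ⊢
  rw [← map_sub, ← map_add]
  exact ⟨h.1.push f, h.2.push f⟩

lemma nm_push (f : G →* G') (F : Al G) : nm (push f F) ≤ nm F := by
  have := ((le_absA F).push f).nm_le
  rwa [mass_push] at this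

lemma Dom.push (f : G →* G') {F B : Al G} {ρ : ℝ} (h : Dom F B ρ) :
    Dom (push f F) (push f B) ρ := by
  obtain ⟨hB, R, h1, h2, h3⟩ := h
  refine ⟨hB.push f, P321.push f R, h1.push f, by rwa [mass_push], ?_⟩
  rw [← map_add]; exact h3.push f

end push

end Vale.Agent.P321
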