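import Vale.Agent.P321.LowL2

namespace Vale.Agent.P321

open Finset

set_option linter.unusedSectionVars false

section gen
variable {G : Type*} [Monoid G]

def Ov (F H : Al G) (γ : ℝ) : Prop := ∃ κ, Pos κ ∧ Pos (F - κ) ∧ Pos (H - κ) ∧ γ ≤ mass κ

lemma Ov.mul {F H F' H' : Al G} {γ γ' : ℝ} (h : Ov F H γ) (h' : Ov F' H' γ') (hγ : 0 ≤ γ') :
    Ov (F * F') (H * H') (γ * γ') := by
  obtain ⟨κ, a1, a2, a3, a4⟩ := h
  obtain ⟨κ', b1, b2, b3, b4⟩ := h'
  refine ⟨κ * κ', a1.mul b1, ?_, ?_, ?_⟩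
  · have : F * F' - κ * κ' = (F - κ) * ((F' - κ') + κ') + κ * (F' - κ') := by
      simp only [sub_add_cancel, sub_mul, mul_sub]; abel
    rw [this]; exact (a2.mul (b2.add b1)).add (a1.mul b2)
  · have : H * H' - κ * κ' = (H - κ) * ((H' - κ') + κ') + κ * (H' - κ') := by
      simp only [sub_add_cancel, sub_mul, mul_sub]; abel
    rw [this]; exact (a3.mul (b3.add b1)).add (a1.mul b3)
  · rw [map_mul]; exact mul_le_mul a4 b4 hγ a1.mass_nonneg

lemma ov_of_nm {F H : Al G} (hF : Prob F) (hH : Prob H) (h : nm (F - H) ≤ 3 / 2) :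
    Ov F H (1 / 4) := by
  obtain ⟨κ, a, b, c, d⟩ := exists_common hF hH
  exact ⟨κ, a, b, c, by rw [d]; linarith⟩

noncomputable def chk (b a : G) (M x s y : ℕ) : G := b ^ x * a * suf b a M y s

lemma chk_mul (b a : G) {M x s y x' s' y' : ℕ} (h : y + x' = M) :
    chk b a M x s y * chk b a M x' s' y' = chk b a M x (s + 1 + s') y' := by
  simp only [chk, suf]
  rw [pow_add, pow_succ, ← h, pow_add b y x']
  simp only [mul_assoc]

lemma chk_pow (b a : G) (M1 : ℕ) : ∀ k : ℕ,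
    (b ^ M1 * a * b ^ M1) ^ (k + 1) = chk b a (2 * M1) M1 k M1
  | 0 => by simp [chk, suf]
  | k + 1 => by
    rw [pow_succ, chk_pow b a M1 k]
    have : b ^ M1 * a * b ^ M1 = chk b a (2 * M1) M1 0 M1 := by simp [chk, suf]
    rw [this, chk_mul b a (by omega)]

lemma prob_chk {b a : Al G} (hb : Prob b) (ha : Prob a) (M x s y : ℕ) :
    Prob (chk b a M x s y) :=
  ((hb.pow x).mul ha).mul ((((hb.pow M).mul ha).pow s).mul (hb.pow y))

lemma chainL {b a : Al G} (hb : Prob b) (ha : Prob a) {i σ M1 : ℕ}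
    (hM1 : M1 = (i + 1) * (2 * σ + 1) + σ)
    (H1 : ∀ x y, σ ≤ x → x ≤ 2 * M1 → σ ≤ y → y ≤ 2 * M1 → x + y = 2 * M1 + (2 * σ + 1) →
      nm (chk b a (2 * M1) M1 (2 * σ) M1 - chk b a (2 * M1) x (2 * σ) y) ≤ 3 / 2)
    (H2 : nm (chk b a (2 * M1) M1 (2 * σ) M1 - chk b a (2 * M1) σ (2 * σ + 1) σ) ≤ 3 / 2) :
    Inv (b ^ M1 * a * b ^ M1) (((2 * i + 3) * (2 * σ + 1) + 1) * 4 ^ (2 * i + 3)) := by
  set ν := b ^ M1 * a * b ^ M1 with hν
  set w := 2 * σ + 1 with hw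
  have pc := prob_chk hb ha (2 * M1)
  have e0 : ν ^ w = chk b a (2 * M1) M1 (2 * σ) M1 := chk_pow b a M1 _
  have L : ∀ k ≤ i, Ov (ν ^ ((k + 1) * w))
      (chk b a (2 * M1) M1 (k * w + 2 * σ) (M1 + (k + 1) * w)) ((1 / 4) ^ (k + 1)) := by
    intro k
    induction k with
    | zero =>
      intro _
      simp only [zero_add, one_mul, zero_mul, pow_one, e0]
      exact ov_of_nm (pc _ _ _) (pc _ _ _) (H1 _ _ (by omega) (by omega) (by omega)
        (by rw [add_mul] at hM1; omega) (by omega))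
    | succ k ih =>
      intro hk
      have hkw : (k + 1 + 1) * w ≤ (i + 1) * w := Nat.mul_le_mul_right _ (by omega)
      have e1 : (k + 1 + 1) * w = (k + 1) * w + w := by ring
      have := (ih (by omega)).mul (ov_of_nm (pc _ _ _) (pc _ _ _)
        (H1 (M1 - (k + 1) * w) (M1 + (k + 1 + 1) * w) (by omega) (by omega) (by omega)
          (by omega) (by omega))) (by norm_num)
      rw [← e0, ← pow_add, ← e1, chk_mul b a (by omega), ← pow_succ,
        show k * w + 2 * σ + 1 + 2 * σ = (k + 1) * w + 2 * σ by rw [hw]; ring] at this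
      exact this
  have R : ∀ k ≤ i, Ov (ν ^ ((k + 1) * w))
      (chk b a (2 * M1) (M1 + (k + 1) * w) (k * w + 2 * σ) M1) ((1 / 4) ^ (k + 1)) := by
    intro k
    induction k with
    | zero =>
      intro _
      simp only [zero_add, one_mul, zero_mul, pow_one, e0]
      exact ov_of_nm (pc _ _ _) (pc _ _ _) (H1 _ _ (by omega)
        (by rw [add_mul] at hM1; omega) (by omega) (by omega) (by omega))
    | succ k ih =>
      intro hk
      have hkw : (k + 1 + 1) * w ≤ (i + 1) * w := Nat.mul_le_mul_right _ (by omega)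
      have e1 : (k + 1 + 1) * w = w + (k + 1) * w := by ring
      have := (ov_of_nm (pc _ _ _) (pc _ _ _)
        (H1 (M1 + (k + 1 + 1) * w) (M1 - (k + 1) * w) (by omega) (by omega) (by omega)
          (by omega) (by omega))).mul (ih (by omega)) (by positivity)
      rw [← e0, ← pow_add, ← e1, chk_mul b a (by omega), ← pow_succ',
        show 2 * σ + 1 + (k * w + 2 * σ) = (k + 1) * w + 2 * σ by rw [hw]; ring] at this
      exact this
  have tot := ((L i le_rfl).mul (ov_of_nm (pc _ _ _) (pc _ _ _) H2) (by norm_num)).mul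
    (R i le_rfl) (by positivity)
  rw [← e0, ← pow_add, ← pow_add, chk_mul b a (by omega), chk_mul b a (by omega), ← chk_pow,
    ← pow_succ, ← pow_add, show (i + 1) * w + w + (i + 1) * w = (2 * i + 3) * w by ring,
    show i * w + 2 * σ + 1 + w + 1 + (i * w + 2 * σ) + 1 = (2 * i + 3) * w + 1 by rw [hw]; ring,
    show i + 1 + 1 + (i + 1) = 2 * i + 3 by ring] at tot
  obtain ⟨κ, k1, k2, k3, k4⟩ := tot
  refine inv_of_common (((hb.pow M1).mul ha).mul (hb.pow M1)) k1 k2 k3 ?_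
  have : ((4 ^ (2 * i + 3) : ℕ) : ℝ) * (1 / 4) ^ (2 * i + 3) = 1 := by
    push_cast; rw [← mul_pow]; norm_num
  calc (1 : ℝ) = _ := this.symm
    _ ≤ _ := by gcongr

end gen

lemma bern_pair {r p : ℝ} (hr0 : 0 < r) (hr1 : r ≤ 1) (hp0 : 0 ≤ p) (hpr : p ≤ r) {c : ℕ}
    (hc : 1 ≤ c * (1 - r)) {k d w : ℕ} (hd : d ≤ w) (hk : c * (8 * (w + 1)) ^ 2 ≤ k) (n : ℕ) :
    nm (bern r ^ k * bern p ^ n - bern r ^ (k + d) * bern p ^ n) ≤ 1 / 2 ∧
    nm (bern r ^ k * bern p ^ n - bern r ^ (k + d) * bern p ^ (n + 1)) ≤ 1 / 2 := by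
  have hI := inv_bern hr0.le hr1 hc
  have hu := prob_bern hp0 (hpr.trans hr1)
  have hb := prob_bern hr0.le hr1
  have a1 := hI (8 * (w + 1)) d k (by omega) hk
  have a2 := hI (8 * (w + 1)) 1 (k + d) (by omega) (by omega)
  have hd' : (d : ℝ) ≤ w := by exact_mod_cast hd
  have hw : (0 : ℝ) < w + 1 := by positivity
  push_cast at a1 a2
  have b1 : nm (bern r ^ k * bern p ^ n - bern r ^ (k + d) * bern p ^ n) ≤ 4 * d / (8 * (w + 1)) := by
    rw [← sub_mul]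
    refine ((hu.pow n).nm_mul_right _).trans ?_
    rwa [nm_sub_comm]
  have b2 : nm (bern r ^ (k + d) * bern p ^ n - bern r ^ (k + d) * bern p ^ (n + 1)) ≤
      4 * 1 / (8 * (w + 1)) := by
    have e : bern r ^ (k + d) * bern p ^ n - bern r ^ (k + d) * bern p ^ (n + 1) =
        (-(p / r)) • ((bern r ^ (k + d + 1) - bern r ^ (k + d)) * bern p ^ n) := by
      have e1 : bern p = 1 + (p / r) • (bern r - 1) := by
        have : bern r - 1 = r • (XX - 1) := by rw [bern]; module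
        rw [this, smul_smul, div_mul_cancel₀ _ hr0.ne', bern]; module
      rw [pow_succ' (bern p), pow_succ (bern r)]
      nth_rewrite 2 [e1]
      simp only [add_mul, mul_add, sub_mul, mul_sub, smul_mul_assoc, mul_smul_comm, one_mul,
        mul_assoc, smul_sub]
      module
    rw [e]
    refine (nm_smul_le _ _).trans ?_
    have : |-(p / r)| ≤ 1 := by
      rw [abs_neg, abs_of_nonneg (by positivity), div_le_one hr0]; exact hpr
    calc _ ≤ 1 * (4 * 1 / (8 * ((w : ℝ) + 1))) :=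
        mul_le_mul this (((hu.pow n).nm_mul_right _).trans a2) (nm_nonneg _) zero_le_one
      _ = _ := one_mul _
  have c : 4 * (d : ℝ) / (8 * (w + 1)) + 4 * 1 / (8 * (w + 1)) ≤ 1 / 2 := by
    rw [← add_div, div_le_iff₀ (by positivity)]; linarith
  have c2 : 0 ≤ 4 * 1 / (8 * ((w : ℝ) + 1)) := by positivity
  exact ⟨by linarith, (nm_tri _ _ _).trans ((add_le_add b1 b2).trans c)⟩

lemma base_inv {T : Type*} [Fintype T] [DecidableEq T] {ρ cv : T → ℝ} (hρ : ∀ τ, 0 < ρ τ)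
    (hρ1 : ∑ τ, ρ τ = 1) (hv : ∑ τ, cv τ = 0) {r p : ℝ} (hr0 : 0 < r) (hr1 : r < 1)
    (hp0 : 0 ≤ p) (hpr : p ≤ r) (ha : Pos (ev (lt ρ) (bern p) + lt cv)) :
    ∃ i : ℕ, ∀ σ M1 : ℕ, 2 * i + 3 ≤ σ → M1 = (i + 1) * (2 * σ + 1) + σ →
      Inv (ev (lt ρ) (bern r) ^ M1 * (ev (lt ρ) (bern p) + lt cv) * ev (lt ρ) (bern r) ^ M1)
        (((2 * i + 3) * (2 * σ + 1) + 1) * 4 ^ (2 * i + 3)) := by
  obtain ⟨c, hc⟩ : ∃ c : ℕ, 1 ≤ c * (1 - r) := by
    obtain ⟨c, hc⟩ := exists_nat_ge (1 / (1 - r))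
    exact ⟨c, by rwa [div_le_iff₀ (by linarith)] at hc⟩
  obtain ⟨C0, hC, hS⟩ := sup_bern hr0 hr1.le hc
  set S := ∑ τ, cv τ * cv τ / ρ τ with hSd
  have hS0 : 0 ≤ S := Finset.sum_nonneg fun τ _ => div_nonneg (mul_self_nonneg _) (hρ τ).le
  obtain ⟨i, hi⟩ := exists_nat_ge ((11520 * S * C0 ^ 2) ^ 2 + 320 / r ^ 2 + 512 * c)
  refine ⟨i, fun σ M1 hσ hM1 => ?_⟩
  have he : Prob (lt ρ) := ⟨pos_lt fun τ => (hρ τ).le, by rw [mass_lt, hρ1]⟩
  have hp1 : p ≤ 1 := by linarith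
  have hb := he.ev (prob_bern hr0.le hr1.le)
  have ha' : Prob (ev (lt ρ) (bern p) + lt cv) :=
    ⟨ha, by rw [map_add, (he.ev (prob_bern hp0 hp1)).2, mass_lt, hv, add_zero]⟩
  set J : ℝ := 2 * i + 3 with hJ
  have hi0 : (0 : ℝ) ≤ i := Nat.cast_nonneg _
  have hJ0 : 0 < J := by positivity
  have q1 : 0 ≤ (11520 * S * C0 ^ 2) ^ 2 := by positivity
  have q2 : 0 ≤ 320 / r ^ 2 := by positivity
  have q3 : (0 : ℝ) ≤ 512 * c := by positivity
  have hσ' : J ≤ σ := by rw [hJ]; exact_mod_cast hσ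
  have hε' : 80 * (4 / J) ≤ r ^ 2 := by
    have : 320 / r ^ 2 ≤ J := by linarith
    rw [div_le_iff₀ (by positivity)] at this
    rw [← mul_div_assoc, div_le_iff₀ hJ0]; linarith
  have hη : 1152 * S * C0 ^ 2 * (2 / √σ + 4 * √(4 / J)) ≤ 1 := by
    have s0 := Real.sqrt_pos.2 hJ0
    have s1 : 2 / √σ ≤ 2 / √J := by gcongr
    have s2 : √(4 / J) = 2 / √J := by
      rw [Real.sqrt_div (by norm_num), show (4 : ℝ) = 2 ^ 2 by norm_num,
        Real.sqrt_sq (by norm_num)]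
    have s3 : 11520 * S * C0 ^ 2 ≤ √J := Real.le_sqrt_of_sq_le (by linarith)
    rw [s2]
    calc 1152 * S * C0 ^ 2 * (2 / √σ + 4 * (2 / √J))
        ≤ 1152 * S * C0 ^ 2 * (2 / √J + 4 * (2 / √J)) := by gcongr
      _ = 11520 * S * C0 ^ 2 / √J := by ring
      _ ≤ 1 := by rw [div_le_one s0]; exact s3
  have hM : ((2 * M1 : ℕ) : ℝ) = J * (2 * σ + 1) - 1 := by rw [hM1, hJ]; push_cast; ring
  have hε : ∀ s ≤ 2 * σ + 1, (s + 2 : ℝ) ≤ 4 / J * (2 * M1 : ℕ) := by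
    intro s hs
    have : (s : ℝ) ≤ 2 * σ + 1 := by exact_mod_cast hs
    rw [hM, div_mul_eq_mul_div, le_div_iff₀ hJ0]
    nlinarith
  have cc := fun x y s (h1 : σ ≤ x) (h2 : x ≤ 2 * M1) (h3 : σ ≤ y) (h4 : y ≤ 2 * M1) (h5 : 2 ≤ s)
    (h6 : s ≤ 2 * σ + 1) => chunk_close hρ hρ1 hv hr0 hr1.le hp0 hp1 hC hS hSd.symm.le ha
      (by omega) h1 h2 h3 h4 h5 (hε s h6) hε' hη
  have hσM : σ ≤ M1 := by omega
  have hk : c * (8 * (2 * σ + 1 + 1)) ^ 2 ≤ 2 * σ * (2 * M1) + M1 + M1 := by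
    have : 512 * c ≤ i := by exact_mod_cast (by linarith : (512 * c : ℝ) ≤ i)
    calc c * (8 * (2 * σ + 1 + 1)) ^ 2 ≤ c * (8 * (2 * (2 * σ + 1))) ^ 2 := by gcongr; omega
      _ = (512 * c) * (2 * σ + 1) ^ 2 / 2 := by
        rw [show 512 * c * (2 * σ + 1) ^ 2 = 2 * (256 * c * (2 * σ + 1) ^ 2) by ring,
          Nat.mul_div_cancel_left _ (by norm_num)]; ring
      _ ≤ 512 * c * (2 * σ + 1) ^ 2 := Nat.div_le_self _ _
      _ ≤ i * (2 * σ + 1) ^ 2 := by gcongr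
      _ ≤ _ := by rw [hM1]; nlinarith [Nat.zero_le σ, Nat.zero_le i]
  have c0 := cc M1 M1 (2 * σ) hσM (by omega) hσM (by omega) (by omega) (by omega)
  refine chainL hb ha' hM1 (fun x y h1 h2 h3 h4 h5 => ?_) ?_
  · have c1 := cc x y (2 * σ) h1 h2 h3 h4 (by omega) (by omega)
    have c2 := (nm_ev he _).trans
      (bern_pair hr0 hr1.le hp0 hpr hc (d := 2 * σ + 1) le_rfl hk (2 * σ + 1)).1
    rw [map_sub, show 2 * σ * (2 * M1) + M1 + M1 + (2 * σ + 1) = 2 * σ * (2 * M1) + x + y by omega]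
      at c2
    rw [nm_sub_comm] at c1
    refine (nm_tri _ _ _).trans (add_le_add c0 ((nm_tri _ _ _).trans (add_le_add c2 c1))) |>.trans
      (by norm_num)
  · have c1 := cc σ σ (2 * σ + 1) le_rfl (by omega) le_rfl (by omega) (by omega) le_rfl
    have c2 := (nm_ev he _).trans
      (bern_pair hr0 hr1.le hp0 hpr hc (d := 2 * σ) (by omega) hk (2 * σ + 1)).2
    rw [map_sub, show 2 * σ * (2 * M1) + M1 + M1 + 2 * σ = (2 * σ + 1) * (2 * M1) + σ + σ by ring]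
      at c2
    rw [nm_sub_comm] at c1
    refine (nm_tri _ _ _).trans (add_le_add c0 ((nm_tri _ _ _).trans (add_le_add c2 c1))) |>.trans
      (by norm_num)

end Vale.Agent.P321
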