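import Vale.Agent.P321.LowPat

namespace Vale.Agent.P321

open Finset

variable {G : Type*} [Monoid G]

lemma spread_double (P W : Al G) (J : ℕ) :
    spread P (fun _ => W) (J + J) =
      spread P (fun _ => W) J * P ^ J + P ^ J * spread P (fun _ => W) J := by
  unfold spread
  rw [Finset.sum_range_add, Finset.sum_mul, Finset.mul_sum]
  refine congrArg₂ (· + ·) ?_ ?_
  · refine Finset.sum_congr rfl fun j hj => ?_
    have hj := Finset.mem_range.1 hj
    rw [mul_assoc _ (P ^ (J - 1 - j)), ← pow_add]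
    exact sand_eq _ _ rfl (by omega)
  · refine Finset.sum_congr rfl fun j hj => ?_
    have hj := Finset.mem_range.1 hj
    rw [← mul_assoc, ← mul_assoc, ← pow_add]
    exact sand_eq _ _ rfl (by omega)

lemma dyadic (x P : Al G) (k : ℕ) : x ^ 2 ^ k - P ^ 2 ^ k =
    spread P (fun _ => x - P) (2 ^ k) + ∑ i ∈ range k, spread (P ^ 2 ^ (i + 1))
      (fun _ => (x ^ 2 ^ i - P ^ 2 ^ i) * (x ^ 2 ^ i - P ^ 2 ^ i)) (2 ^ (k - i - 1)) := by
  induction k with
  | zero => simp [spread]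
  | succ k ih =>
    have e : x ^ 2 ^ (k + 1) - P ^ 2 ^ (k + 1) = (x ^ 2 ^ k - P ^ 2 ^ k) * P ^ 2 ^ k +
        P ^ 2 ^ k * (x ^ 2 ^ k - P ^ 2 ^ k) + (x ^ 2 ^ k - P ^ 2 ^ k) * (x ^ 2 ^ k - P ^ 2 ^ k) := by
      rw [pow_succ 2 k, mul_two, pow_add, pow_add]
      simp only [sub_mul, mul_sub]; abel
    rw [e, Finset.sum_range_succ]
    have e2 : spread (P ^ 2 ^ (k + 1)) (fun _ => (x ^ 2 ^ k - P ^ 2 ^ k) * (x ^ 2 ^ k - P ^ 2 ^ k))
        (2 ^ (k + 1 - k - 1)) = (x ^ 2 ^ k - P ^ 2 ^ k) * (x ^ 2 ^ k - P ^ 2 ^ k) := by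
      simp [spread]
    rw [e2, ← add_assoc]
    refine congrArg₂ (· + ·) ?_ rfl
    nth_rewrite 1 [ih]
    nth_rewrite 1 [ih]
    rw [pow_succ 2 k, mul_two, spread_double, add_mul, mul_add, add_add_add_comm,
      Finset.sum_mul, Finset.mul_sum, ← Finset.sum_add_distrib]
    refine congrArg₂ (· + ·) rfl (Finset.sum_congr rfl fun i hi => ?_)
    have hi := Finset.mem_range.1 hi
    have e3 : 2 ^ (k + 1 - i - 1) = 2 ^ (k - i - 1) + 2 ^ (k - i - 1) := by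
      rw [← mul_two, ← pow_succ]; congr 1; omega
    have e4 : P ^ 2 ^ k = (P ^ 2 ^ (i + 1)) ^ 2 ^ (k - i - 1) := by
      rw [← pow_mul, ← pow_add]; congr 2; omega
    rw [e3, spread_double, ← e4]

lemma sum_ite_lt_le (s a : ℕ) : ∑ i ∈ range s, (if i < a then (1 : ℝ) else 0) ≤ a := by
  rw [Finset.sum_boole]
  have : ((range s).filter (fun i => i < a)).card ≤ (range a).card :=
    Finset.card_le_card fun i hi => by simp at hi ⊢; exact hi.2
  rw [card_range] at this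
  exact_mod_cast this

lemma sum_ite_ge_le (s a : ℕ) : ∑ i ∈ range s, (if s ≤ i + a then (1 : ℝ) else 0) ≤ a := by
  rw [Finset.sum_boole]
  have : ((range s).filter (fun i => s ≤ i + a)).card ≤ (Ico (s - a) s).card :=
    Finset.card_le_card fun i hi => by simp at hi ⊢; omega
  rw [Nat.card_Ico] at this
  have h2 : ((range s).filter (fun i => s ≤ i + a)).card ≤ a := by omega
  exact_mod_cast h2

set_option maxHeartbeats 1000000 in
lemma lin_close {μ R : Al G} (hμ : Prob μ) {g b K k : ℕ} {h ε ρ : ℝ}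
    (hh : 17 ≤ h) (hK : 6 * K ≤ h) (h2K : 2 ^ K ≤ h) (hτ : Real.exp (-(h ^ 2 / 2)) ≤ ρ)
    (hθ : (1 / h) ^ K ≤ ρ) (hR : Dom R (ε • μ) ρ) (hm : mass R = 0) (hε0 : 0 < ε)
    (hS : Sm μ (16 ^ (k / 6) * b) (4 ^ (k / 6)) (1 / h)) (hb : (b + 1) * K ≤ g)
    (hg : K * 4 ^ (k / 6) ≤ g) (c1 : h ^ 4 * ε * 4 ^ (k / 6) ≤ 1)
    (c2 : h ^ 3 * ρ * 2 ^ (k / 6) ≤ ε) :
    Dom (spread (μ ^ (2 * g + 1)) (fun _ => μ ^ g * R * μ ^ g) (2 ^ k))
      ((h ^ 5 * ε * 4 ^ (k / 6)) • (μ ^ (2 * g + 1)) ^ 2 ^ k) (2 ^ k * h ^ 4 * ρ) := by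
  set j := k / 6 with hj
  set r : ℕ := 2 ^ j with hr
  have hr0 : 0 < r := by positivity
  have hr1 : (1 : ℝ) ≤ r := by exact_mod_cast hr0
  have hrr : (r : ℝ) = 2 ^ j := by rw [hr]; push_cast; rfl
  have h4 : 4 ^ j = r ^ 2 := by rw [hr, ← pow_mul, mul_comm, pow_mul]; norm_num
  have h4' : (4 : ℝ) ^ j = r ^ 2 := by exact_mod_cast h4
  have h16 : 16 ^ j = r ^ 4 := by rw [hr, ← pow_mul, mul_comm, pow_mul]; norm_num
  rw [h4] at hS hg
  rw [h16] at hS
  rw [h4'] at c1 ⊢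
  rw [← hrr] at c2
  have hρ := hR.rho_nonneg
  have hh0 : 0 < h := by linarith
  have hh1 : 1 ≤ h := by linarith
  have hh3 : 1 ≤ h ^ 3 := one_le_pow₀ hh1
  have hρε3 : h ^ 3 * ρ ≤ ε := by nlinarith [mul_nonneg (le_trans zero_le_one hh3) hρ]
  have hρε : ρ ≤ ε := by nlinarith
  have hε3 : h ^ 3 * ε ≤ 1 := by
    have : h ^ 3 * ε * 1 ≤ h ^ 3 * ε * (h * r ^ 2) := by
      gcongr; nlinarith
    nlinarith
  have hε1 : ε ≤ 1 := by nlinarith
  obtain ⟨w, hw, H⟩ := smooth (G := G) (J := r ^ 2) (by positivity) K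
  have hw' : ∀ l, |w l| ≤ h / (r ^ 2 : ℕ) := fun l => (hw l).trans (by gcongr; linarith)
  set P := μ ^ (2 * g + 1) with hP
  have hPp : Prob P := hμ.pow _
  set s := 2 ^ k with hs
  set Mid := μ ^ g * ∑ l ∈ range (K * r ^ 2), w l • (μ ^ l * R * μ ^ (K * r ^ 2 - 1 - l) *
    μ ^ (g + 1 - K * r ^ 2)) with hMid
  have dMid : Dom Mid ((h ^ 3 * ε / r) • P) (h ^ 3 * ρ) := by
    have := (midavg hμ (hμ.pow (g + 1 - K * r ^ 2)) hr0 (by linarith) hK hτ hR hm hε0 ⟨hρε, hε1⟩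
      one_pos le_rfl w hw' (fun _ => μ ^ (g + 1 - K * r ^ 2))
      (fun _ _ => by simpa using (Dom.refl (hμ.pow _).1).mono_rho hρ)).prob_left (hμ.pow g)
    rw [← pow_add, ← pow_add, mul_one,
      show g + (K * r ^ 2 + (g + 1 - K * r ^ 2)) = 2 * g + 1 by omega] at this
    exact this
  have mMid : mass Mid = 0 := by simp [hMid, hm]
  have dE : Dom (μ ^ g * R * μ ^ g) (ε • P) (h ^ 3 * ρ) := by
    have := (hR.prob_left (hμ.pow g)).prob_right (hμ.pow g)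
    rw [← pow_succ, ← pow_add, show g + 1 + g = 2 * g + 1 by omega] at this
    exact this.mono_rho (by nlinarith)
  have key := avg_spread hPp (σ := h ^ 4 * ε * r ^ 2) (Λ := h) (ρ := h ^ 3 * ρ) (by positivity) hh1
    s (fun i => if r ^ 4 ≤ i ∧ i + r ^ 4 < s then Mid else μ ^ g * R * μ ^ g)
    (fun i => if r ^ 4 ≤ i ∧ i + r ^ 4 < s then h ^ 3 * ε / r else ε)
    (fun i _ => by split_ifs <;> assumption)
    (fun i _ => by split_ifs; exacts [mMid, by simp [hm]])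
    (fun i _ => by
      split_ifs
      · constructor
        · rw [le_div_iff₀ (by linarith)]; nlinarith
        · rw [div_le_one (by linarith)]; linarith
      · exact ⟨hρε3, hε1⟩)
    (by
      have t1 : ∀ i ∈ range s, (2 * (if r ^ 4 ≤ i ∧ i + r ^ 4 < s then h ^ 3 * ε / r else ε)) ^ 2 ≤
          4 * (h ^ 3 * ε / r) ^ 2 + 4 * ε ^ 2 * (if i < r ^ 4 then (1 : ℝ) else 0) +
            4 * ε ^ 2 * (if s ≤ i + r ^ 4 then (1 : ℝ) else 0) := by
        intro i _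
        have p1 : 0 ≤ 4 * (h ^ 3 * ε / r) ^ 2 := by positivity
        have p2 : 0 ≤ 4 * ε ^ 2 := by positivity
        split_ifs <;> first | omega | nlinarith
      refine (Finset.sum_le_sum t1).trans ?_
      rw [Finset.sum_add_distrib, Finset.sum_add_distrib, ← Finset.mul_sum, ← Finset.mul_sum,
        ← Finset.mul_sum, sum_const, card_range, nsmul_eq_mul]
      have t2 := mul_le_mul_of_nonneg_left (sum_ite_lt_le s (r ^ 4)) (show 0 ≤ 4 * ε ^ 2 by positivity)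
      have t3 := mul_le_mul_of_nonneg_left (sum_ite_ge_le s (r ^ 4)) (show 0 ≤ 4 * ε ^ 2 by positivity)
      have t4 : (s : ℝ) ≤ 64 * r ^ 6 := by
        have : s ≤ 64 * r ^ 6 := by
          rw [hs, hr, ← pow_mul, show 64 = 2 ^ 6 by norm_num, ← pow_add]
          exact Nat.pow_le_pow_right (by norm_num) (by omega)
        exact_mod_cast this
      have t5 : (s : ℝ) * (h ^ 3 * ε / r) ^ 2 ≤ 64 * h ^ 6 * (ε ^ 2 * r ^ 4) := by
        calc (s : ℝ) * (h ^ 3 * ε / r) ^ 2 ≤ 64 * r ^ 6 * (h ^ 3 * ε / r) ^ 2 := by gcongr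
          _ = _ := by field_simp
      push_cast at t2 t3
      have t6 : 256 * h ^ 6 + 8 ≤ h ^ 8 := by
        have : (289 : ℝ) ≤ h ^ 2 := by nlinarith
        have : (1 : ℝ) ≤ h ^ 6 := one_le_pow₀ hh1
        nlinarith
      have t7 := mul_le_mul_of_nonneg_right t6 (show 0 ≤ ε ^ 2 * r ^ 4 by positivity)
      linarith)
  have pert : nm (spread P (fun _ => μ ^ g * R * μ ^ g) s - spread P
      (fun i => if r ^ 4 ≤ i ∧ i + r ^ 4 < s then Mid else μ ^ g * R * μ ^ g) s) ≤ s * (2 * ρ) := by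
    unfold spread
    rw [← Finset.sum_sub_distrib]
    refine (nm_sum_le _ _).trans ?_
    refine (Finset.sum_le_sum (g := fun _ => 2 * ρ) fun i hi => ?_).trans (by simp)
    have hi := Finset.mem_range.1 hi
    beta_reduce
    split_ifs with hc
    · have hA : r ^ 4 * b * K ≤ (2 * g + 1) * i + g := by
        have : r ^ 4 * (b * K) ≤ i * g := Nat.mul_le_mul hc.1 (by rw [add_mul] at hb; omega)
        nlinarith
      have hB : r ^ 4 * b * K + K * r ^ 2 ≤ g + (2 * g + 1) * (s - 1 - i) := by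
        have : r ^ 4 * (b * K) ≤ (s - 1 - i) * g :=
          Nat.mul_le_mul (by omega) (by rw [add_mul] at hb; omega)
        nlinarith
      have := H μ _ _ hμ (by positivity) hS R _ _ hA hB
      have e : P ^ i * (μ ^ g * R * μ ^ g) * P ^ (s - 1 - i) - P ^ i * Mid * P ^ (s - 1 - i) =
          μ ^ ((2 * g + 1) * i + g) * R * μ ^ (g + (2 * g + 1) * (s - 1 - i)) -
          ∑ l ∈ range (K * r ^ 2), w l • (μ ^ ((2 * g + 1) * i + g + l) * R *
            μ ^ (g + (2 * g + 1) * (s - 1 - i) - l)) := by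
        rw [hP, ← pow_mul, ← pow_mul, sand, hMid, Finset.mul_sum, Finset.mul_sum, Finset.sum_mul]
        refine congrArg₂ (· - ·) rfl (Finset.sum_congr rfl fun l hl => ?_)
        have hl := Finset.mem_range.1 hl
        rw [mul_smul_comm, mul_smul_comm, smul_mul_assoc, mul_assoc (μ ^ l * R), ← pow_add,
          ← mul_assoc (μ ^ g), ← mul_assoc (μ ^ g), ← pow_add, sand]
        refine congrArg _ (sand_eq _ _ (by omega) (by omega))
      rw [e]
      refine this.trans ?_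
      have := hR.nm_le' hμ
      calc (1 / h) ^ K * nm R ≤ ρ * 2 := mul_le_mul hθ (by linarith) (nm_nonneg _) hρ
        _ = _ := by ring
    · rw [sub_self, nm_zero]; linarith
  refine (key.perturb pert).mono_smul (hPp.pow _).1 (le_of_eq (by ring)) ?_
  have hs1 : (1 : ℝ) ≤ s := by exact_mod_cast Nat.one_le_two_pow
  have hs2 : (s : ℝ) = 2 ^ k := by rw [hs]; push_cast; rfl
  rw [← hs2]
  have u1 : 2 * (h ^ 4 * ε * r ^ 2) * Real.exp (-(h ^ 2 / 2)) ≤ 2 * 1 * ρ := by gcongr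
  have u2 : 6 * h ^ 3 + 4 ≤ h ^ 4 := by nlinarith
  have u3 := mul_le_mul_of_nonneg_left u2 (show 0 ≤ s * ρ by positivity)
  nlinarith [mul_le_mul_of_nonneg_right hs1 hρ]

set_option maxHeartbeats 1000000 in
lemma close {μ R : Al G} (hμ : Prob μ) {g b K km : ℕ} {h ε ρ : ℝ}
    (hh : 17 ≤ h) (hK : 6 * K ≤ h) (h2K : 2 ^ K ≤ h) (hτ : Real.exp (-(h ^ 2 / 2)) ≤ ρ)
    (hθ : (1 / h) ^ K ≤ ρ) (hR : Dom R (ε • μ) ρ) (hm : mass R = 0) (hε0 : 0 < ε)
    (hS : ∀ j ≤ km / 6, Sm μ (16 ^ j * b) (4 ^ j) (1 / h)) (hb : (b + 1) * K ≤ g)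
    (hg : K * 4 ^ (km / 6) ≤ g) (hkm : 1 ≤ km) (c1 : 64 * km * h ^ 6 * ε * 4 ^ (km / 6) ≤ 1)
    (c2 : h ^ 3 * ρ * 4 ^ km ≤ ε) :
    nm ((μ ^ (2 * g + 1) + μ ^ g * R * μ ^ g) ^ 2 ^ km - (μ ^ (2 * g + 1)) ^ 2 ^ km) ≤ 1 / 8 := by
  set P := μ ^ (2 * g + 1) with hP
  set x := P + μ ^ g * R * μ ^ g with hx
  have hPp : Prob P := hμ.pow _
  have hρ := hR.rho_nonneg
  have hh1 : 1 ≤ h := by linarith
  have hkm' : (1 : ℝ) ≤ km := by exact_mod_cast hkm
  have hxm : mass x = 1 := by simp [hx, hPp.2, hm]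
  have q4 : ∀ k ≤ km, (4 : ℝ) ^ (k / 6) ≤ 4 ^ (km / 6) := fun k hk =>
    pow_le_pow_right₀ (by norm_num) (Nat.div_le_div_right hk)
  have c1' : ∀ k ≤ km, 64 * km * h ^ 6 * ε * 4 ^ (k / 6) ≤ 1 := fun k hk =>
    le_trans (by have := q4 k hk; gcongr) c1
  have c3 : ∀ k ≤ km, 64 * h * (h ^ 5 * ε * 4 ^ (k / 6)) ≤ 1 := fun k hk => by
    have := c1' k hk
    have p : 0 ≤ 64 * h ^ 6 * ε * 4 ^ (k / 6) := by positivity
    nlinarith
  have c4 : ∀ k ≤ km, 12 * h ^ 4 * ρ * 4 ^ k ≤ 2 * (h ^ 5 * ε * 4 ^ (k / 6)) := fun k hk => by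
    have a1 : (4 : ℝ) ^ k ≤ 4 ^ km := pow_le_pow_right₀ (by norm_num) hk
    have a2 : (1 : ℝ) ≤ 4 ^ (k / 6) := one_le_pow₀ (by norm_num)
    have a3 : h ^ 3 * ρ * 4 ^ k ≤ ε := le_trans (by gcongr) c2
    have a4 : 6 * h ≤ h ^ 5 := by
      have : (1 : ℝ) ≤ h ^ 3 := one_le_pow₀ hh1
      have : 6 * h ≤ h ^ 2 := by nlinarith
      nlinarith [sq_nonneg h]
    calc 12 * h ^ 4 * ρ * 4 ^ k = 2 * (6 * h) * (h ^ 3 * ρ * 4 ^ k) * 1 := by ring
      _ ≤ 2 * h ^ 5 * ε * 4 ^ (k / 6) := by gcongr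
      _ = _ := by ring
  have main : ∀ k, k ≤ km → Dom (x ^ 2 ^ k - P ^ 2 ^ k)
      ((2 * (h ^ 5 * ε * 4 ^ (k / 6))) • P ^ 2 ^ k) (4 * h ^ 4 * ρ * 4 ^ k) := by
    intro k
    induction k using Nat.strong_induction_on with
    | _ k ih =>
    intro hk
    have lin := lin_close hμ (k := k) hh hK h2K hτ hθ hR hm hε0 (hS _ (Nat.div_le_div_right hk)) hb
      (le_trans (Nat.mul_le_mul_left _ (Nat.pow_le_pow_right (by norm_num)
        (Nat.div_le_div_right hk))) hg)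
      (by
        have := c3 k hk
        have p : 0 ≤ h ^ 4 * ε * 4 ^ (k / 6) := by positivity
        have : 1 ≤ 64 * h * h := by nlinarith
        nlinarith)
      (le_trans (by
        have : (2 : ℝ) ^ (k / 6) ≤ 4 ^ km :=
          (pow_le_pow_left₀ (by norm_num) (by norm_num : (2 : ℝ) ≤ 4) _).trans
            (pow_le_pow_right₀ (by norm_num) (by omega))
        gcongr) c2)
    set σ := 64 * (h ^ 5 * ε * 4 ^ (k / 6)) ^ 2 with hσ
    have hσ0 : 0 < σ := by positivity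
    have hσ1 : σ ≤ 1 := by
      have := c3 k hk
      have p : 0 ≤ h ^ 5 * ε * 4 ^ (k / 6) := by positivity
      have q : 64 * (h ^ 5 * ε * 4 ^ (k / 6)) ≤ 1 := by nlinarith
      nlinarith
    have nl : ∀ i ∈ range k, Dom (spread (P ^ 2 ^ (i + 1))
        (fun _ => (x ^ 2 ^ i - P ^ 2 ^ i) * (x ^ 2 ^ i - P ^ 2 ^ i)) (2 ^ (k - i - 1)))
        ((h * σ) • P ^ 2 ^ k) (2 * ρ + 2 * h ^ 4 * ρ * 2 ^ k * 2 ^ i) := by
      intro i hi
      have hi := Finset.mem_range.1 hi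
      have d := ih i hi (by omega)
      set τ := 2 * (h ^ 5 * ε * 4 ^ (i / 6)) with hτ'
      set y := 4 * h ^ 4 * ρ * 4 ^ i with hy
      have hτ0 : 0 < τ := by positivity
      have hy0 : 0 ≤ y := by positivity
      have hyτ : 3 * y ≤ τ := by have := c4 i (by omega); linarith
      have hτ1 : 18 * τ ≤ 1 := by
        have := c3 i (by omega)
        have p : 0 ≤ h ^ 5 * ε * 4 ^ (i / 6) := by positivity
        nlinarith
      have d2 := (d.mul' d (hPp.pow _) (hPp.pow _)).mono_rho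
        (show _ ≤ 3 * τ * y by nlinarith)
      rw [← pow_add, ← mul_two, ← pow_succ] at d2
      have key := avg_spread (hPp.pow (2 ^ (i + 1))) hσ0 hh1 (2 ^ (k - i - 1))
        (fun _ => (x ^ 2 ^ i - P ^ 2 ^ i) * (x ^ 2 ^ i - P ^ 2 ^ i)) (fun _ => τ * τ)
        (fun _ _ => d2) (fun _ _ => by simp [hxm, hPp.2])
        (fun _ _ => ⟨by nlinarith, by nlinarith⟩)
        (by
          simp only [sum_const, card_range, nsmul_eq_mul]
          have e1 : (2 : ℝ) ^ (k - i - 1) * (4 ^ (i / 6)) ^ 4 ≤ 64 * (4 ^ (k / 6)) ^ 4 := by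
            rw [show (4 : ℝ) = 2 ^ 2 by norm_num, show (64 : ℝ) = 2 ^ 6 by norm_num]
            simp only [← pow_mul, ← pow_add]
            exact pow_le_pow_right₀ (by norm_num) (by omega)
          push_cast
          calc (2 : ℝ) ^ (k - i - 1) * (2 * (τ * τ)) ^ 2
              = 64 * (h ^ 5 * ε) ^ 4 * (2 ^ (k - i - 1) * (4 ^ (i / 6)) ^ 4) := by rw [hτ']; ring
            _ ≤ 64 * (h ^ 5 * ε) ^ 4 * (64 * (4 ^ (k / 6)) ^ 4) := by gcongr
            _ = σ ^ 2 := by rw [hσ]; ring)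
      rw [← pow_mul P, ← pow_add, show i + 1 + (k - i - 1) = k by omega] at key
      refine key.mono_rho (add_le_add ?_ ?_)
      · calc 2 * σ * Real.exp (-(h ^ 2 / 2)) ≤ 2 * 1 * ρ := by gcongr
          _ = _ := by ring
      · have e1 : (2 : ℝ) ^ (k - i - 1) * 4 ^ i * 2 = 2 ^ k * 2 ^ i := by
          rw [show (4 : ℝ) = 2 ^ 2 by norm_num]
          simp only [← pow_mul, ← pow_add, ← pow_succ]
          congr 1; omega
        push_cast
        calc (2 : ℝ) ^ (k - i - 1) * (6 * (3 * τ * y)) = 2 ^ (k - i - 1) * y * (18 * τ) := by ring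
          _ ≤ 2 ^ (k - i - 1) * y * 1 := by gcongr
          _ = 2 * h ^ 4 * ρ * (2 ^ (k - i - 1) * 4 ^ i * 2) := by rw [hy]; ring
          _ = _ := by rw [e1]; ring
    have tot := lin.add' (Dom.sum' nl)
    have e0 : μ ^ g * R * μ ^ g = x - P := by rw [hx]; abel
    rw [e0, ← dyadic] at tot
    refine tot.mono_smul (hPp.pow _).1 ?_ ?_
    · simp only [sum_const, card_range, nsmul_eq_mul]
      have := c1' k hk
      have hk' : (k : ℝ) ≤ km := by exact_mod_cast hk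
      have p : 0 ≤ h ^ 5 * ε * 4 ^ (k / 6) := by positivity
      have : k * (h * σ) ≤ h ^ 5 * ε * 4 ^ (k / 6) := by
        calc k * (h * σ) ≤ km * (h * σ) := by gcongr
          _ = (64 * km * h ^ 6 * ε * 4 ^ (k / 6)) * (h ^ 5 * ε * 4 ^ (k / 6)) := by rw [hσ]; ring
          _ ≤ 1 * (h ^ 5 * ε * 4 ^ (k / 6)) := by gcongr
          _ = _ := one_mul _
      linarith
    · rw [Finset.sum_add_distrib, ← Finset.mul_sum (s := range k) (fun i => (2 : ℝ) ^ i)]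
      simp only [sum_const, card_range, nsmul_eq_mul]
      have g1 : ∑ i ∈ range k, (2 : ℝ) ^ i ≤ 2 ^ k := by
        rw [geom_sum_eq (by norm_num)]; norm_num
      have g2 : (k : ℝ) ≤ 2 ^ k := by exact_mod_cast (Nat.lt_two_pow_self).le
      have g3 : (4 : ℝ) ^ k = 2 ^ k * 2 ^ k := by rw [← mul_pow]; norm_num
      have g4 : (1 : ℝ) ≤ 2 ^ k := one_le_pow₀ (by norm_num)
      have g5 : (2 : ℝ) ≤ h ^ 4 := by
        have : (1 : ℝ) ≤ h ^ 3 := one_le_pow₀ hh1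
        nlinarith
      rw [g3]
      have p1 : 0 ≤ h ^ 4 * ρ * 2 ^ k := by positivity
      have a1 := mul_le_mul_of_nonneg_left g1 p1
      have a2 := mul_le_mul_of_nonneg_left g4 p1
      have a3 : k * (2 * ρ) ≤ 2 ^ k * (h ^ 4 * ρ) := by gcongr
      linarith
  have := (main km le_rfl).nm_le' (hPp.pow _)
  have a := c3 km le_rfl
  have b := c4 km le_rfl
  have p : 0 ≤ h ^ 5 * ε * 4 ^ (km / 6) := by positivity
  nlinarith

end Vale.Agent.P321
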