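import Vale.Agent.P321.LowClose

namespace Vale.Agent.P321

open Finset

variable {G : Type*} [Monoid G]

set_option maxHeartbeats 1000000 in
lemma gain {μ ν δ Q W : Al G} (hμ : Prob μ) (hν : Prob ν) {g b K r c A B : ℕ}
    {h η εQ εW ρ : ℝ} (hh : 17 ≤ h) (hK : 6 * K ≤ h) (h2K : 2 ^ K ≤ h)
    (hτ : Real.exp (-(h ^ 2 / 2)) ≤ ρ) (hθ : (1 / h) ^ K ≤ ρ)
    (hE : Dom (ν - μ ^ (2 * g + 1)) (η • μ ^ (2 * g + 1)) ρ) (hη0 : 0 ≤ η)
    (hQ : Dom Q (εQ • μ) ρ) (hm : mass Q = 0) (hδ : nm (δ - μ ^ g * Q * μ ^ g) ≤ ρ)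
    (hW : Dom W (εW • ν ^ c) ρ) (hS : Sm μ (r ^ 4 * b) (r ^ 2) (1 / h)) (hb : (b + 1) * K ≤ g)
    (hg : K * r ^ 2 ≤ g) (hr : 0 < r) (hc : c + 1 ≤ r ^ 4) (hA : r ^ 4 ≤ A) (hB : r ^ 4 ≤ B)
    (c1 : 12 * r ^ 5 * η ≤ 1) (hQ0 : 0 < εQ) (hQ1 : εQ ≤ 1) (hW0 : 0 < εW) (hW1 : εW ≤ 1 / 2)
    (c2 : 50 * r ^ 4 * ρ ≤ εQ) :
    Dom (ν ^ A * δ * W * ν ^ B) ((6 * h ^ 3 * εQ * εW / r) • ν ^ (A + 1 + c + B))
      (h ^ 5 * r ^ 4 * ρ) := by
  have hρ := hQ.rho_nonneg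
  have hr1 : (1 : ℝ) ≤ r := by exact_mod_cast hr
  have hh1 : 1 ≤ h := by linarith
  set Z := r ^ 4 with hZ
  have hZr : (Z : ℝ) = r ^ 4 := by rw [hZ]; push_cast; rfl
  have hZ1 : (1 : ℝ) ≤ Z := by rw [hZr]; exact one_le_pow₀ hr1
  have hZ1' : 1 ≤ Z := by exact_mod_cast hZ1
  have hcZ : (c : ℝ) + 1 ≤ Z := by exact_mod_cast hc
  have hc0 : (0 : ℝ) ≤ c := Nat.cast_nonneg _
  rw [← hZr] at c2 ⊢
  have c1' : 12 * Z * η * r ≤ 1 := by rw [hZr]; linarith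
  have c1'' : 12 * Z * η ≤ 1 := by nlinarith [mul_nonneg (le_trans zero_le_one hZ1) hη0]
  set P := μ ^ (2 * g + 1) with hP
  have hPp : Prob P := hμ.pow _
  set x := 2 * Z * ρ with hx
  have hx0 : 0 ≤ x := by positivity
  have hxρ : 2 * ρ ≤ x := by nlinarith
  have hx1 : 25 * x ≤ εQ := by linarith
  have dZ := pow_close hν hPp hη0 hE Z (by linarith)
  rw [← hx] at dZ
  have dZ2 : Dom (ν ^ Z) ((2 : ℝ) • P ^ Z) x :=
    Dom.ref_fwd (dZ.mono_smul (hPp.pow _).1 (by linarith) le_rfl)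
  have hcη : 2 * c * η ≤ 1 := by nlinarith
  have dc : Dom (ν ^ c) ((2 : ℝ) • P ^ c) (2 * c * ρ) :=
    Dom.ref_fwd ((pow_close hν hPp hη0 hE c hcη).mono_smul (hPp.pow _).1 hcη le_rfl)
  have dW : Dom W ((εW * 2) • P ^ c) x := by
    refine (hW.ref dc hW0.le).mono_rho ?_
    have : εW * (2 * c * ρ) ≤ 1 / 2 * (2 * c * ρ) := by gcongr
    nlinarith
  have dδ : Dom δ (εQ • P) x := by
    have := ((hQ.prob_left (hμ.pow g)).prob_right (hμ.pow g)).perturb hδ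
    rw [← pow_succ, ← pow_add, show g + 1 + g = 2 * g + 1 by omega] at this
    exact this.mono_rho (by linarith)
  have dδW := dδ.mul5 dW hPp (hPp.pow c) (by linarith) (by linarith) le_rfl le_rfl (by linarith)
  have hPc := hPp.mul (hPp.pow c)
  have hQW : εQ * (εW * 2) ≤ 1 := mul_le_one₀ hQ1 (by linarith) (by linarith)
  have hQW0 : 0 ≤ εQ * (εW * 2) := by positivity
  have hZη0 : 0 ≤ 2 * Z * η := by positivity
  have err1 := (dZ.mul5 dδW (hPp.pow Z) hPc (by linarith) (by linarith) (show x ≤ 5 * x by linarith)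
    le_rfl (by linarith)).mul5 dZ2 ((hPp.pow Z).mul hPc) (hPp.pow Z)
    (by nlinarith) le_rfl le_rfl (show x ≤ 5 * (5 * x) by linarith) (by linarith)
  have err2 := (dδW.mul5 dZ hPc (hPp.pow Z) (by linarith) (by linarith) le_rfl
    (show x ≤ 5 * x by linarith) (by linarith)).prob_left (hPp.pow Z)
  have ref1 : P ^ Z * (P * P ^ c) * P ^ Z = P ^ (2 * Z + 1 + c) := by
    rw [← pow_succ', ← pow_add, ← pow_add]; congr 1; omega
  rw [ref1] at err1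
  rw [← mul_assoc (P ^ Z) (P * P ^ c), ref1] at err2
  obtain ⟨w, hw, H⟩ := smooth (G := G) (J := r ^ 2) (by positivity) K
  have hw' : ∀ l, |w l| ≤ h / (r ^ 2 : ℕ) := fun l => (hw l).trans (by gcongr; linarith)
  set A' := (2 * g + 1) * Z + g with hA'
  set B' := (2 * g + 1) * Z with hB'
  have hgB : g ≤ B' := by rw [hB']; nlinarith
  have mid := (midavg hμ (hμ.pow (g + 1 - K * r ^ 2 + (2 * g + 1) * c + B')) hr (by linarith) hK
    (hτ.trans (by linarith : ρ ≤ x)) (hQ.mono_rho (by linarith)) hm hQ0 ⟨by linarith, hQ1⟩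
    (show 0 < εW * 2 by positivity) (by linarith) w hw'
    (fun l => μ ^ (g - (K * r ^ 2 - 1 - l)) * W * μ ^ (B' - l))
    (fun l hl => by
      have := (dW.prob_left (hμ.pow (g - (K * r ^ 2 - 1 - l)))).prob_right (hμ.pow (B' - l))
      rw [hP, ← pow_mul, ← pow_add, ← pow_add] at this
      rwa [show g + 1 - K * r ^ 2 + (2 * g + 1) * c + B' =
        g - (K * r ^ 2 - 1 - l) + (2 * g + 1) * c + (B' - l) by omega])).prob_left (hμ.pow A')
  have ref2 : μ ^ A' * (μ ^ (K * r ^ 2) * μ ^ (g + 1 - K * r ^ 2 + (2 * g + 1) * c + B')) =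
      P ^ (2 * Z + 1 + c) := by
    rw [hP, ← pow_mul, ← pow_add, ← pow_add]
    congr 1
    have : (2 * g + 1) * (2 * Z + 1 + c) = B' + B' + (2 * g + 1) + (2 * g + 1) * c := by
      rw [hB']; ring
    omega
  rw [ref2] at mid
  have hnW : nm W ≤ 1 := by have := hW.nm_le' (hν.pow c); linarith
  have hnQ : nm Q ≤ 2 := by have := hQ.nm_le' hμ; linarith
  have hZb : Z * (b * K) ≤ Z * g := Nat.mul_le_mul_left _ (by rw [add_mul] at hb; omega)
  have sm := H μ _ _ hμ (by positivity) hS (Q * μ ^ g * W) A' B'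
    (by rw [hA']; nlinarith) (by rw [hB']; nlinarith)
  have hF : nm (Q * μ ^ g * W) ≤ 2 := by
    refine (nm_mul_le _ _).trans ?_
    have := (hμ.pow g).nm_mul_right Q
    calc nm (Q * μ ^ g) * nm W ≤ 2 * 1 :=
        mul_le_mul (by linarith) hnW (nm_nonneg _) (by norm_num)
      _ = 2 := by norm_num
  have main : Dom (P ^ Z * (δ * W) * P ^ Z) ((h ^ 3 * εQ * (εW * 2) / r) • P ^ (2 * Z + 1 + c))
      (h ^ 3 * x + 3 * ρ) := by
    refine mid.perturb ?_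
    have e : P ^ Z * (δ * W) * P ^ Z - μ ^ A' * ∑ l ∈ range (K * r ^ 2), w l • (μ ^ l * Q *
        μ ^ (K * r ^ 2 - 1 - l) * (μ ^ (g - (K * r ^ 2 - 1 - l)) * W * μ ^ (B' - l))) =
        P ^ Z * ((δ - μ ^ g * Q * μ ^ g) * W) * P ^ Z +
        (μ ^ A' * (Q * μ ^ g * W) * μ ^ B' - ∑ l ∈ range (K * r ^ 2),
          w l • (μ ^ (A' + l) * (Q * μ ^ g * W) * μ ^ (B' - l))) := by
      have e1 : μ ^ A' * ∑ l ∈ range (K * r ^ 2), w l • (μ ^ l * Q *
          μ ^ (K * r ^ 2 - 1 - l) * (μ ^ (g - (K * r ^ 2 - 1 - l)) * W * μ ^ (B' - l))) =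
          ∑ l ∈ range (K * r ^ 2), w l • (μ ^ (A' + l) * (Q * μ ^ g * W) * μ ^ (B' - l)) := by
        rw [Finset.mul_sum]
        refine Finset.sum_congr rfl fun l hl => ?_
        have hl := Finset.mem_range.1 hl
        rw [mul_smul_comm]
        refine congrArg _ ?_
        have : μ ^ g = μ ^ (K * r ^ 2 - 1 - l) * μ ^ (g - (K * r ^ 2 - 1 - l)) := by
          rw [← pow_add]; congr 1; omega
        rw [this, pow_add μ A' l]
        simp only [mul_assoc]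
      have e2 : μ ^ A' * (Q * μ ^ g * W) * μ ^ B' = P ^ Z * (μ ^ g * Q * μ ^ g * W) * P ^ Z := by
        rw [hP, ← pow_mul, ← hB', hA', pow_add]
        simp only [mul_assoc]
      rw [e1, e2]
      simp only [sub_mul, mul_sub]
      abel
    rw [e]
    refine (nm_add_le _ _).trans ?_
    have a1 : nm (P ^ Z * ((δ - μ ^ g * Q * μ ^ g) * W) * P ^ Z) ≤ ρ * 1 :=
      ((hPp.pow Z).nm_mul_right _).trans (((hPp.pow Z).nm_mul_left _).trans
        ((nm_mul_le _ _).trans (mul_le_mul hδ hnW (nm_nonneg _) hρ)))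
    have a2 : (1 / h) ^ K * nm (Q * μ ^ g * W) ≤ ρ * 2 := mul_le_mul hθ hF (nm_nonneg _) hρ
    linarith
  have tot := (main.add' err1).add' err2
  have e3 : P ^ Z * (δ * W) * P ^ Z + (ν ^ Z - P ^ Z) * (δ * W) * ν ^ Z +
      P ^ Z * (δ * W * (ν ^ Z - P ^ Z)) = ν ^ Z * (δ * W) * ν ^ Z := by
    simp only [sub_mul, mul_sub, mul_assoc]; abel
  rw [e3] at tot
  have hh3 : 1 ≤ h ^ 3 := one_le_pow₀ hh1
  have tot2 : Dom (ν ^ Z * (δ * W) * ν ^ Z) ((3 * h ^ 3 * εQ * εW / r) • P ^ (2 * Z + 1 + c))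
      (h ^ 3 * x + 152 * x) := by
    refine tot.mono_smul (hPp.pow _).1 ?_ (by linarith)
    have hr0 : (0 : ℝ) < r := by linarith
    have p : 0 ≤ εQ * εW := by positivity
    have : 12 * Z * η * (εQ * εW) ≤ h ^ 3 * εQ * εW / r := by
      rw [le_div_iff₀ hr0]
      nlinarith [mul_le_mul_of_nonneg_right c1' p, mul_le_mul_of_nonneg_right hh3 p]
    have e : 3 * h ^ 3 * εQ * εW / r = h ^ 3 * εQ * (εW * 2) / r + h ^ 3 * εQ * εW / r := by ring
    rw [e]; linarith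
  have hn : ((2 * Z + 1 + c : ℕ) : ℝ) ≤ 3 * Z := by push_cast; linarith
  have hnη : 2 * ((2 * Z + 1 + c : ℕ) : ℝ) * η ≤ 1 / 2 := by nlinarith
  have back := Dom.ref_back ((pow_close hν hPp hη0 hE (2 * Z + 1 + c) (by linarith)).mono_smul
    (hPp.pow _).1 hnη (show _ ≤ 3 * x by rw [hx]; nlinarith)) (hν.pow _).1
  have tot3 := ((tot2.ref back (by positivity)).prob_left (hν.pow (A - Z))).prob_right
    (hν.pow (B - Z))
  rw [sand, ← pow_add, ← pow_add, show A - Z + Z = A by omega, show Z + (B - Z) = B by omega,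
    show A - Z + (2 * Z + 1 + c) + (B - Z) = A + 1 + c + B by omega, ← mul_assoc] at tot3
  refine tot3.mono_smul (hν.pow _).1 (le_of_eq (by ring)) ?_
  have b1 : 3 * h ^ 3 * εQ * εW / r ≤ 3 * h ^ 3 := by
    rw [div_le_iff₀ (by linarith)]
    have : εQ * εW ≤ r := by nlinarith
    nlinarith
  have b2 : 3 * h ^ 3 * εQ * εW / r * (2 * (3 * x)) ≤ 3 * h ^ 3 * (2 * (3 * x)) := by gcongr
  have b3 : 2 * (19 * h ^ 3 + 152) ≤ h ^ 5 := by
    have : (289 : ℝ) ≤ h ^ 2 := by nlinarith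
    have : 289 * h ^ 3 ≤ h ^ 5 := by nlinarith
    have : 17 * 289 ≤ h ^ 3 := by nlinarith
    linarith
  have b4 := mul_le_mul_of_nonneg_right b3 (show 0 ≤ Z * ρ by positivity)
  rw [hx] at b2 ⊢
  linarith

end Vale.Agent.P321
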