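import Vale.Agent.P321.LowAvg

namespace Vale.Agent.P321

open Finset

variable {G : Type*} [Monoid G]

/-- Invisibility of shifts after `n * H ^ 2` blocks. -/
def Inv (ν : Al G) (n : ℕ) : Prop :=
  ∀ H d N : ℕ, 1 ≤ H → n * H ^ 2 ≤ N → nm (ν ^ (N + d) - ν ^ N) ≤ 4 * d / H

lemma Inv.mono {ν : Al G} {n n' : ℕ} (h : Inv ν n) (hn : n ≤ n') : Inv ν n' :=
  fun H d N h1 h2 => h H d N h1 ((Nat.mul_le_mul_right _ hn).trans h2)

lemma Inv.push {G' : Type*} [Monoid G'] (f : G →* G') {ν : Al G} {n : ℕ} (h : Inv ν n) :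
    Inv (push f ν) n := fun H d N h1 h2 => by
  rw [← map_pow, ← map_pow, ← map_sub]
  exact (nm_push f _).trans (h H d N h1 h2)

lemma shift_mono {ν : Al G} (hν : Prob ν) (N k d : ℕ) :
    nm (ν ^ (N + k + d) - ν ^ (N + k)) ≤ nm (ν ^ (N + d) - ν ^ N) := by
  have : ν ^ (N + k + d) - ν ^ (N + k) = ν ^ k * (ν ^ (N + d) - ν ^ N) := by
    rw [mul_sub, ← pow_add, ← pow_add]; congr 2 <;> ring
  rw [this]; exact (hν.pow k).nm_mul_left _

lemma shift_rec {ν κ : Al G} (hν : Prob ν) {n0 : ℕ} (hκ : Pos κ) (h0 : Pos (ν ^ n0 - κ))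
    (h1 : Pos (ν ^ (n0 + 1) - κ)) (N d : ℕ) :
    nm (ν ^ (N + (n0 + 1) + (d + 1)) - ν ^ (N + (n0 + 1))) ≤
      mass κ / 2 * (nm (ν ^ (N + (d + 2)) - ν ^ N) + nm (ν ^ (N + d) - ν ^ N)) +
        (1 - mass κ) * nm (ν ^ (N + (d + 1)) - ν ^ N) := by
  have e : ν ^ (N + (n0 + 1) + (d + 1)) - ν ^ (N + (n0 + 1)) = (1 / 2 : ℝ) •
      (κ * (ν ^ (N + (d + 2)) - ν ^ N) + κ * (ν ^ (N + 1 + d) - ν ^ (N + 1)) +
        (ν ^ n0 - κ) * (ν ^ (N + 1 + (d + 1)) - ν ^ (N + 1)) +
        (ν ^ (n0 + 1) - κ) * (ν ^ (N + (d + 1)) - ν ^ N)) := by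
    simp only [sub_mul, mul_sub, ← pow_add]
    rw [show n0 + (N + 1 + (d + 1)) = N + (n0 + 1) + (d + 1) by ring,
      show n0 + 1 + (N + (d + 1)) = N + (n0 + 1) + (d + 1) by ring,
      show n0 + (N + 1) = N + (n0 + 1) by ring, show n0 + 1 + N = N + (n0 + 1) by ring,
      show N + 1 + (d + 1) = N + (d + 2) by ring, show N + 1 + d = N + (d + 1) by ring]
    module
  rw [e]
  refine (nm_smul_le _ _).trans ?_
  have a1 := nm_mul_le κ (ν ^ (N + (d + 2)) - ν ^ N)
  have a2 := nm_mul_le κ (ν ^ (N + 1 + d) - ν ^ (N + 1))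
  have a3 := nm_mul_le (ν ^ n0 - κ) (ν ^ (N + 1 + (d + 1)) - ν ^ (N + 1))
  have a4 := nm_mul_le (ν ^ (n0 + 1) - κ) (ν ^ (N + (d + 1)) - ν ^ N)
  rw [hκ.nm_eq] at a1 a2
  rw [h0.nm_eq, map_sub, (hν.pow _).2] at a3
  rw [h1.nm_eq, map_sub, (hν.pow _).2] at a4
  have hγ := hκ.mass_nonneg
  have hγ1 : 0 ≤ 1 - mass κ := by
    have := h0.mass_nonneg
    rwa [map_sub, (hν.pow _).2] at this
  have b2 := mul_le_mul_of_nonneg_left (shift_mono hν N 1 d) hγ
  have b3 := mul_le_mul_of_nonneg_left (shift_mono hν N 1 (d + 1)) hγ1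
  have c1 := nm_add_le (κ * (ν ^ (N + (d + 2)) - ν ^ N) + κ * (ν ^ (N + 1 + d) - ν ^ (N + 1)) +
        (ν ^ n0 - κ) * (ν ^ (N + 1 + (d + 1)) - ν ^ (N + 1)))
        ((ν ^ (n0 + 1) - κ) * (ν ^ (N + (d + 1)) - ν ^ N))
  have c2 := nm_add_le (κ * (ν ^ (N + (d + 2)) - ν ^ N) + κ * (ν ^ (N + 1 + d) - ν ^ (N + 1)))
        ((ν ^ n0 - κ) * (ν ^ (N + 1 + (d + 1)) - ν ^ (N + 1)))
  have c3 := nm_add_le (κ * (ν ^ (N + (d + 2)) - ν ^ N)) (κ * (ν ^ (N + 1 + d) - ν ^ (N + 1)))
  rw [abs_of_pos (by norm_num : (0 : ℝ) < 1 / 2)]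
  linarith

lemma inv_of_common {ν κ : Al G} (hν : Prob ν) {n0 c : ℕ} (hκ : Pos κ) (h0 : Pos (ν ^ n0 - κ))
    (h1 : Pos (ν ^ (n0 + 1) - κ)) (hc : 1 ≤ c * mass κ) : Inv ν ((n0 + 1) * c) := by
  intro H d N hH hN
  set γ := mass κ with hγ
  have hγ0 : 0 < γ := by
    by_contra h
    push Not at h
    have : (c : ℝ) * γ ≤ 0 := mul_nonpos_of_nonneg_of_nonpos (Nat.cast_nonneg _) h
    linarith
  have hγ1 : 0 ≤ 1 - γ := by
    have := h0.mass_nonneg
    rwa [map_sub, (hν.pow _).2] at this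
  have hH' : (0 : ℝ) < H := by exact_mod_cast hH
  set T : ℕ → ℕ → ℝ := fun j d => nm (ν ^ (j * (n0 + 1) + d) - ν ^ (j * (n0 + 1))) with hT
  have T2 : ∀ j d, T j d ≤ 2 := fun j d => (hν.pow _).nm_sub_le (hν.pow _)
  have claim : ∀ J d : ℕ, d ≤ H →
      ∑ j ∈ range J, (T j d - 2 * d / H) ≤ 2 * d * (H - d) / γ := by
    intro J
    induction J with
    | zero =>
      intro d hd
      have : (d : ℝ) ≤ H := by exact_mod_cast hd
      simp only [range_zero, sum_empty]
      apply div_nonneg _ hγ0.le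
      apply mul_nonneg (by positivity); linarith
    | succ J ih =>
      intro d hd
      rcases Nat.eq_zero_or_pos d with rfl | hd0
      · simp [hT, nm_zero]
      rcases Nat.lt_or_ge d H with hlt | hge
      · obtain ⟨d, rfl⟩ : ∃ d', d = d' + 1 := ⟨d - 1, by omega⟩
        rw [Finset.sum_range_succ']
        have r : ∀ j ∈ range J, T (j + 1) (d + 1) - 2 * ((d + 1 : ℕ) : ℝ) / H ≤
            γ / 2 * ((T j (d + 2) - 2 * ((d + 2 : ℕ) : ℝ) / H) + (T j d - 2 * (d : ℝ) / H)) +
              (1 - γ) * (T j (d + 1) - 2 * ((d + 1 : ℕ) : ℝ) / H) := by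
          intro j _
          have := shift_rec hν hκ h0 h1 (j * (n0 + 1)) d
          rw [← hγ, ← add_one_mul] at this
          have e : γ / 2 * ((T j (d + 2) - 2 * ((d + 2 : ℕ) : ℝ) / H) + (T j d - 2 * (d : ℝ) / H)) +
              (1 - γ) * (T j (d + 1) - 2 * ((d + 1 : ℕ) : ℝ) / H) =
              γ / 2 * (T j (d + 2) + T j d) + (1 - γ) * T j (d + 1) -
                2 * ((d + 1 : ℕ) : ℝ) / H := by
            push_cast; ring
          rw [e]
          simp only [hT]
          linarith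
        have r2 := Finset.sum_le_sum r
        rw [Finset.sum_add_distrib, ← Finset.mul_sum, ← Finset.mul_sum, Finset.sum_add_distrib]
          at r2
        have i0 := ih d (by omega)
        have i1 := ih (d + 1) (by omega)
        have i2 := ih (d + 2) (by omega)
        have t0 := T2 0 (d + 1)
        have p0 : (0 : ℝ) ≤ 2 * ((d + 1 : ℕ) : ℝ) / H := by positivity
        have e : γ / 2 * (2 * ((d + 2 : ℕ) : ℝ) * (H - ((d + 2 : ℕ) : ℝ)) / γ +
            2 * (d : ℝ) * (H - d) / γ) +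
            (1 - γ) * (2 * ((d + 1 : ℕ) : ℝ) * (H - ((d + 1 : ℕ) : ℝ)) / γ) + 2 =
            2 * ((d + 1 : ℕ) : ℝ) * (H - ((d + 1 : ℕ) : ℝ)) / γ := by
          push_cast; field_simp; ring
        have m1 := mul_le_mul_of_nonneg_left (add_le_add i2 i0) (show 0 ≤ γ / 2 by linarith)
        have m2 := mul_le_mul_of_nonneg_left i1 hγ1
        linarith
      · have : d = H := by omega
        subst this
        simp only [sub_self, mul_zero, zero_div]
        refine Finset.sum_nonpos fun j _ => ?_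
        have : 2 * (d : ℝ) / d = 2 := by field_simp
        rw [this]; linarith [T2 j d]
  rcases Nat.lt_or_ge H d with hlt | hle
  · have : (H : ℝ) ≤ d := by exact_mod_cast hlt.le
    refine ((hν.pow _).nm_sub_le (hν.pow _)).trans ?_
    rw [le_div_iff₀ hH']; linarith
  · set J := c * H ^ 2 with hJ
    have hc0 : 0 < c := by
      rcases Nat.eq_zero_or_pos c with rfl | h
      · simp at hc; linarith
      · exact h
    have hJ0 : (0 : ℝ) < J := by
      have : 0 < J := by positivity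
      exact_mod_cast this
    have mono : ∀ j ∈ range J, nm (ν ^ (N + d) - ν ^ N) - 2 * d / H ≤ T j d - 2 * d / H := by
      intro j hj
      have hj := Finset.mem_range.1 hj
      have : j * (n0 + 1) ≤ N := by
        calc j * (n0 + 1) ≤ J * (n0 + 1) := Nat.mul_le_mul_right _ hj.le
          _ = (n0 + 1) * c * H ^ 2 := by rw [hJ]; ring
          _ ≤ N := hN
      obtain ⟨k, rfl⟩ := Nat.exists_eq_add_of_le this
      have := shift_mono hν (j * (n0 + 1)) k d
      simp only [hT]; linarith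
    have s1 := (Finset.sum_le_sum mono).trans (claim J d hle)
    rw [Finset.sum_const, card_range, nsmul_eq_mul] at s1
    have hd0 : (0 : ℝ) ≤ d := Nat.cast_nonneg _
    have s2 : 2 * (d : ℝ) * (H - d) / γ ≤ J * (2 * d / H) := by
      rw [div_le_iff₀ hγ0, hJ]
      push_cast
      have : (c : ℝ) * H ^ 2 * (2 * d / H) * γ = 2 * d * H * (c * γ) := by field_simp
      rw [this]
      nlinarith [mul_nonneg hd0 hH'.le, mul_nonneg hd0 hd0]
    have s3 := le_of_mul_le_mul_left (s1.trans s2) hJ0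
    have : 4 * (d : ℝ) / H = 2 * d / H + 2 * d / H := by ring
    linarith

lemma inv_of_nm {ν : Al G} (hν : Prob ν) {n0 : ℕ} (h : nm (ν ^ (n0 + 1) - ν ^ n0) ≤ 1) :
    Inv ν ((n0 + 1) * 2) := by
  obtain ⟨κ, h1, h2, h3, h4⟩ := exists_common (hν.pow (n0 + 1)) (hν.pow n0)
  exact inv_of_common hν h1 h3 h2 (by rw [h4]; push_cast; linarith)

/-- shifts by less than `J` are `θ`-invisible after `a0` blocks -/
def Sm (μ : Al G) (a0 J : ℕ) (θ : ℝ) : Prop :=
  ∀ i < J, ∀ a, a0 ≤ a → nm (μ ^ (a + i) - μ ^ a) ≤ θ / 2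

lemma Inv.sm {ν : Al G} {n : ℕ} (h : Inv ν n) {m a0 J H : ℕ} {θ : ℝ} (hH : 1 ≤ H)
    (h1 : n * H ^ 2 ≤ m * a0) (h2 : 8 * m * J / H ≤ θ) : Sm (ν ^ m) a0 J θ := by
  intro i hi a ha
  rw [← pow_mul, ← pow_mul, mul_add]
  refine (h H (m * i) (m * a) hH (h1.trans (Nat.mul_le_mul_left _ ha))).trans ?_
  have hH' : (0 : ℝ) < H := by exact_mod_cast hH
  have : (i : ℝ) ≤ J := by exact_mod_cast hi.le
  have : 4 * ((m * i : ℕ) : ℝ) / H ≤ 4 * (m * J) / H := by
    push_cast; gcongr
  have e : 8 * (m : ℝ) * J / H = 2 * (4 * (m * J) / H) := by ring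
  linarith

lemma shift2 {μ : Al G} (hμ : Prob μ) {a0 J : ℕ} {θ : ℝ} (h : Sm μ a0 J θ) {i a b : ℕ}
    (hi : i < J) (ha : a0 ≤ a) (hb : a0 ≤ b) (F : Al G) :
    nm (μ ^ a * F * μ ^ (b + i) - μ ^ (a + i) * F * μ ^ b) ≤ θ * nm F := by
  have e : μ ^ a * F * μ ^ (b + i) - μ ^ (a + i) * F * μ ^ b =
      μ ^ a * (F * (μ ^ (b + i) - μ ^ b)) - ((μ ^ (a + i) - μ ^ a) * F) * μ ^ b := by
    simp only [mul_sub, sub_mul, mul_assoc]; abel
  rw [e]
  refine (nm_sub_le _ _).trans ?_
  have a1 := ((hμ.pow a).nm_mul_left (F * (μ ^ (b + i) - μ ^ b))).trans (nm_mul_le _ _)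
  have a2 := ((hμ.pow b).nm_mul_right ((μ ^ (a + i) - μ ^ a) * F)).trans (nm_mul_le _ _)
  have b1 := mul_le_mul_of_nonneg_left (h i hi b hb) (nm_nonneg F)
  have b2 := mul_le_mul_of_nonneg_right (h i hi a ha) (nm_nonneg F)
  linarith

lemma shift_sum {M : Type*} [AddCommGroup M] [Module ℝ M] (w : ℕ → ℝ) (T : ℕ → M) {N L i : ℕ}
    (h : i + N ≤ L) :
    ∑ k ∈ range L, (if i ≤ k ∧ k - i < N then w (k - i) else 0) • T k =
      ∑ j ∈ range N, w j • T (i + j) := by
  simp only [ite_smul, zero_smul]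
  rw [← Finset.sum_filter]
  symm
  refine Finset.sum_nbij' (fun j => i + j) (fun k => k - i) ?_ ?_ ?_ ?_ ?_
  · intro j hj
    simp at hj ⊢; omega
  · intro k hk
    simp at hk ⊢; omega
  · intro j _; simp
  · intro k hk
    simp at hk ⊢; omega
  · intro j _; simp

/-- Smoothing lemma. -/
lemma smooth {J : ℕ} (hJ : 0 < J) (K : ℕ) : ∃ w : ℕ → ℝ, (∀ j, |w j| ≤ (2 ^ K - 1) / J) ∧
    ∀ (μ : Al G) (a0 : ℕ) (θ : ℝ), Prob μ → 0 ≤ θ → Sm μ a0 J θ → ∀ (F : Al G) (A B : ℕ),
      a0 * K ≤ A → a0 * K + K * J ≤ B →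
      nm (μ ^ A * F * μ ^ B - ∑ j ∈ range (K * J), w j • (μ ^ (A + j) * F * μ ^ (B - j))) ≤
        θ ^ K * nm F := by
  have hJ' : (0 : ℝ) < J := by exact_mod_cast hJ
  induction K with
  | zero =>
    refine ⟨fun _ => 0, by simp, fun μ a0 θ hμ _ _ F A B _ _ => ?_⟩
    simp only [zero_mul, range_zero, sum_empty, sub_zero, pow_zero, one_mul]
    exact ((hμ.pow B).nm_mul_right _).trans ((hμ.pow A).nm_mul_left _)
  | succ K ih =>
    obtain ⟨w, hw, H⟩ := ih
    have hw0 : (0 : ℝ) ≤ (2 ^ K - 1) / J := (abs_nonneg _).trans (hw 0)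
    refine ⟨fun k => (if 0 ≤ k ∧ k - 0 < K * J then w (k - 0) else 0) +
      (if 0 ≤ k ∧ k - 0 < J then (1 / J : ℝ) else 0) -
      (1 / J : ℝ) * ∑ i ∈ range J, (if i ≤ k ∧ k - i < K * J then w (k - i) else 0), ?_, ?_⟩
    · intro k
      have a1 : |(if 0 ≤ k ∧ k - 0 < K * J then w (k - 0) else 0)| ≤ (2 ^ K - 1) / J := by
        split_ifs
        · exact hw _
        · simpa using hw0
      have a2 : |(if 0 ≤ k ∧ k - 0 < J then (1 / J : ℝ) else 0)| ≤ 1 / J := by
        split_ifs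
        · rw [abs_of_pos (by positivity)]
        · simp
      have a3 : |∑ i ∈ range J, (if i ≤ k ∧ k - i < K * J then w (k - i) else 0)| ≤
          J * ((2 ^ K - 1) / J) := by
        refine (Finset.abs_sum_le_sum_abs _ _).trans ?_
        refine (Finset.sum_le_sum (g := fun _ => (2 ^ K - 1 : ℝ) / J) fun i _ => ?_).trans ?_
        · split_ifs
          · exact hw _
          · simpa using hw0
        · simp
      have a4 : |(1 / J : ℝ) * ∑ i ∈ range J, (if i ≤ k ∧ k - i < K * J then w (k - i) else 0)| ≤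
          (2 ^ K - 1) / J := by
        rw [abs_mul, abs_of_pos (by positivity : (0 : ℝ) < 1 / J)]
        refine (mul_le_mul_of_nonneg_left a3 (by positivity)).trans (le_of_eq ?_)
        field_simp
      refine (abs_sub _ _).trans ?_
      refine (add_le_add (abs_add_le _ _) le_rfl).trans ?_
      have : (2 ^ (K + 1) - 1 : ℝ) / J = (2 ^ K - 1) / J + 1 / J + (2 ^ K - 1) / J := by
        field_simp; ring
      linarith
    · intro μ a0 θ hμ hθ hS F A B hA hB
      obtain ⟨A', rfl⟩ : ∃ A', A = a0 + A' := ⟨A - a0, by rw [mul_add] at hA; omega⟩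
      obtain ⟨B', rfl⟩ : ∃ B', B = B' + (a0 + J) :=
        ⟨B - (a0 + J), by rw [mul_add, add_mul] at hB; omega⟩
      have hA' : a0 * K ≤ A' := by rw [mul_add] at hA; omega
      have hB' : a0 * K + K * J ≤ B' := by rw [mul_add, add_mul] at hB; omega
      set E := μ ^ A' * F * μ ^ B' -
        ∑ j ∈ range (K * J), w j • (μ ^ (A' + j) * F * μ ^ (B' - j)) with hE
      have hE' := H μ a0 θ hμ hθ hS F A' B' hA' hB'
      rw [← hE] at hE'
      set T : ℕ → Al G := fun k => μ ^ (a0 + A' + k) * F * μ ^ (B' + (a0 + J) - k) with hT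
      have hEi : ∀ i ≤ J, μ ^ (a0 + i) * E * μ ^ (a0 + J - i) =
          T i - ∑ j ∈ range (K * J), w j • T (i + j) := by
        intro i hi
        rw [hE, mul_sub, sub_mul, Finset.mul_sum, Finset.sum_mul]
        congr 1
        · simp only [hT, ← mul_assoc, ← pow_add]
          rw [mul_assoc, ← pow_add]
          congr 3 <;> omega
        · refine Finset.sum_congr rfl fun j hj => ?_
          have hj := Finset.mem_range.1 hj
          simp only [hT, mul_smul_comm, smul_mul_assoc, ← mul_assoc, ← pow_add]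
          rw [mul_assoc, ← pow_add]
          congr 4 <;> omega
      have main : μ ^ (a0 + A') * F * μ ^ (B' + (a0 + J)) - ∑ k ∈ range ((K + 1) * J),
          ((if 0 ≤ k ∧ k - 0 < K * J then w (k - 0) else 0) +
            (if 0 ≤ k ∧ k - 0 < J then (1 / J : ℝ) else 0) -
            (1 / J : ℝ) * ∑ i ∈ range J, (if i ≤ k ∧ k - i < K * J then w (k - i) else 0)) •
            (μ ^ (a0 + A' + k) * F * μ ^ (B' + (a0 + J) - k)) =
          (1 / J : ℝ) • ∑ i ∈ range J, (μ ^ a0 * E * μ ^ (a0 + J - i + i) -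
            μ ^ (a0 + i) * E * μ ^ (a0 + J - i)) := by
        have r1 : ∀ i ∈ range J, μ ^ a0 * E * μ ^ (a0 + J - i + i) -
            μ ^ (a0 + i) * E * μ ^ (a0 + J - i) =
            (T 0 - ∑ j ∈ range (K * J), w j • T (0 + j)) -
              (T i - ∑ j ∈ range (K * J), w j • T (i + j)) := by
          intro i hi
          have hi := Finset.mem_range.1 hi
          rw [← hEi i hi.le, ← hEi 0 (Nat.zero_le _)]
          congr 3; omega
        rw [Finset.sum_congr rfl r1]
        change T 0 - ∑ k ∈ range ((K + 1) * J), _ • T k = _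
        simp only [sub_smul, add_smul, Finset.sum_sub_distrib, Finset.sum_add_distrib, mul_smul,
          Finset.sum_smul, ← Finset.smul_sum]
        rw [shift_sum w T (by rw [add_mul]; omega),
          shift_sum (fun _ => (1 / J : ℝ)) T (by rw [add_mul]; omega), Finset.sum_comm]
        have r2 : ∀ i ∈ range J, ∑ k ∈ range ((K + 1) * J),
            (if i ≤ k ∧ k - i < K * J then w (k - i) else 0) • T k =
            ∑ j ∈ range (K * J), w j • T (i + j) := by
          intro i hi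
          have hi := Finset.mem_range.1 hi
          exact shift_sum w T (by rw [add_mul]; omega)
        rw [Finset.sum_congr rfl r2]
        simp only [Finset.sum_const, card_range, zero_add, ← Finset.smul_sum, smul_sub,
          ← Nat.cast_smul_eq_nsmul ℝ, smul_smul]
        rw [show (1 / J : ℝ) * J = 1 by field_simp]
        simp only [one_smul]
        abel
      rw [main]
      refine (nm_smul_le _ _).trans ?_
      rw [abs_of_pos (by positivity : (0 : ℝ) < 1 / J)]
      have b1 : nm (∑ i ∈ range J, (μ ^ a0 * E * μ ^ (a0 + J - i + i) -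
            μ ^ (a0 + i) * E * μ ^ (a0 + J - i))) ≤ J * (θ * nm E) := by
        refine (nm_sum_le _ _).trans ?_
        refine (Finset.sum_le_sum (g := fun _ => θ * nm E) fun i hi => ?_).trans (by simp)
        have hi := Finset.mem_range.1 hi
        exact shift2 hμ hS hi le_rfl (by omega) E
      calc 1 / (J : ℝ) * _ ≤ 1 / J * (J * (θ * nm E)) := by gcongr
        _ = θ * nm E := by field_simp
        _ ≤ θ * (θ ^ K * nm F) := by gcongr
        _ = _ := by ring

lemma sand (μ X : Al G) (a b c d : ℕ) :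
    μ ^ a * (μ ^ b * X * μ ^ c) * μ ^ d = μ ^ (a + b) * X * μ ^ (c + d) := by
  simp only [pow_add, mul_assoc]

lemma sand_eq (μ X : Al G) {a b c d : ℕ} (h1 : a = c) (h2 : b = d) :
    μ ^ a * X * μ ^ b = μ ^ c * X * μ ^ d := by rw [h1, h2]

/-- iterated commutator -/
noncomputable def adj (ν δ : Al G) : ℕ → Al G
  | 0 => δ
  | e + 1 => ν * adj ν δ e - adj ν δ e * ν

lemma pow_mul_eq_adj (ν δ : Al G) (i : ℕ) :
    ν ^ i * δ = ∑ e ∈ range (i + 1), (i.choose e : ℝ) • (adj ν δ e * ν ^ (i - e)) := by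
  induction i with
  | zero => simp [adj]
  | succ i ih =>
    rw [pow_succ', mul_assoc, ih, Finset.mul_sum]
    have r : ∀ e ∈ range (i + 1), ν * ((i.choose e : ℝ) • (adj ν δ e * ν ^ (i - e))) =
        (i.choose e : ℝ) • (adj ν δ (e + 1) * ν ^ (i + 1 - (e + 1))) +
        (i.choose e : ℝ) • (adj ν δ e * ν ^ (i + 1 - e)) := by
      intro e he
      have he := Finset.mem_range.1 he
      rw [show i + 1 - (e + 1) = i - e by omega, show i + 1 - e = i - e + 1 by omega, pow_succ',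
        mul_smul_comm, ← smul_add, adj]
      congr 1
      simp only [sub_mul, mul_assoc]; abel
    rw [Finset.sum_congr rfl r, Finset.sum_add_distrib,
      Finset.sum_range_succ' (fun e => ((i + 1).choose e : ℝ) • (adj ν δ e * ν ^ (i + 1 - e)))]
    simp only [Nat.choose_succ_succ', Nat.cast_add, add_smul, Finset.sum_add_distrib, add_assoc]
    congr 1
    rw [Finset.sum_range_succ' (fun e => (i.choose e : ℝ) • (adj ν δ e * ν ^ (i + 1 - e))),
      Finset.sum_range_succ (fun e => (i.choose (e + 1) : ℝ) • (adj ν δ (e + 1) *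
        ν ^ (i + 1 - (e + 1))))]
    simp

lemma nm_adj {ν : Al G} (hν : Prob ν) {a0 : ℕ} {θ : ℝ} (hθ : 0 ≤ θ) (h : Sm ν a0 2 θ) (δ : Al G)
    (e : ℕ) : nm (ν ^ (a0 * e) * adj ν δ e * ν ^ (a0 * e)) ≤ θ ^ e * nm δ := by
  induction e with
  | zero => simp [adj]
  | succ e ih =>
    set Z := ν ^ (a0 * e) * adj ν δ e * ν ^ (a0 * e) with hZ
    have : ν ^ (a0 * (e + 1)) * adj ν δ (e + 1) * ν ^ (a0 * (e + 1)) =
        -(ν ^ a0 * Z * ν ^ (a0 + 1) - ν ^ (a0 + 1) * Z * ν ^ a0) := by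
      rw [neg_sub, adj, hZ, mul_sub, sub_mul, sand, sand, ← mul_assoc, ← pow_succ, ← mul_assoc,
        mul_assoc _ ν, ← pow_succ']
      rw [show a0 + 1 + a0 * e = a0 * (e + 1) + 1 by ring, show a0 * e + a0 = a0 * (e + 1) by ring,
        show a0 + a0 * e = a0 * (e + 1) by ring,
        show a0 * e + (a0 + 1) = a0 * (e + 1) + 1 by ring]
    rw [this, nm_neg]
    refine (shift2 hν h (by norm_num) le_rfl le_rfl Z).trans ?_
    calc θ * nm Z ≤ θ * (θ ^ e * nm δ) := by gcongr
      _ = _ := by ring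

/-- Cancellation of the linear terms. -/
lemma lin_cancel {ν : Al G} (hν : Prob ν) {a0 m K : ℕ} {θ : ℝ} (hθ : 0 ≤ θ) (h : Sm ν a0 2 θ)
    (hm : m * θ ≤ 1) (c : ℕ → ℝ) (hc : ∀ i, |c i| ≤ 1)
    (hK : ∀ e < K, ∑ i ∈ range m, c i * (i.choose e : ℝ) = 0) (δ : Al G) {A B : ℕ}
    (hA : a0 * m ≤ A) (hB : a0 * m ≤ B) :
    nm (ν ^ A * (∑ i ∈ range m, c i • (ν ^ i * δ * ν ^ (m - 1 - i))) * ν ^ B) ≤
      m ^ 2 * (m * θ) ^ K * nm δ := by
  have e1 : ∑ i ∈ range m, c i • (ν ^ i * δ * ν ^ (m - 1 - i)) =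
      ∑ e ∈ range m, (∑ i ∈ range m, c i * (i.choose e : ℝ)) • (adj ν δ e * ν ^ (m - 1 - e)) := by
    simp only [Finset.sum_smul]
    rw [Finset.sum_comm]
    refine Finset.sum_congr rfl fun i hi => ?_
    have hi := Finset.mem_range.1 hi
    rw [pow_mul_eq_adj, Finset.sum_mul, Finset.smul_sum]
    refine Finset.sum_subset_zero_on_sdiff (Finset.range_subset_range.2 hi) ?_ ?_
    · intro e he
      simp only [mem_sdiff, mem_range, not_lt] at he
      rw [Nat.choose_eq_zero_of_lt (by omega)]; simp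
    · intro e he
      have he := Finset.mem_range.1 he
      rw [smul_mul_assoc, smul_smul, mul_assoc, ← pow_add]
      congr 3; omega
  rw [e1, Finset.mul_sum, Finset.sum_mul]
  refine (nm_sum_le _ _).trans ?_
  have hδ := nm_nonneg δ
  have hmθ : 0 ≤ m * θ := by positivity
  refine (Finset.sum_le_sum (g := fun _ => m * (m * θ) ^ K * nm δ) fun e he => ?_).trans ?_
  · have he := Finset.mem_range.1 he
    rw [mul_smul_comm, smul_mul_assoc]
    refine (nm_smul_le _ _).trans ?_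
    rcases Nat.lt_or_ge e K with hlt | hge
    · rw [hK e hlt]; simp only [abs_zero, zero_mul]; positivity
    · have a1 : |∑ i ∈ range m, c i * (i.choose e : ℝ)| ≤ m * m ^ e := by
        refine (Finset.abs_sum_le_sum_abs _ _).trans ?_
        refine (Finset.sum_le_sum (g := fun _ => (m : ℝ) ^ e) fun i hi => ?_).trans (by simp)
        have hi := Finset.mem_range.1 hi
        rw [abs_mul, Nat.abs_cast]
        have : (i.choose e : ℝ) ≤ m ^ e := by
          exact_mod_cast (Nat.choose_le_pow i e).trans (Nat.pow_le_pow_left hi.le e)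
        calc |c i| * (i.choose e : ℝ) ≤ 1 * m ^ e := by gcongr; exact hc i
          _ = _ := one_mul _
      have hae : a0 * e ≤ a0 * m := Nat.mul_le_mul_left _ he.le
      have a2 : nm (ν ^ A * (adj ν δ e * ν ^ (m - 1 - e)) * ν ^ B) ≤ θ ^ e * nm δ := by
        have : ν ^ A * (adj ν δ e * ν ^ (m - 1 - e)) * ν ^ B = ν ^ (A - a0 * e) *
            ((ν ^ (a0 * e) * adj ν δ e * ν ^ (a0 * e)) * ν ^ (m - 1 - e + B - a0 * e)) := by
          simp only [← mul_assoc, ← pow_add]
          simp only [mul_assoc, ← pow_add]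
          congr 2
          · omega
          · congr 1; omega
        rw [this]
        exact ((hν.pow _).nm_mul_left _).trans (((hν.pow _).nm_mul_right _).trans
          (nm_adj hν hθ h δ e))
      calc _ ≤ (m * m ^ e) * (θ ^ e * nm δ) :=
            mul_le_mul a1 a2 (nm_nonneg _) (by positivity)
        _ = m * (m * θ) ^ e * nm δ := by rw [mul_pow]; ring
        _ ≤ m * (m * θ) ^ K * nm δ := by
            have := pow_le_pow_of_le_one hmθ hm hge
            gcongr
  · simp only [sum_const, card_range, nsmul_eq_mul]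
    apply le_of_eq; ring

/-- Pigeonhole for equal binomial moments. -/
lemma exists_pte {m K : ℕ} (hm : 1 ≤ m) (h : (m ^ K + 1) ^ K < 2 ^ m) :
    ∃ f g : ℕ → Bool, (∃ i < m, f i ≠ g i) ∧ ∀ e < K,
      ∑ i ∈ range m, ((if f i then 1 else 0) - (if g i then 1 else 0) : ℝ) *
        (i.choose e : ℝ) = 0 := by
  classical
  have hc : (Fintype.piFinset fun _ : Fin K => range (m ^ K + 1)).card <
      ((range m).powerset).card := by
    simpa using h
  obtain ⟨α, hα, β, hβ, hne, heq⟩ := Finset.exists_ne_map_eq_of_card_lt_of_maps_to hc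
    (f := fun (α : Finset ℕ) (e : Fin K) => ∑ i ∈ α, i.choose e) (by
      intro α hα
      simp only [coe_powerset, coe_range, Set.mem_preimage, Set.mem_powerset_iff] at hα
      simp only [Fintype.coe_piFinset, coe_range, Set.mem_pi, Set.mem_univ, Set.mem_Iio,
        forall_const]
      intro e
      have hsub : α ⊆ range m := by
        intro i hi; simpa using hα hi
      have : ∑ i ∈ α, i.choose e ≤ m * m ^ (e : ℕ) := by
        refine (Finset.sum_le_sum_of_subset hsub).trans ?_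
        refine (Finset.sum_le_sum (g := fun _ => m ^ (e : ℕ)) fun i hi => ?_).trans (by simp)
        exact (Nat.choose_le_pow i e).trans (Nat.pow_le_pow_left (Finset.mem_range.1 hi).le e)
      have h2 : m * m ^ (e : ℕ) ≤ m ^ K := by
        rw [← pow_succ']; exact Nat.pow_le_pow_right hm e.2
      omega)
  have hα' := Finset.mem_powerset.1 hα
  have hβ' := Finset.mem_powerset.1 hβ
  refine ⟨fun i => decide (i ∈ α), fun i => decide (i ∈ β), ?_, fun e he => ?_⟩
  · by_contra hcon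
    push Not at hcon
    apply hne
    ext i
    by_cases hi : i < m
    · simpa using hcon i hi
    · constructor
      · intro h; exact absurd (Finset.mem_range.1 (hα' h)) hi
      · intro h; exact absurd (Finset.mem_range.1 (hβ' h)) hi
  · have := congrFun heq ⟨e, he⟩
    simp only at this
    simp only [decide_eq_true_eq, sub_mul, ite_mul, one_mul, zero_mul, Finset.sum_sub_distrib]
    rw [← Finset.sum_filter, ← Finset.sum_filter, Finset.filter_mem_eq_inter,
      Finset.filter_mem_eq_inter, Finset.inter_eq_right.2 hα', Finset.inter_eq_right.2 hβ',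
      sub_eq_zero]
    exact_mod_cast this

end Vale.Agent.P321
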