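import Vale.Agent.P321.LowTok

namespace Vale.Agent.P321

open Finset

set_option linter.unusedSectionVars false

noncomputable def suf {G : Type*} [Monoid G] (b a : G) (M y s : ℕ) : G := (b ^ M * a) ^ s * b ^ y

noncomputable def pp (r p : ℝ) (M x t : ℕ) : Al NN := bern r ^ x * (bern p * bern r ^ M) ^ t

lemma pp_eq (r p : ℝ) (M x t : ℕ) : pp r p M x t = bern r ^ (t * M + x) * bern p ^ t := by
  rw [pp, mul_pow, ← pow_mul, pow_add]; ring

lemma expand {G : Type*} [Monoid G] (e v : Al G) (r p : ℝ) (M y : ℕ) : ∀ s x : ℕ,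
    ev e (bern r) ^ x * (ev e (bern p) + v) * suf (ev e (bern r)) (ev e (bern p) + v) M y s =
      ev e (pp r p M x s * bern p * bern r ^ y) + ∑ t ∈ range (s + 1), ev e (pp r p M x t) *
        (v * suf (ev e (bern r)) (ev e (bern p) + v) M y (s - t))
  | 0, x => by simp [suf, pp, mul_add, add_mul, mul_assoc]
  | s + 1, x => by
    have e1 : suf (ev e (bern r)) (ev e (bern p) + v) M y (s + 1) = ev e (bern r) ^ M *
        (ev e (bern p) + v) * suf (ev e (bern r)) (ev e (bern p) + v) M y s := by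
      rw [suf, suf, pow_succ', mul_assoc]
    have e2 : ∀ t, pp r p M x (t + 1) = bern r ^ x * bern p * pp r p M M t := by
      intro t; simp only [pp, pow_succ]; ring
    rw [Finset.sum_range_succ', mul_add, add_mul]
    nth_rewrite 1 [e1]
    rw [expand e v r p M y s M, mul_add, ← add_assoc, Finset.mul_sum]
    refine congrArg₂ (· + ·) (congrArg₂ (· + ·) ?_ (Finset.sum_congr rfl fun t _ => ?_)) ?_
    · simp [e2, mul_assoc]
    · simp [e2, mul_assoc]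
    · simp [pp, mul_assoc]

section
variable {r p C0 : ℝ} (hr0 : 0 < r) (hr1 : r ≤ 1) (hp0 : 0 ≤ p) (hp1 : p ≤ 1) (hC : 1 ≤ C0)
  (hS : ∀ k : ℕ, 1 ≤ k → Sup (bern r ^ k) (C0 / √k))
include hr0 hr1 hp0 hp1 hC hS

lemma mom_pp (k t : ℕ) : Mom (bern r ^ k * bern p ^ t) (k * r + t * p) (k + t) :=
  (mom_bern_pow hr0.le hr1 k).mul (mom_bern_pow hp0 hp1 t)

lemma sup_pp {k : ℕ} (hk : 1 ≤ k) (t : ℕ) : Sup (bern r ^ k * bern p ^ t) (C0 / √k) :=
  (hS k hk).mul_right ((prob_bern hr0.le hr1).pow k).1 ((prob_bern hp0 hp1).pow t)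

lemma wsup_pp {k : ℕ} (hk : 2 ≤ k) (t : ℕ) (j : NN) :
    (val j - (k * r + t * p)) ^ 2 * (bern r ^ k * bern p ^ t).coeff j ≤
      4 * (k + t) * (C0 / √k) := by
  obtain ⟨k1, k2, h1, h2, h3, h4⟩ : ∃ k1 k2, k = k1 + k2 ∧ 1 ≤ k1 ∧ k1 ≤ k2 ∧ k ≤ 4 * k1 :=
    ⟨k / 2, k - k / 2, by omega, by omega, by omega, by omega⟩
  have hk1 : 0 < √(k1 : ℝ) := Real.sqrt_pos.2 (by exact_mod_cast h2)
  have hk0 : 0 < √(k : ℝ) := Real.sqrt_pos.2 (by exact_mod_cast (by omega : 0 < k))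
  have a : C0 / √k1 ≤ 2 * (C0 / √k) := by
    have : √(k : ℝ) ≤ 2 * √k1 := by
      rw [show (2 : ℝ) = √4 by rw [show (4 : ℝ) = 2 ^ 2 by norm_num, Real.sqrt_sq (by norm_num)],
        ← Real.sqrt_mul (by norm_num)]
      exact Real.sqrt_le_sqrt (by exact_mod_cast h4)
    rw [← mul_div_assoc, div_le_div_iff₀ hk1 hk0]
    nlinarith
  have b : C0 / √k2 ≤ C0 / √k1 := by
    gcongr
  have := wsup (mom_bern_pow hr0.le hr1 k1) (mom_pp hr0 hr1 hp0 hp1 hC hS k2 t)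
    ((hS k1 h2).mono a) ((sup_pp hr0 hr1 hp0 hp1 hC hS (by omega) t).mono (b.trans a)) j
  rw [← mul_assoc, ← pow_add, ← h1] at this
  have e : (k : ℝ) = k1 + k2 := by rw [h1]; push_cast; rfl
  rw [show (k : ℝ) * r + t * p = k1 * r + (k2 * r + t * p) by rw [e]; ring]
  refine this.trans (le_of_eq ?_)
  rw [show (k1 : ℝ) + (k2 + t) = k + t by rw [e]; ring]; ring

lemma phi_le {M x s : ℕ} (hx : 2 ≤ x) (hxM : x ≤ M) {ε : ℝ} (hε : (s + 2 : ℝ) ≤ ε * M)
    (hε' : 80 * ε ≤ r ^ 2) (t : ℕ) (ht : t < s + 1) :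
    ∑ t' ∈ range (s + 1), ipN (pp r p M x t') (pp r p M x t) ≤ 2 * (C0 / √(t * M + x)) := by
  have hM : (2 : ℝ) ≤ M := by exact_mod_cast hx.trans hxM
  have hxM' : (x : ℝ) ≤ M := by exact_mod_cast hxM
  have hsup := sup_pp hr0 hr1 hp0 hp1 hC hS (k := t * M + x) (by omega) t
  have hw := wsup_pp hr0 hr1 hp0 hp1 hC hS (k := t * M + x) (by omega) t
  push_cast at hsup hw
  set g := C0 / √(t * M + x) with hg
  have hg0 : 0 ≤ g := by positivity
  have hV : ∀ t' < s + 1, ((t' : ℝ) * M + x + t') ≤ 2 * ε * M ^ 2 := by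
    intro t' ht'
    have : (t' : ℝ) ≤ s := by exact_mod_cast (by omega : t' ≤ s)
    have h0 : (0 : ℝ) ≤ s := Nat.cast_nonneg _
    calc (t' : ℝ) * M + x + t' ≤ s * M + M + s := by gcongr
      _ ≤ 2 * ((s + 2) * M) := by nlinarith
      _ ≤ 2 * (ε * M * M) := by gcongr
      _ = _ := by ring
  have key : ∀ t' ∈ range (s + 1), ipN (pp r p M x t') (pp r p M x t) ≤
      (if t' = t then g else 0) +
        g / 4 * (if t' = t then (0 : ℝ) else 1 / ((t' : ℝ) - t) ^ 2) := by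
    intro t' ht'
    have ht' := Finset.mem_range.1 ht'
    have m := mom_pp hr0 hr1 hp0 hp1 hC hS (t' * M + x) t'
    rw [pp_eq, pp_eq]
    split_ifs with hc
    · rw [mul_zero, add_zero]; exact ipN_le m.1 hsup
    · have pt := (mom_pp hr0 hr1 hp0 hp1 hC hS (t * M + x) t).1
      have far := ipN_far m pt.1 hsup hw
      have nn := ipN_nonneg m.1.1 pt.1
      push_cast at far
      set I := ipN (bern r ^ (t' * M + x) * bern p ^ t') (bern r ^ (t * M + x) * bern p ^ t)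
      have hd : 0 < ((t' : ℝ) - t) ^ 2 := by
        have : (t' : ℝ) - t ≠ 0 := sub_ne_zero.2 (by exact_mod_cast hc)
        positivity
      have e : ((t' : ℝ) * M + x) * r + t' * p - (((t : ℝ) * M + x) * r + t * p) =
          (t' - t) * (M * r + p) := by ring
      rw [e, mul_pow] at far
      have a1 : (M * r) ^ 2 ≤ (M * r + p) ^ 2 := by gcongr; linarith
      have a2 := hV t ht
      have a3 := hV t' ht'
      have a4 : ((t' : ℝ) - t) ^ 2 * (M * r) ^ 2 * I ≤ 20 * ε * M ^ 2 * g := by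
        have b1 : ((t' : ℝ) - t) ^ 2 * (M * r) ^ 2 * I ≤ ((t' : ℝ) - t) ^ 2 * (M * r + p) ^ 2 * I := by
          gcongr
        nlinarith [mul_le_mul_of_nonneg_right a2 hg0, mul_le_mul_of_nonneg_right a3 hg0]
      have a5 : 20 * ε * M ^ 2 * g ≤ (M * r) ^ 2 * (g / 4) := by
        have := mul_le_mul_of_nonneg_right hε' (show 0 ≤ (M : ℝ) ^ 2 * g by positivity)
        nlinarith
      have a6 : (M * r) ^ 2 * (((t' : ℝ) - t) ^ 2 * I) ≤ (M * r) ^ 2 * (g / 4) := by linarith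
      have a7 := le_of_mul_le_mul_left a6 (by positivity)
      rw [zero_add, mul_one_div, le_div_iff₀ hd]; linarith
  refine (Finset.sum_le_sum key).trans ?_
  rw [Finset.sum_add_distrib, Finset.sum_ite_eq' (range (s + 1)) t,
    if_pos (Finset.mem_range.2 ht), ← Finset.mul_sum]
  have := sum_inv_sq (s + 1) t ht
  nlinarith

end

section
variable {T : Type*} [Fintype T] [DecidableEq T] {ρ cv : T → ℝ} (hρ : ∀ τ, 0 < ρ τ)
  (hρ1 : ∑ τ, ρ τ = 1) (hv : ∑ τ, cv τ = 0) {r p C0 S : ℝ} (hr0 : 0 < r) (hr1 : r ≤ 1)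
  (hp0 : 0 ≤ p) (hp1 : p ≤ 1) (hC : 1 ≤ C0) (hS : ∀ k : ℕ, 1 ≤ k → Sup (bern r ^ k) (C0 / √k))
  (hSv : ∑ τ, cv τ * cv τ / ρ τ ≤ S)
include hρ hρ1 hv hr0 hr1 hp0 hp1 hC hS hSv

lemma l2_step {M σ x y s : ℕ} (hσ : 2 ≤ σ) (hx : σ ≤ x) (hxM : x ≤ M) {ε : ℝ}
    (hε : (s + 2 : ℝ) ≤ ε * M) (hε' : 80 * ε ≤ r ^ 2) (Z : ℕ → Al (FreeMonoid T))
    (hZ : ∀ s' ≤ s, ip ρ (Z s') (Z s') ≤ 2 * C0 * (1 / √(s' * M + σ))) :
    ip ρ (∑ t ∈ range (s + 1), ev (lt ρ) (pp r p M x t) * (lt cv * Z (s - t)))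
      (∑ t ∈ range (s + 1), ev (lt ρ) (pp r p M x t) * (lt cv * Z (s - t))) ≤
      4 * S * C0 ^ 2 * (2 / √σ + 4 * √ε) / √(s * M + x + σ) := by
  have hM : (0 : ℝ) < M := by exact_mod_cast (by omega : 0 < M)
  have hσ' : (0 : ℝ) < σ := by exact_mod_cast (by omega : 0 < σ)
  have hx' : (σ : ℝ) ≤ x := by exact_mod_cast hx
  set S0 := ∑ τ, cv τ * cv τ / ρ τ with hS0
  have hS00 : 0 ≤ S0 :=
    Finset.sum_nonneg fun τ _ => div_nonneg (mul_self_nonneg _) (hρ τ).le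
  have ppos : ∀ t, Pos (pp r p M x t) := fun t => by
    rw [pp_eq]; exact (mom_pp hr0 hr1 hp0 hp1 hC hS _ _).1.1
  simp only [map_sum, LinearMap.sum_apply, ip_v_v hρ hρ1 hv, ← hS0]
  set y : ℕ → ℝ := fun t => ip ρ (Z (s - t)) (Z (s - t)) with hy
  have a1 : ∑ t ∈ range (s + 1), ∑ t' ∈ range (s + 1),
      S0 * ipN (pp r p M x t') (pp r p M x t) * ip ρ (Z (s - t')) (Z (s - t)) ≤
      ∑ t ∈ range (s + 1), ∑ t' ∈ range (s + 1),
        (S0 / 2 * (ipN (pp r p M x t') (pp r p M x t) * y t) +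
          S0 / 2 * (ipN (pp r p M x t) (pp r p M x t') * y t')) := by
    refine Finset.sum_le_sum fun t _ => Finset.sum_le_sum fun t' _ => ?_
    have := mul_le_mul_of_nonneg_left (ip_le hρ (Z (s - t')) (Z (s - t)))
      (mul_nonneg hS00 (ipN_nonneg (ppos t') (ppos t)))
    rw [ipN_comm (pp r p M x t)]
    simp only [hy]; linarith
  refine a1.trans ?_
  simp only [Finset.sum_add_distrib]
  rw [Finset.sum_comm (f := fun t t' => S0 / 2 * (ipN (pp r p M x t) (pp r p M x t') * y t')),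
    ← two_mul, Finset.mul_sum]
  have a2 : ∀ t ∈ range (s + 1), 2 * ∑ t' ∈ range (s + 1),
      S0 / 2 * (ipN (pp r p M x t') (pp r p M x t) * y t) ≤
      4 * S * C0 ^ 2 * (1 / √(t * M + x) * (1 / √(((s - t : ℕ) : ℝ) * M + σ))) := by
    intro t ht
    have ht := Finset.mem_range.1 ht
    rw [← Finset.mul_sum, ← Finset.sum_mul]
    have b1 := phi_le hr0 hr1 hp0 hp1 hC hS (by omega) hxM hε hε' t ht
    have b2 := hZ (s - t) (by omega)
    have b3 : 0 ≤ y t := ip_self_nonneg hρ _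
    calc 2 * (S0 / 2 * ((∑ t' ∈ range (s + 1), ipN (pp r p M x t') (pp r p M x t)) * y t))
        ≤ 2 * (S / 2 * ((2 * (C0 / √(t * M + x))) *
          (2 * C0 * (1 / √(((s - t : ℕ) : ℝ) * M + σ))))) := by
          gcongr
          · exact mul_nonneg (Finset.sum_nonneg fun t' _ => ipN_nonneg (ppos t') (ppos t)) b3
          · linarith
      _ = _ := by ring
  refine (Finset.sum_le_sum a2).trans ?_
  rw [← Finset.mul_sum, mul_div_assoc]
  have hSS : 0 ≤ S := hS00.trans hSv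
  refine mul_le_mul_of_nonneg_left ((conv_sqrt hM hσ' hx' s).trans ?_) (by positivity)
  have : √(s : ℝ) / √M ≤ √ε := by
    rw [← Real.sqrt_div (Nat.cast_nonneg _)]
    exact Real.sqrt_le_sqrt (by rw [div_le_iff₀ hM]; linarith)
  rw [mul_div_assoc]
  gcongr

lemma l2_suf {M σ y s : ℕ} (hσ : 2 ≤ σ) (hy : σ ≤ y) (hM : σ ≤ M) {ε : ℝ}
    (hε : (s + 2 : ℝ) ≤ ε * M) (hε' : 80 * ε ≤ r ^ 2)
    (hη : 4 * S * C0 * (2 / √σ + 4 * √ε) ≤ 1) : ∀ s' ≤ s,
    ip ρ (suf (ev (lt ρ) (bern r)) (ev (lt ρ) (bern p) + lt cv) M y s')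
      (suf (ev (lt ρ) (bern r)) (ev (lt ρ) (bern p) + lt cv) M y s') ≤
      2 * C0 * (1 / √(s' * M + σ)) := by
  have hσ' : (0 : ℝ) < σ := by exact_mod_cast (by omega : 0 < σ)
  have hy' : (σ : ℝ) ≤ y := by exact_mod_cast hy
  intro s'
  induction s' using Nat.strong_induction_on with
  | _ s' ih =>
  intro hs'
  rcases s' with _ | s'
  · simp only [suf, pow_zero, one_mul, ← map_pow, ip_ev_ev hρ hρ1]
    refine (ipN_le ((prob_bern hr0.le hr1).pow y) (hS y (by omega))).trans ?_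
    have : C0 / √y ≤ C0 / √σ := by gcongr
    have p : 0 ≤ C0 / √σ := by positivity
    simp only [Nat.cast_zero, zero_mul, zero_add, mul_one_div]
    rw [mul_div_assoc]; linarith
  · have e1 : suf (ev (lt ρ) (bern r)) (ev (lt ρ) (bern p) + lt cv) M y (s' + 1) =
        ev (lt ρ) (bern r) ^ M * (ev (lt ρ) (bern p) + lt cv) *
          suf (ev (lt ρ) (bern r)) (ev (lt ρ) (bern p) + lt cv) M y s' := by
      rw [suf, suf, pow_succ', mul_assoc]
    have hs'' : (s' : ℝ) ≤ s := by exact_mod_cast (by omega : s' ≤ s)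
    have st := l2_step hρ hρ1 hv hr0 hr1 hp0 hp1 hC hS hSv (y := y) hσ hM le_rfl
      (show (s' + 2 : ℝ) ≤ ε * M by linarith) hε' _ (fun s'' h => ih s'' (by omega) (by omega))
    rw [e1, expand]
    set Sg := ∑ t ∈ range (s' + 1), ev (lt ρ) (pp r p M M t) * (lt cv *
      suf (ev (lt ρ) (bern r)) (ev (lt ρ) (bern p) + lt cv) M y (s' - t)) with hSg
    set P := pp r p M M s' * bern p * bern r ^ y with hP
    have o : ip ρ (ev (lt ρ) P) Sg = 0 := by
      simp only [hSg, map_sum, ip_ev_v hρ hρ1 hv, Finset.sum_const_zero]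
    simp only [map_add, LinearMap.add_apply]
    rw [ip_comm ρ Sg (ev _ P), o, ip_ev_ev hρ hρ1]
    have eP : P = bern r ^ (s' * M + M + y) * bern p ^ (s' + 1) := by
      rw [hP, pp_eq, pow_add _ _ y, pow_succ]; ring
    have a1 : ipN P P ≤ C0 / √(s' * M + M + σ) := by
      rw [eP]
      refine (ipN_le (mom_pp hr0 hr1 hp0 hp1 hC hS _ _).1
        (sup_pp hr0 hr1 hp0 hp1 hC hS (by omega) _)).trans ?_
      push_cast; gcongr
    have a2 : 4 * S * C0 ^ 2 * (2 / √σ + 4 * √ε) / √(s' * M + M + σ) ≤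
        C0 / √(s' * M + M + σ) := by
      gcongr; nlinarith
    push_cast
    rw [add_one_mul, mul_one_div, mul_div_assoc]
    linarith

lemma chunk_close (ha : Pos (ev (lt ρ) (bern p) + lt cv)) {M σ x y s : ℕ} (hσ : 2 ≤ σ)
    (hx : σ ≤ x) (hxM : x ≤ M) (hy : σ ≤ y) (hyM : y ≤ M) (hs : 2 ≤ s) {ε : ℝ}
    (hε : (s + 2 : ℝ) ≤ ε * M) (hε' : 80 * ε ≤ r ^ 2)
    (hη : 1152 * S * C0 ^ 2 * (2 / √σ + 4 * √ε) ≤ 1) :
    nm (ev (lt ρ) (bern r) ^ x * (ev (lt ρ) (bern p) + lt cv) *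
      suf (ev (lt ρ) (bern r)) (ev (lt ρ) (bern p) + lt cv) M y s -
      ev (lt ρ) (bern r ^ (s * M + x + y) * bern p ^ (s + 1))) ≤ 1 / 2 := by
  have hSS : 0 ≤ S :=
    (Finset.sum_nonneg fun τ _ => div_nonneg (mul_self_nonneg _) (hρ τ).le).trans hSv
  have hη0 : 0 ≤ S * (2 / √σ + 4 * √ε) := by positivity
  have st := l2_step hρ hρ1 hv hr0 hr1 hp0 hp1 hC hS hSv (y := y) hσ hx hxM hε hε' _
    (l2_suf hρ hρ1 hv hr0 hr1 hp0 hp1 hC hS hSv hσ hy (hx.trans hxM) hε hε'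
      (by nlinarith [mul_le_mul_of_nonneg_left hC (mul_nonneg hη0 (zero_le_one.trans hC))]))
  have eP : pp r p M x s * bern p * bern r ^ y = bern r ^ (s * M + x + y) * bern p ^ (s + 1) := by
    rw [pp_eq, pow_add _ _ y, pow_succ]; ring
  have he : Prob (lt ρ) := ⟨pos_lt fun τ => (hρ τ).le, by rw [mass_lt, hρ1]⟩
  have hb := (he.ev (prob_bern hr0.le hr1)).1
  have m := mom_pp hr0 hr1 hp0 hp1 hC hS (s * M + x + y) (s + 1)
  have hs' : (2 : ℝ) ≤ s := by exact_mod_cast hs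
  have hM' : (2 : ℝ) ≤ M := by exact_mod_cast (by omega : 2 ≤ M)
  have hsM : (4 : ℝ) ≤ s * M := by nlinarith
  set q := √((s : ℝ) * M) with hq
  have hq2 : q ^ 2 = s * M := Real.sq_sqrt (by linarith)
  have hq1 : 1 ≤ q := Real.one_le_sqrt.2 (by linarith)
  have tv := tv_of_l2 hρ hρ1 (F := ev (lt ρ) (bern r) ^ x * (ev (lt ρ) (bern p) + lt cv) *
      suf (ev (lt ρ) (bern r)) (ev (lt ρ) (bern p) + lt cv) M y s) (R := 6 * q)
    (((hb.pow x).mul ha).mul ((((hb.pow M).mul ha).pow s).mul (hb.pow y)))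
    (he.ev m.1).1
    (by
      simp only [suf, map_mul, map_pow, map_add, push_len_ev hρ1, push_len_lt, hv, zero_smul,
        add_zero]
      rw [mul_pow, ← pow_mul, pow_add, pow_add, pow_succ]; ring)
    (push_len_ev hρ1 _) m (by positivity) (by linarith)
  refine tv.trans ?_
  rw [expand, eP, add_sub_cancel_left]
  have a1 : 2 * (((s * M + x + y : ℕ) : ℝ) + ((s + 1 : ℕ) : ℝ)) / (6 * q) ^ 2 ≤ 1 / 4 := by
    have hx' : (x : ℝ) ≤ M := by exact_mod_cast hxM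
    have hy' : (y : ℝ) ≤ M := by exact_mod_cast hyM
    rw [div_le_iff₀ (by positivity), mul_pow, hq2]
    push_cast; nlinarith
  have a2 : 4 * S * C0 ^ 2 * (2 / √σ + 4 * √ε) / √(s * M + x + σ) ≤ 1 / 288 / q := by
    have : q ≤ √(s * M + x + σ) :=
      Real.sqrt_le_sqrt (by linarith [Nat.cast_nonneg (α := ℝ) x, Nat.cast_nonneg (α := ℝ) σ])
    gcongr; linarith
  have a3 := mul_le_mul_of_nonneg_left (st.trans a2) (show 0 ≤ 6 * (6 * q) by positivity)
  have e : 6 * (6 * q) * (1 / 288 / q) = 1 / 8 := by field_simp; norm_num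
  linarith

end

end Vale.Agent.P321
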