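import Vale.Agent.P321.LowBase
import Vale.Agent.P321.Defs

namespace Vale.Agent.P321

open Finset

def EE : ℕ → ℕ
  | 0 => 1000
  | k + 1 => 4 * EE k + 30

lemma EE_ge : ∀ k, 1000 * (k + 1) ≤ EE k
  | 0 => by simp [EE]
  | k + 1 => by have := EE_ge k; simp only [EE]; omega

lemma EE_le : ∀ k, EE k + 10 ≤ 1010 * 4 ^ k
  | 0 => by simp [EE]
  | k + 1 => by have := EE_le k; simp only [EE, pow_succ]; omega

lemma iter {q : ℝ} (h0 : 0 < q) (h1 : q < 1) : ∃ t0 : ℕ, ∀ t ≥ t0, ∀ k, (4 * k + 15) * EE k ≤ t →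
    ∃ X Y F, St (Dq q) (2 ^ t) X Y (EE k) F (t - EE k) ∧ (45 + k) * EE k ≤ 64 * F ∧
      F ≤ (k + 1) * EE k := by
  obtain ⟨t0, ht0⟩ := base_state h0 h1
  refine ⟨t0 + 11, fun t ht k => ?_⟩
  induction k with
  | zero =>
    intro hk
    simp only [EE] at hk ⊢
    obtain ⟨X, Y, h⟩ := ht0 t (by omega) (t - 1000) (by omega)
    exact ⟨X, Y, 738, h, by norm_num, by norm_num⟩
  | succ k ih =>
    intro hk
    simp only [EE] at hk ⊢
    have hE := EE_ge k
    obtain ⟨X, Y, F, h, a, b⟩ := ih (le_trans (by nlinarith) hk)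
    generalize EE k = E at *
    obtain ⟨P, hP⟩ : ∃ P, P = k * E := ⟨_, rfl⟩
    have a' : 45 * E + P ≤ 64 * F := by rw [hP]; linarith
    have b' : F ≤ P + E := by rw [hP]; linarith
    have hk' : 16 * P + 76 * E + 120 * k + 570 ≤ t := by rw [hP]; linarith
    obtain ⟨X', Y', h'⟩ := step2 (prob_Dq h0.le h1.le) (by omega) rfl h (by omega) (by omega)
      (by omega) (by omega) (F' := 4 * F + E / 8 - 14) (R' := t - (4 * E + 30)) (by omega)
      (by omega)
    refine ⟨X', Y', _, h', ?_, ?_⟩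
    · have : (45 + (k + 1)) * (4 * E + 30) = 184 * E + 4 * P + 1380 + 30 * k := by rw [hP]; ring
      omega
    · have : (k + 1 + 1) * (4 * E + 30) = 8 * E + 4 * P + 60 + 30 * k := by rw [hP]; ring
      omega

lemma pair {q : ℝ} (h0 : 0 < q) (h1 : q < 1) : ∃ t0 : ℕ, ∀ t ≥ t0, ∀ k, (4 * k + 15) * EE k ≤ t →
    ∀ n, 2 ^ (t * EE k) ≤ n → ∃ (X Y : FreeMonoid Bool) (F : ℕ), X.length = n ∧ Y.length = n ∧
      X ≠ Y ∧ k * EE k ≤ 64 * F ∧ nm (Dq q X - Dq q Y) ≤ 2 / 2 ^ (t * F) := by
  obtain ⟨t0, ht0⟩ := iter h0 h1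
  refine ⟨t0, fun t ht k hk n hn => ?_⟩
  obtain ⟨X, Y, F, ⟨s1, s2, s3, s4, _⟩, a, b⟩ := ht0 t ht k hk
  rw [← pow_mul] at s3
  refine ⟨X * FreeMonoid.of false ^ (n - Y.length), Y * FreeMonoid.of false ^ (n - Y.length), F,
    ?_, ?_, fun h => s2 (mul_right_cancel h), by nlinarith, ?_⟩
  · simp only [FreeMonoid.length_mul, length_pow, FreeMonoid.length_of]; omega
  · simp only [FreeMonoid.length_mul, length_pow, FreeMonoid.length_of]; omega
  · rw [map_mul, map_mul, ← sub_mul]
    refine ((prob_Dq h0.le h1.le _).nm_mul_right _).trans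
      ((s4.nm_le' (prob_Dq h0.le h1.le _)).trans ?_)
    have : (1 / ((2 ^ t : ℕ) : ℝ)) ^ (t - EE k) ≤ (1 / ((2 ^ t : ℕ) : ℝ)) ^ F :=
      umono (by exact_mod_cast Nat.one_le_two_pow) (by
        have : (k + 1) * EE k + EE k ≤ t := le_trans (by nlinarith) hk
        omega)
    have e : (2 : ℝ) / 2 ^ (t * F) = 2 * (1 / ((2 ^ t : ℕ) : ℝ)) ^ F := by
      rw [one_div_pow, pow_mul]; push_cast; ring
    linarith

lemma trace_cons2 {n : ℕ} (b a : Bool) (keep x : Fin n → Bool) :
    trace (Fin.cons b keep : Fin (n + 1) → Bool) (Fin.cons a x) =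
      if b then a :: trace keep x else trace keep x := by
  simp only [trace, List.finRange_succ, List.filter_cons, Fin.cons_zero, List.filter_map]
  cases b <;> simp [Function.comp_def]

lemma sum_mask (q : ℝ) : ∀ (n : ℕ) (x : Fin n → Bool) (ψ : List Bool → ℝ),
    ∑ keep : Fin n → Bool, maskWt q keep * ψ (trace keep x) =
      pr (fun w => ψ w.toList) (Dq q (FreeMonoid.ofList (List.ofFn x)))
  | 0, x, ψ => by simp [maskWt, trace, pr_one]
  | n + 1, x, ψ => by
    obtain ⟨a, x, rfl⟩ : ∃ a x', x = Fin.cons a x' := ⟨x 0, Fin.tail x, by simp⟩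
    rw [← (Fin.consEquiv fun _ => Bool).sum_comp, Fintype.sum_prod_type, Fintype.sum_bool]
    have e : ∀ (b : Bool) (k : Fin n → Bool),
        (Fin.consEquiv fun _ : Fin (n + 1) => Bool) (b, k) = Fin.cons b k := fun _ _ => rfl
    simp only [e]
    simp only [trace_cons2, maskWt, Fin.prod_univ_succ, Fin.cons_zero, Fin.cons_succ, ↓reduceIte,
      Bool.false_eq_true, mul_assoc, ← Finset.mul_sum]
    have i1 := sum_mask q n x ψ
    have i2 := sum_mask q n x (fun l => ψ (a :: l))
    simp only [maskWt] at i1 i2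
    rw [i1, i2, List.ofFn_succ, FreeMonoid.ofList_cons, map_mul, pr_mul]
    simp [Dq, pr_one, add_comm]
    rw [sub_mul, one_mul]

noncomputable def ExL {n : ℕ} (q : ℝ) (x : Fin n → Bool) (m : ℕ)
    (f : (Fin m → List Bool) → ℝ) : ℝ :=
  ∑ masks : Fin m → Fin n → Bool, (∏ j, maskWt q (masks j)) * f (fun j => trace (masks j) x)

lemma ExL_succ {n : ℕ} (q : ℝ) (x : Fin n → Bool) (m : ℕ) (f : (Fin (m + 1) → List Bool) → ℝ) :
    ExL q x (m + 1) f = pr (fun w => ExL q x m fun l => f (Fin.cons w.toList l))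
      (Dq q (FreeMonoid.ofList (List.ofFn x))) := by
  rw [← sum_mask q n x (fun s => ExL q x m fun l => f (Fin.cons s l)), ExL,
    ← (Fin.consEquiv fun _ => Fin n → Bool).sum_comp, Fintype.sum_prod_type]
  refine Finset.sum_congr rfl fun k _ => ?_
  rw [ExL, Finset.mul_sum]
  refine Finset.sum_congr rfl fun ks _ => ?_
  simp only [Fin.consEquiv_apply, Fin.prod_univ_succ, Fin.cons_zero, Fin.cons_succ, mul_assoc]
  congr 3
  funext j
  refine Fin.cases ?_ (fun j => ?_) j <;> simp

lemma abs_Ex_le {n : ℕ} {q : ℝ} (h0 : 0 ≤ q) (h1 : q ≤ 1) (x : Fin n → Bool) :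
    ∀ (m : ℕ) (f : (Fin m → List Bool) → ℝ), (∀ l, |f l| ≤ 1) → |ExL q x m f| ≤ 1
  | 0, f, hf => by simpa [ExL] using hf _
  | m + 1, f, hf => by
    rw [ExL_succ]
    exact (abs_pr_le_nm _ fun w => abs_Ex_le h0 h1 x m _ fun l => hf _).trans
      (prob_Dq h0 h1 _).nm.le

lemma Ex_sub_le {n : ℕ} {q : ℝ} (h0 : 0 ≤ q) (h1 : q ≤ 1) (x y : Fin n → Bool) :
    ∀ (m : ℕ) (f : (Fin m → List Bool) → ℝ), (∀ l, |f l| ≤ 1) → ExL q x m f - ExL q y m f ≤
      m * nm (Dq q (FreeMonoid.ofList (List.ofFn x)) - Dq q (FreeMonoid.ofList (List.ofFn y)))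
  | 0, f, _ => by
    simp only [ExL, Fintype.sum_unique, Nat.cast_zero, zero_mul, sub_nonpos]
    apply le_of_eq; congr 2; funext j; exact j.elim0
  | m + 1, f, hf => by
    rw [ExL_succ, ExL_succ]
    set δ := nm (Dq q (FreeMonoid.ofList (List.ofFn x)) - Dq q (FreeMonoid.ofList (List.ofFn y)))
      with hδ
    have a := pr_mono (prob_Dq h0 h1 (FreeMonoid.ofList (List.ofFn x))).1
      (ψ := fun w => ExL q x m fun l => f (Fin.cons w.toList l))
      (φ := fun w => m * δ + ExL q y m fun l => f (Fin.cons w.toList l)) fun w => by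
        have := Ex_sub_le h0 h1 x y m (fun l => f (Fin.cons w.toList l)) fun l => hf _
        linarith
    rw [pr_add_fun (fun _ => m * δ), pr_const, (prob_Dq h0 h1 _).2] at a
    have b := abs_pr_le_nm (Dq q (FreeMonoid.ofList (List.ofFn x)) -
      Dq q (FreeMonoid.ofList (List.ofFn y)))
      (ψ := fun w => ExL q y m fun l => f (Fin.cons w.toList l))
      fun w => abs_Ex_le h0 h1 y m _ fun l => hf _
    rw [map_sub] at b
    push_cast
    linarith [le_abs_self (pr (fun w : FreeMonoid Bool => ExL q y m fun l =>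
      f (Fin.cons w.toList l)) (Dq q (FreeMonoid.ofList (List.ofFn x))) -
      pr (fun w : FreeMonoid Bool => ExL q y m fun l => f (Fin.cons w.toList l))
      (Dq q (FreeMonoid.ofList (List.ofFn y))))]

lemma achievable_lower {q : ℝ} (h0 : 0 ≤ q) (h1 : q ≤ 1) {n m : ℕ} (h : Achievable q n m)
    {X Y : FreeMonoid Bool} (hX : X.length = n) (hY : Y.length = n) (hne : X ≠ Y) :
    1 / 3 ≤ m * nm (Dq q X - Dq q Y) := by
  obtain ⟨est, he⟩ := h
  have ex : ∀ Z : FreeMonoid Bool, Z.length = n →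
      ∃ z : Fin n → Bool, FreeMonoid.ofList (List.ofFn z) = Z := by
    intro Z hZ
    subst hZ
    exact ⟨Z.toList.get, congrArg FreeMonoid.ofList (List.ofFn_get Z.toList)⟩
  obtain ⟨x, rfl⟩ := ex X hX
  obtain ⟨y, rfl⟩ := ex Y hY
  have hxy : x ≠ y := fun h => hne (by rw [h])
  have s2 : ∀ l, (est l x).toReal + (est l y).toReal ≤ 1 := by
    intro l
    have a : est l x + est l y ≤ 1 := by
      rw [← (est l).tsum_coe, ← Finset.sum_pair hxy]
      exact ENNReal.sum_le_tsum _
    rw [← ENNReal.toReal_add (PMF.apply_ne_top _ _) (PMF.apply_ne_top _ _)]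
    simpa using ENNReal.toReal_mono ENNReal.one_ne_top a
  have a := Ex_sub_le h0 h1 x y m (fun l => (est l x).toReal) fun l => by
    rw [abs_of_nonneg ENNReal.toReal_nonneg]
    linarith [s2 l, ENNReal.toReal_nonneg (a := est l y)]
  have b := abs_Ex_le h0 h1 y m (fun l => (est l x).toReal + (est l y).toReal) fun l => by
    rw [abs_of_nonneg (by positivity)]; exact s2 l
  have c : ExL q y m (fun l => (est l x).toReal + (est l y).toReal) =
      ExL q y m (fun l => (est l x).toReal) + ExL q y m (fun l => (est l y).toReal) := by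
    simp [ExL, mul_add, Finset.sum_add_distrib]
  have d1 : 2 / 3 ≤ ExL q x m (fun l => (est l x).toReal) := he x
  have d2 : 2 / 3 ≤ ExL q y m (fun l => (est l y).toReal) := he y
  linarith [le_abs_self (ExL q y m (fun l => (est l x).toReal + (est l y).toReal))]

lemma exists_achievable {q : ℝ} (h0 : 0 < q) (h1 : q < 1) (n : ℕ) : ∃ m, Achievable q n m := by
  classical
  have hp : 0 < (1 - q) ^ n := pow_pos (by linarith) n
  obtain ⟨m, hm⟩ := exists_pow_lt_of_lt_one (show (0 : ℝ) < 1 / 3 by norm_num)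
    (show 1 - (1 - q) ^ n < 1 by linarith)
  refine ⟨m, fun l => if h : ∃ j, (l j).length = n then
    PMF.pure (fun i => (l h.choose).getD i false) else PMF.pure fun _ => false, fun x => ?_⟩
  have w0 : ∀ k : Fin n → Bool, 0 ≤ maskWt q k := fun k =>
    Finset.prod_nonneg fun i _ => by split_ifs <;> linarith
  have w1 : ∑ k : Fin n → Bool, maskWt q k = 1 := by
    have := sum_mask q n x (fun _ => 1)
    rw [pr_const, (prob_Dq h0.le h1.le _).2] at this
    simpa using this
  have w2 : ∑ k : Fin n → Bool, (if k = fun _ => true then 0 else maskWt q k) =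
      1 - (1 - q) ^ n := by
    have : ∀ k : Fin n → Bool, (if k = fun _ => true then 0 else maskWt q k) =
        maskWt q k - if k = fun _ => true then (1 - q) ^ n else 0 := by
      intro k; split_ifs with h
      · simp [h, maskWt]
      · simp
    simp [this, w1]
  have full : ∀ k : Fin n → Bool, (trace k x).length = n → trace k x = List.ofFn x := by
    intro k hk
    simp only [trace, List.length_map] at hk
    rw [trace, List.filter_eq_self.2 (List.length_filter_eq_length_iff.1 (by simpa using hk)),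
      List.ofFn_eq_map]
  have key : ∀ masks : Fin m → Fin n → Bool, (∏ j, maskWt q (masks j)) -
      ∏ j, (if masks j = fun _ => true then 0 else maskWt q (masks j)) ≤
      (∏ j, maskWt q (masks j)) * ((if h : ∃ j, (trace (masks j) x).length = n then
        PMF.pure (fun i : Fin n => (trace (masks h.choose) x).getD i false)
        else PMF.pure fun _ => false) x).toReal := by
    intro masks
    by_cases hj : ∃ j, masks j = fun _ => true
    · obtain ⟨j, hj⟩ := hj
      have h : ∃ j, (trace (masks j) x).length = n := ⟨j, by simp [hj, trace]⟩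
      rw [dif_pos h, full _ h.choose_spec]
      have : (fun i : Fin n => (List.ofFn x).getD i false) = x := by
        funext i; simp
      rw [this, PMF.pure_apply_self, ENNReal.toReal_one, mul_one, sub_le_self_iff]
      exact Finset.prod_nonneg fun j _ => by split_ifs; exacts [le_rfl, w0 _]
    · push Not at hj
      simp only [hj, ↓reduceIte, sub_self]
      exact mul_nonneg (Finset.prod_nonneg fun j _ => w0 _) ENNReal.toReal_nonneg
  refine le_trans ?_ (Finset.sum_le_sum fun masks _ => key masks)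
  rw [Finset.sum_sub_distrib, ← Fintype.sum_pow, ← Fintype.sum_pow
    (fun k : Fin n → Bool => if k = fun _ => true then 0 else maskWt q k), w1, w2, one_pow]
  linarith

set_option maxHeartbeats 2000000 in
theorem lower_bound {q : ℝ} (h0 : 0 < q) (h1 : q < 1) : ∃ N : ℕ, ∀ n ≥ N, ∀ m,
    Achievable q n m → (n : ℝ) ^ (1 / 2560 * Real.log (Real.log n)) ≤ m := by
  obtain ⟨t0, ht0⟩ := pair h0 h1
  obtain ⟨C, hC⟩ : ∃ C, C = (19 + t0) * 1010 ^ 2 := ⟨_, rfl⟩
  have hC0 : 1000 ≤ C := by rw [hC]; nlinarith [Nat.zero_le t0]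
  refine ⟨2 ^ (C * 32 ^ (C + 4)), fun n hn m hm => ?_⟩
  have hn0 : n ≠ 0 := by have : 0 < 2 ^ (C * 32 ^ (C + 4)) := by positivity
                         omega
  set l := Nat.log 2 n with hl
  have l1 : 2 ^ l ≤ n := Nat.pow_log_le_self 2 hn0
  have l2 : n < 2 ^ (l + 1) := Nat.lt_pow_succ_log_self (by norm_num) n
  have l3 : C * 32 ^ (C + 4) ≤ l := Nat.le_log_of_pow_le (by norm_num) hn
  have l4 : 32 ^ (C + 4) ≤ l / C := (Nat.le_div_iff_mul_le (by omega)).2 (by rwa [mul_comm])
  set k := Nat.log 32 (l / C) with hk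
  have k1 : C + 4 ≤ k := Nat.le_log_of_pow_le (by norm_num) l4
  have k2 : 32 ^ k ≤ l / C := Nat.pow_log_le_self 32 (by
    have : 0 < 32 ^ (C + 4) := by positivity
    omega)
  have k3 : l / C < 32 ^ (k + 1) := Nat.lt_pow_succ_log_self (by norm_num) _
  have k4 : l + 1 ≤ C * 32 ^ (k + 1) := by
    have := (Nat.div_lt_iff_lt_mul (by omega)).1 k3
    rw [mul_comm]; omega
  have k5 : C * 32 ^ k ≤ l := (Nat.mul_le_mul_left C k2).trans (Nat.mul_div_le l C)
  set E := EE k with hE
  have E1 : 1000 * (k + 1) ≤ E := EE_ge k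
  have E2 : E ≤ 1010 * 4 ^ k := le_trans (by omega) (EE_le k)
  have k6 : (4 * k + 15 + t0) * E * E ≤ l := by
    have a : k < 2 ^ k := Nat.lt_two_pow_self
    calc (4 * k + 15 + t0) * E * E ≤ ((19 + t0) * 2 ^ k) * (1010 * 4 ^ k) * (1010 * 4 ^ k) :=
        Nat.mul_le_mul (Nat.mul_le_mul (by nlinarith) E2) E2
      _ = C * 32 ^ k := by
        rw [hC, show (32 : ℕ) = 2 * 4 * 4 by norm_num, mul_pow, mul_pow]; ring
      _ ≤ l := k5
  set t := l / E with ht
  have t1 : (4 * k + 15 + t0) * E ≤ t := (Nat.le_div_iff_mul_le (by omega)).2 k6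
  have t2 : t * E ≤ l := Nat.div_mul_le_self l E
  have t3 : l < t * E + E := by
    have := Nat.lt_mul_div_succ l (show 0 < E by omega)
    rw [← ht] at this; linarith
  have t4 : 1 ≤ t := le_trans (by nlinarith) t1
  have t5 : l ≤ 2 * (t * E) := by nlinarith
  obtain ⟨X, Y, F, x1, x2, x3, x4, x5⟩ := ht0 t (le_trans (by nlinarith) t1) k
    (le_trans (by nlinarith) t1) n ((Nat.pow_le_pow_right (by norm_num) t2).trans l1)
  have a := (achievable_lower h0.le h1.le hm x1 x2 x3).trans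
    (mul_le_mul_of_nonneg_left x5 (Nat.cast_nonneg m))
  have b : l * k ≤ 128 * (t * F) := by
    calc l * k ≤ 2 * (t * E) * k := Nat.mul_le_mul_right _ t5
      _ = 2 * t * (k * E) := by ring
      _ ≤ 2 * t * (64 * F) := Nat.mul_le_mul_left _ x4
      _ = _ := by ring
  have lk : 768 ≤ l * k := by
    have : 1 ≤ 32 ^ k := Nat.one_le_pow _ _ (by norm_num)
    have : C ≤ l := le_trans (by nlinarith) k5
    nlinarith
  have lg2 := Real.log_pos (show (1 : ℝ) < 2 by norm_num)
  have lg2' : Real.log 2 ≤ 1 := by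
    have := Real.log_le_sub_one_of_pos (show (0 : ℝ) < 2 by norm_num); linarith
  have hn1 : (1 : ℝ) < n := by
    have : 2 ^ 1 ≤ 2 ^ l := Nat.pow_le_pow_right (by norm_num) (by nlinarith)
    exact_mod_cast (by omega : 1 < n)
  have ln0 := Real.log_pos hn1
  have ln1 : Real.log n ≤ (l + 1 : ℕ) * Real.log 2 := by
    rw [← Real.log_pow]
    exact Real.log_le_log (by linarith) (by exact_mod_cast l2.le)
  have hl1 : (1 : ℝ) ≤ l := by exact_mod_cast (by nlinarith : 1 ≤ l)
  have ln2 : Real.log n ≤ 2 * l * Real.log 2 := by push_cast at ln1; nlinarith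
  have ln3 : Real.log (Real.log n) ≤ 5 * k := by
    have c1 : Real.log n ≤ C * 32 ^ (k + 1) := by
      have : ((l + 1 : ℕ) : ℝ) ≤ C * 32 ^ (k + 1) := by exact_mod_cast k4
      nlinarith [Nat.cast_nonneg (α := ℝ) (l + 1)]
    have hC' : (0 : ℝ) < C := by exact_mod_cast (by omega : 0 < C)
    have c2 := Real.log_le_log ln0 c1
    rw [Real.log_mul hC'.ne' (by positivity), Real.log_pow,
      show (32 : ℝ) = 2 ^ 5 by norm_num, Real.log_pow] at c2
    have c3 := Real.log_le_sub_one_of_pos hC'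
    have c4 : (C : ℝ) + 4 ≤ k := by exact_mod_cast k1
    have c5 := Real.log_two_lt_d9
    have c6 : (0 : ℝ) ≤ k := Nat.cast_nonneg _
    push_cast at c2
    nlinarith
  have b' : (l : ℝ) * k ≤ 128 * (t * F : ℕ) := by exact_mod_cast b
  have lk' : (768 : ℝ) ≤ l * k := by exact_mod_cast lk
  have fin : Real.log n * (1 / 2560 * Real.log (Real.log n)) ≤
      (((t * F : ℕ) : ℝ) - 3) * Real.log 2 := by
    have hk0 : (0 : ℝ) ≤ k := Nat.cast_nonneg _
    calc Real.log n * (1 / 2560 * Real.log (Real.log n)) ≤ Real.log n * (1 / 2560 * (5 * k)) := by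
          gcongr
      _ ≤ (2 * l * Real.log 2) * (1 / 2560 * (5 * k)) := by gcongr
      _ = (l * k / 256) * Real.log 2 := by ring
      _ ≤ _ := by gcongr; linarith
  rw [Real.rpow_def_of_pos (by linarith)]
  refine (Real.exp_le_exp.2 fin).trans ?_
  rw [sub_mul, Real.exp_sub, Real.exp_nat_mul, Real.exp_log (by norm_num),
    show (3 : ℝ) = (3 : ℕ) by norm_num, Real.exp_nat_mul, Real.exp_log (by norm_num)]
  rw [← mul_div_assoc, le_div_iff₀ (by positivity)] at a
  have : (0 : ℝ) < 2 ^ (t * F) := by positivity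
  rw [div_le_iff₀ (by positivity)]
  nlinarith [Nat.cast_nonneg (α := ℝ) m]

end Vale.Agent.P321
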