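import Vale.Agent.P321.LowInv

namespace Vale.Agent.P321

open Finset

abbrev NN := Multiplicative ℕ

section gen
variable {G : Type*} [Monoid G]

lemma coeff_eq_pr [DecidableEq G] (F : Al G) (j : G) :
    F.coeff j = pr (fun w => if w = j then 1 else 0) F := by
  induction F using MonoidAlgebra.induction_linear with
  | zero => simp
  | add F F' h h' => simp [h, h']
  | single u a => simp [Finsupp.single_apply]

lemma pr_swap {G' : Type*} [Monoid G'] (ψ : G → G' → ℝ) (F : Al G) (H : Al G') :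
    pr (fun u => pr (fun v => ψ u v) H) F = pr (fun v => pr (fun u => ψ u v) F) H := by
  simp only [pr_def, Finset.mul_sum]
  rw [Finset.sum_comm]
  exact Finset.sum_congr rfl fun _ _ => Finset.sum_congr rfl fun _ _ => by ring

end gen

noncomputable def XX : Al NN := MonoidAlgebra.single (Multiplicative.ofAdd 1) 1

noncomputable def bern (x : ℝ) : Al NN := (1 - x) • 1 + x • XX

lemma prob_XX : Prob XX := ⟨Pos.single _ zero_le_one, by simp [XX]⟩

lemma prob_bern {x : ℝ} (h0 : 0 ≤ x) (h1 : x ≤ 1) : Prob (bern x) :=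
  ⟨(Pos.one.smul (by linarith)).add (prob_XX.1.smul h0), by simp [bern, prob_XX.2]⟩

lemma pr_bern (ψ : NN → ℝ) (x : ℝ) :
    pr ψ (bern x) = (1 - x) * ψ 1 + x * ψ (Multiplicative.ofAdd 1) := by
  simp [bern, XX, pr_one]

/-- the real value of an index -/
def val (j : NN) : ℝ := (Multiplicative.toAdd j : ℕ)

@[simp] lemma val_one : val 1 = 0 := by simp [val]
@[simp] lemma val_mul (a b : NN) : val (a * b) = val a + val b := by simp [val]
@[simp] lemma val_ofAdd (n : ℕ) : val (Multiplicative.ofAdd n) = n := by simp [val]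

def Mom (π : Al NN) (μ V : ℝ) : Prop :=
  Prob π ∧ pr val π = μ ∧ pr (fun j => (val j - μ) ^ 2) π ≤ V

lemma Mom.mono {π : Al NN} {μ V V' : ℝ} (h : Mom π μ V) (hV : V ≤ V') : Mom π μ V' :=
  ⟨h.1, h.2.1, h.2.2.trans hV⟩

lemma Mom.centered {π : Al NN} {μ V : ℝ} (h : Mom π μ V) : pr (fun j => val j - μ) π = 0 := by
  have := pr_add_fun val (fun _ => -μ) π
  rw [pr_const, h.1.2, h.2.1] at this
  simpa [sub_eq_add_neg] using this

lemma Mom.mul {π π' : Al NN} {μ V μ' V' : ℝ} (h : Mom π μ V) (h' : Mom π' μ' V') :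
    Mom (π * π') (μ + μ') (V + V') := by
  refine ⟨h.1.mul h'.1, ?_, ?_⟩
  · rw [pr_mul]
    have : (fun u => pr (fun v => val (u * v)) π') = fun u => val u + μ' := by
      funext u
      simp only [val_mul]
      rw [pr_add_fun (fun _ => val u) val, pr_const, h'.1.2, h'.2.1, mul_one]
    rw [this, pr_add_fun val (fun _ => μ'), pr_const, h.1.2, h.2.1, mul_one]
  · rw [pr_mul]
    have : (fun u => pr (fun v => (val (u * v) - (μ + μ')) ^ 2) π') =
        fun u => (val u - μ) ^ 2 + pr (fun j => (val j - μ') ^ 2) π' := by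
      funext u
      have e : (fun v => (val (u * v) - (μ + μ')) ^ 2) = fun v => (val u - μ) ^ 2 +
          ((2 * (val u - μ)) * (val v - μ') + (val v - μ') ^ 2) := by
        funext v; simp only [val_mul]; ring
      rw [e, pr_add_fun (fun _ => (val u - μ) ^ 2), pr_add_fun, pr_mul_fun, h'.centered, pr_const,
        h'.1.2]
      ring
    rw [this, pr_add_fun (fun u => (val u - μ) ^ 2) (fun _ => _), pr_const, h.1.2, mul_one]
    exact add_le_add h.2.2 h'.2.2

lemma mom_one : Mom 1 0 0 := ⟨Prob.one, by simp [pr_one], by simp [pr_one]⟩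

lemma mom_bern {x : ℝ} (h0 : 0 ≤ x) (h1 : x ≤ 1) : Mom (bern x) x 1 := by
  refine ⟨prob_bern h0 h1, by simp [pr_bern], ?_⟩
  rw [pr_bern]
  simp only [val_one, val_ofAdd, Nat.cast_one]
  nlinarith [mul_nonneg h0 (sub_nonneg.2 h1)]

lemma mom_bern_pow {x : ℝ} (h0 : 0 ≤ x) (h1 : x ≤ 1) :
    ∀ k : ℕ, Mom (bern x ^ k) (k * x) k
  | 0 => by simpa using mom_one
  | k + 1 => by
    have := (mom_bern_pow h0 h1 k).mul (mom_bern h0 h1)
    rw [pow_succ]; push_cast
    rwa [add_mul, one_mul]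

def Sup (π : Al NN) (s : ℝ) : Prop := ∀ j, π.coeff j ≤ s

lemma Sup.mono {π : Al NN} {s s' : ℝ} (h : Sup π s) (hs : s ≤ s') : Sup π s' :=
  fun j => (h j).trans hs

lemma Sup.ind {π : Al NN} {s : ℝ} (h : Sup π s) (hp : Pos π) (u j : NN) :
    pr (fun v => if u * v = j then 1 else 0) π ≤ s := by
  by_cases hx : ∃ v0, u * v0 = j
  · obtain ⟨v0, rfl⟩ := hx
    simp only [mul_right_inj]
    rw [← coeff_eq_pr]; exact h v0
  · push Not at hx
    simp only [hx, ↓reduceIte]
    rw [pr_const, zero_mul]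
    exact (hp 1).trans (h 1)

lemma Sup.mul_left {π π' : Al NN} {s : ℝ} (h : Sup π s) (hp : Pos π) (h' : Prob π') :
    Sup (π' * π) s := by
  intro j
  rw [coeff_eq_pr, pr_mul]
  refine (pr_mono h'.1 (φ := fun _ => s) fun u => h.ind hp u j).trans ?_
  rw [pr_const, h'.2, mul_one]

lemma Sup.mul_right {π π' : Al NN} {s : ℝ} (h : Sup π s) (hp : Pos π) (h' : Prob π') :
    Sup (π * π') s := by
  rw [mul_comm]; exact h.mul_left hp h'

lemma wsup {π π' : Al NN} {μ V μ' V' s : ℝ} (h : Mom π μ V) (h' : Mom π' μ' V') (hs : Sup π s)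
    (hs' : Sup π' s) (j : NN) :
    (val j - (μ + μ')) ^ 2 * (π * π').coeff j ≤ 2 * (V + V') * s := by
  have hs0 : 0 ≤ s := (h.1.1 1).trans (hs 1)
  rw [coeff_eq_pr, ← pr_mul_fun, pr_mul]
  have a1 : pr (fun u => pr (fun v => 2 * (val u - μ) ^ 2 * if u * v = j then 1 else 0) π') π ≤
      2 * V * s := by
    refine (pr_mono h.1.1 (φ := fun u => 2 * s * (val u - μ) ^ 2) fun u => ?_).trans ?_
    · rw [pr_mul_fun]
      nlinarith [hs'.ind h'.1.1 u j, sq_nonneg (val u - μ)]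
    · rw [pr_mul_fun]; nlinarith [h.2.2]
  have a2 : pr (fun u => pr (fun v => 2 * (val v - μ') ^ 2 * if u * v = j then 1 else 0) π') π ≤
      2 * V' * s := by
    rw [pr_swap]
    refine (pr_mono h'.1.1 (φ := fun u => 2 * s * (val u - μ') ^ 2) fun u => ?_).trans ?_
    · rw [pr_mul_fun]
      have := hs.ind h.1.1 u j
      simp only [mul_comm u] at this
      nlinarith [sq_nonneg (val u - μ')]
    · rw [pr_mul_fun]; nlinarith [h'.2.2]
  refine le_trans ?_ ((add_le_add a1 a2).trans (le_of_eq (by ring)))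
  rw [← pr_add_fun]
  refine pr_mono h.1.1 fun u => ?_
  rw [← pr_add_fun]
  refine pr_mono h'.1.1 fun v => ?_
  split_ifs with hc
  · rw [← hc, val_mul]
    nlinarith [sq_nonneg (val u - μ - (val v - μ'))]
  · simp

lemma inv_bern {r : ℝ} (h0 : 0 ≤ r) (h1 : r ≤ 1) {c : ℕ} (hc : 1 ≤ c * (1 - r)) :
    Inv (bern r) c := by
  have := inv_of_common (prob_bern h0 h1) (n0 := 0) (c := c) (κ := (1 - r) • 1)
    (Pos.one.smul (by linarith))
    (by
      have : (bern r) ^ 0 - (1 - r) • (1 : Al NN) = r • 1 := by rw [pow_zero]; module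
      rw [this]; exact Pos.one.smul h0)
    (by
      have : (bern r) ^ (0 + 1) - (1 - r) • (1 : Al NN) = r • XX := by
        rw [zero_add, pow_one, bern]; module
      rw [this]; exact prob_XX.1.smul h0)
    (by simpa using hc)
  simpa using this

lemma coeff_le_diff (π : Al NN) (j : NN) : π.coeff j ≤ nm (XX * π - π) := by
  have := abs_pr_le_nm (XX * π - π) (ψ := fun i => if val i ≤ val j then 1 else 0)
    (fun w => by split_ifs <;> simp)
  refine le_trans (le_of_eq ?_) ((neg_le_abs _).trans this)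
  rw [map_sub, pr_mul, XX, pr_single, one_mul, neg_sub, coeff_eq_pr, sub_eq_add_neg,
    ← neg_one_mul, ← pr_mul_fun, ← pr_add_fun]
  congr 2
  funext v
  simp only [val_mul, val_ofAdd, Nat.cast_one]
  have e1 : val v ≤ val j ↔ v.toAdd ≤ j.toAdd := by simp [val]
  have e2 : 1 + val v ≤ val j ↔ 1 + v.toAdd ≤ j.toAdd := by
    simp only [val]; exact_mod_cast Iff.rfl
  have e3 : v = j ↔ v.toAdd = j.toAdd := by simp
  simp only [e1, e2, e3]
  split_ifs <;> first | omega | simp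

lemma sup_bern {r : ℝ} (h0 : 0 < r) (h1 : r ≤ 1) {c : ℕ} (hc : 1 ≤ c * (1 - r)) :
    ∃ C0 : ℝ, 1 ≤ C0 ∧ ∀ k : ℕ, 1 ≤ k → Sup (bern r ^ k) (C0 / √k) := by
  have hc1 : 1 ≤ c := by
    rcases Nat.eq_zero_or_pos c with rfl | h
    · simp at hc; linarith
    · exact h
  have hc1' : (1 : ℝ) ≤ √c := Real.one_le_sqrt.2 (by exact_mod_cast hc1)
  have h8 : √c ≤ 8 * √c / r := by rw [le_div_iff₀ h0]; nlinarith
  refine ⟨8 * √c / r, by linarith, fun k hk j => ?_⟩
  have hk0 : 0 < √(k : ℝ) := Real.sqrt_pos.2 (by exact_mod_cast hk)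
  have hp := (prob_bern h0.le h1).pow k
  rcases Nat.lt_or_ge k c with hlt | hge
  · have := hp.1.coeff_le_mass j
    rw [hp.2] at this
    refine this.trans ?_
    rw [le_div_iff₀ hk0, one_mul]
    exact (Real.sqrt_le_sqrt (by exact_mod_cast hlt.le)).trans h8
  · set H := Nat.sqrt (k / c) with hH
    have hH1 : 1 ≤ H := Nat.sqrt_pos.2 (Nat.div_pos hge hc1)
    have hH2 : c * H ^ 2 ≤ k :=
      (Nat.mul_le_mul_left c (Nat.sqrt_le' _)).trans (Nat.mul_div_le k c)
    have hH3 : k ≤ c * (2 * H) ^ 2 := by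
      have a := Nat.lt_succ_sqrt' (k / c)
      have b := Nat.lt_mul_div_succ k (show 0 < c by omega)
      rw [← hH] at a
      have : k / c + 1 ≤ (2 * H) ^ 2 := by
        have : (H + 1) ^ 2 ≤ (2 * H) ^ 2 := Nat.pow_le_pow_left (by omega) 2
        simp only [Nat.succ_eq_add_one] at a
        omega
      exact b.le.trans (Nat.mul_le_mul_left c this)
    have hH0 : (0 : ℝ) < H := by exact_mod_cast hH1
    have a := inv_bern h0.le h1 hc H 1 k hH1 hH2
    have e : XX * bern r ^ k - bern r ^ k = (1 / r) • (bern r ^ (k + 1) - bern r ^ k) := by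
      have : bern r ^ (k + 1) - bern r ^ k = r • (XX * bern r ^ k - bern r ^ k) := by
        rw [pow_succ']
        nth_rewrite 1 [bern]
        simp only [add_mul, smul_mul_assoc, one_mul]; module
      rw [this, smul_smul, one_div_mul_cancel h0.ne', one_smul]
    have b := coeff_le_diff (bern r ^ k) j
    rw [e] at b
    refine (b.trans (nm_smul_le _ _)).trans ?_
    rw [abs_of_pos (by positivity)]
    have s : √(k : ℝ) ≤ √c * (2 * H) := by
      rw [← Real.sqrt_sq (show (0 : ℝ) ≤ 2 * H by positivity), ← Real.sqrt_mul (by positivity)]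
      exact Real.sqrt_le_sqrt (by exact_mod_cast hH3)
    calc 1 / r * nm (bern r ^ (k + 1) - bern r ^ k) ≤ 1 / r * (4 * ((1 : ℕ) : ℝ) / H) := by gcongr
      _ = 8 * √c / r / (√c * (2 * H)) := by push_cast; field_simp; norm_num
      _ ≤ _ := by gcongr

/-- coincidence probability -/
noncomputable def ipN (π π' : Al NN) : ℝ := pr (fun j => π'.coeff j) π

lemma ipN_comm (π π' : Al NN) : ipN π π' = ipN π' π := by
  unfold ipN
  rw [pr_eq_sum _ π (π.coeff.support ∪ π'.coeff.support) Finset.subset_union_left,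
    pr_eq_sum _ π' (π.coeff.support ∪ π'.coeff.support) Finset.subset_union_right]
  exact Finset.sum_congr rfl fun _ _ => mul_comm _ _

lemma ipN_nonneg {π π' : Al NN} (h : Pos π) (h' : Pos π') : 0 ≤ ipN π π' := pr_nonneg h h'

lemma ipN_le {π π' : Al NN} {s : ℝ} (h : Prob π) (h' : Sup π' s) : ipN π π' ≤ s := by
  refine (pr_mono h.1 (φ := fun _ => s) h').trans ?_
  rw [pr_const, h.2, mul_one]

lemma ipN_far {π π' : Al NN} {μ μ' V s W : ℝ} (h : Mom π μ V) (hp : Pos π') (h' : Sup π' s)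
    (hw : ∀ j, (val j - μ') ^ 2 * π'.coeff j ≤ W) :
    (μ - μ') ^ 2 * ipN π π' ≤ 2 * W + 2 * s * V := by
  have hs0 : 0 ≤ s := (hp 1).trans (h' 1)
  rw [ipN, ← pr_mul_fun]
  refine (pr_mono h.1.1 (φ := fun j => 2 * W + 2 * s * (val j - μ) ^ 2) fun j => ?_).trans ?_
  · have a := hw j
    have b := mul_le_mul_of_nonneg_left (h' j) (sq_nonneg (val j - μ))
    have c := mul_nonneg (sq_nonneg (val j - μ' + (val j - μ))) (hp j)
    nlinarith
  · rw [pr_add_fun (fun _ => 2 * W), pr_const, pr_mul_fun, h.1.2]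
    nlinarith [h.2.2]

lemma sum_inv_sq (n t : ℕ) (ht : t < n) :
    ∑ t' ∈ range n, (if t' = t then (0 : ℝ) else 1 / ((t' : ℝ) - t) ^ 2) ≤ 4 := by
  have key : ∀ t' ∈ range n, (if t' = t then (0 : ℝ) else 1 / ((t' : ℝ) - t) ^ 2) ≤
      (-1 / (((t' + 1 : ℕ) : ℝ) - t - 1 / 2) - -1 / ((t' : ℝ) - t - 1 / 2)) +
        (if t' = t then 4 else 0) := by
    intro t' _
    push_cast
    split_ifs with h
    · subst h; norm_num
    · have hd : 1 ≤ ((t' : ℝ) - t) ^ 2 := by
        have : (1 : ℤ) ≤ ((t' : ℤ) - t) ^ 2 := by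
          have : (t' : ℤ) - t ≠ 0 := by omega
          have h2 : (0 : ℤ) < ((t' : ℤ) - t) ^ 2 := by positivity
          omega
        exact_mod_cast this
      have a : (t' : ℝ) + 1 - t - 1 / 2 ≠ 0 := by intro h0; nlinarith
      have b : (t' : ℝ) - t - 1 / 2 ≠ 0 := by intro h0; nlinarith
      have e : -1 / ((t' : ℝ) + 1 - t - 1 / 2) - -1 / ((t' : ℝ) - t - 1 / 2) =
          1 / (((t' : ℝ) - t) ^ 2 - 1 / 4) := by
        rw [div_sub_div _ _ a b, div_eq_div_iff (mul_ne_zero a b) (by linarith)]; ring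
      rw [e, add_zero]
      exact one_div_le_one_div_of_le (by linarith) (by linarith)
  refine (Finset.sum_le_sum key).trans ?_
  rw [Finset.sum_add_distrib, Finset.sum_range_sub (fun t' : ℕ => -1 / ((t' : ℝ) - t - 1 / 2)),
    Finset.sum_ite_eq' (range n) t, if_pos (Finset.mem_range.2 ht)]
  have h1 : (t : ℝ) + 1 ≤ n := by exact_mod_cast ht
  have h2 : (0 : ℝ) ≤ t := Nat.cast_nonneg _
  have a : -1 / ((n : ℝ) - t - 1 / 2) ≤ 0 := div_nonpos_of_nonpos_of_nonneg (by norm_num) (by linarith)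
  have b : 0 ≤ -1 / (((0 : ℕ) : ℝ) - t - 1 / 2) :=
    div_nonneg_of_nonpos (by norm_num) (by push_cast; linarith)
  linarith

lemma sum_inv_sqrt {M σ : ℝ} (hM : 0 < M) (hσ : 0 < σ) (s : ℕ) :
    ∑ t ∈ range (s + 1), 1 / √(t * M + σ) ≤ 1 / √σ + 2 * √s / √M := by
  induction s with
  | zero => simp
  | succ s ih =>
    rw [Finset.sum_range_succ]
    have hM' := Real.sqrt_pos.2 hM
    have h1 : 0 < √((s + 1 : ℕ) : ℝ) := Real.sqrt_pos.2 (by positivity)
    have a : 1 / √(((s + 1 : ℕ) : ℝ) * M + σ) ≤ 1 / (√((s + 1 : ℕ) : ℝ) * √M) := by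
      rw [← Real.sqrt_mul (by positivity)]
      exact one_div_le_one_div_of_le (Real.sqrt_pos.2 (by positivity))
        (Real.sqrt_le_sqrt (by linarith))
    have b : 1 / (√((s + 1 : ℕ) : ℝ) * √M) + 2 * √s / √M ≤ 2 * √((s + 1 : ℕ) : ℝ) / √M := by
      have e1 := Real.sq_sqrt (show (0 : ℝ) ≤ ((s + 1 : ℕ) : ℝ) by positivity)
      have e2 := Real.sq_sqrt (show (0 : ℝ) ≤ s by positivity)
      have : 1 / √((s + 1 : ℕ) : ℝ) + 2 * √s ≤ 2 * √((s + 1 : ℕ) : ℝ) := by
        rw [div_add' _ _ _ h1.ne', div_le_iff₀ h1]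
        push_cast at *
        nlinarith [sq_nonneg (√((s : ℝ) + 1) - √s)]
      calc 1 / (√((s + 1 : ℕ) : ℝ) * √M) + 2 * √s / √M
          = (1 / √((s + 1 : ℕ) : ℝ) + 2 * √s) / √M := by field_simp
        _ ≤ _ := by gcongr
    linarith

lemma conv_sqrt {M σ x : ℝ} (hM : 0 < M) (hσ : 0 < σ) (hx : σ ≤ x) (s : ℕ) :
    ∑ t ∈ range (s + 1), 1 / √(t * M + x) * (1 / √(((s - t : ℕ) : ℝ) * M + σ)) ≤
      (2 / √σ + 4 * √s / √M) / √(s * M + x + σ) := by
  have hx0 : 0 < x := by linarith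
  have hD : 0 < √(s * M + x + σ) := Real.sqrt_pos.2 (by positivity)
  have key : ∀ t ∈ range (s + 1), 1 / √(t * M + x) * (1 / √(((s - t : ℕ) : ℝ) * M + σ)) ≤
      (1 / √(t * M + σ) + 1 / √(((s - t : ℕ) : ℝ) * M + σ)) / √(s * M + x + σ) := by
    intro t ht
    have ht := Finset.mem_range.1 ht
    have hA : 0 < (t : ℝ) * M + x := by positivity
    have hB : 0 < ((s - t : ℕ) : ℝ) * M + σ := by positivity
    have hA' := Real.sqrt_pos.2 hA
    have hB' := Real.sqrt_pos.2 hB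
    have e : (s : ℝ) * M + x + σ = (t * M + x) + (((s - t : ℕ) : ℝ) * M + σ) := by
      rw [Nat.cast_sub (by omega)]; ring
    have a : √(s * M + x + σ) ≤ √(t * M + x) + √(((s - t : ℕ) : ℝ) * M + σ) := by
      rw [e, Real.sqrt_le_left (by positivity)]
      nlinarith [Real.sq_sqrt hA.le, Real.sq_sqrt hB.le, mul_pos hA' hB']
    have b : 1 / √(t * M + x) ≤ 1 / √(t * M + σ) :=
      one_div_le_one_div_of_le (Real.sqrt_pos.2 (by positivity)) (Real.sqrt_le_sqrt (by linarith))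
    rw [le_div_iff₀ hD]
    calc 1 / √(t * M + x) * (1 / √(((s - t : ℕ) : ℝ) * M + σ)) * √(s * M + x + σ)
        ≤ 1 / √(t * M + x) * (1 / √(((s - t : ℕ) : ℝ) * M + σ)) *
          (√(t * M + x) + √(((s - t : ℕ) : ℝ) * M + σ)) := by gcongr
      _ = 1 / √(t * M + x) + 1 / √(((s - t : ℕ) : ℝ) * M + σ) := by field_simp; ring
      _ ≤ _ := by linarith
  refine (Finset.sum_le_sum key).trans ?_
  rw [← Finset.sum_div, Finset.sum_add_distrib]
  have r := Finset.sum_range_reflect (fun t : ℕ => 1 / √(t * M + σ)) (s + 1)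
  simp only [add_tsub_cancel_right] at r
  rw [r]
  have := sum_inv_sqrt hM hσ s
  refine div_le_div_of_nonneg_right ?_ hD.le
  have e : 2 / √σ + 4 * √s / √M = 2 * (1 / √σ + 2 * √s / √M) := by ring
  linarith

end Vale.Agent.P321
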