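import Vale.Agent.P321.LowInv

namespace Vale.Agent.P321

open Finset

/-- concatenation of `m` blocks, the `i`-th being `X` or `Y` according to `f i` -/
def pat {M : Type*} [Monoid M] (X Y : M) : (ℕ → Bool) → ℕ → M
  | _, 0 => 1
  | f, m + 1 => (if f 0 then X else Y) * pat X Y (fun i => f (i + 1)) m

lemma map_pat {M M' : Type*} [Monoid M] [Monoid M'] (φ : M →* M') (X Y : M) :
    ∀ (m : ℕ) (f : ℕ → Bool), φ (pat X Y f m) = pat (φ X) (φ Y) f m
  | 0, _ => by simp [pat]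
  | m + 1, f => by
    simp only [pat, map_mul, map_pat φ X Y m]
    split_ifs <;> rfl

lemma pat_true {M : Type*} [Monoid M] (X Y : M) :
    ∀ m : ℕ, pat X Y (fun _ => true) m = X ^ m
  | 0 => by simp [pat]
  | m + 1 => by simp [pat, pat_true X Y m, pow_succ']

lemma length_pow {α : Type*} (Y : FreeMonoid α) : ∀ m : ℕ, (Y ^ m).length = m * Y.length
  | 0 => by simp
  | m + 1 => by rw [pow_succ, FreeMonoid.length_mul, length_pow Y m]; ring

lemma length_pat {α : Type*} {X Y : FreeMonoid α} (h : X.length = Y.length) :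
    ∀ (m : ℕ) (f : ℕ → Bool), (pat X Y f m).length = m * Y.length
  | 0, _ => by simp [pat]
  | m + 1, f => by
    simp only [pat, FreeMonoid.length_mul, length_pat h m]
    split_ifs
    · rw [h]; ring
    · ring

lemma fm_cancel {α : Type*} {a b c d : FreeMonoid α} (h : a * b = c * d)
    (hl : a.length = c.length) : a = c ∧ b = d := by
  have h' : a.toList ++ b.toList = c.toList ++ d.toList := by
    rw [← FreeMonoid.toList_mul, ← FreeMonoid.toList_mul, h]
  have := List.append_inj h' hl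
  exact ⟨FreeMonoid.toList.injective this.1, FreeMonoid.toList.injective this.2⟩

lemma pat_inj {α : Type*} {X Y : FreeMonoid α} (h : X.length = Y.length) (hne : X ≠ Y) :
    ∀ (m : ℕ) (f g : ℕ → Bool), pat X Y f m = pat X Y g m → ∀ i < m, f i = g i
  | 0, _, _ => by simp
  | m + 1, f, g => by
    intro he i hi
    simp only [pat] at he
    obtain ⟨h1, h2⟩ := fm_cancel he (by split_ifs <;> simp [h])
    rcases i with _ | i
    · cases hf : f 0 <;> cases hg : g 0 <;> simp_all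
    · exact pat_inj h hne m _ _ h2 i (by omega)

variable {G : Type*} [Monoid G]

lemma prob_pat {x ν : Al G} (hx : Prob x) (hν : Prob ν) :
    ∀ (m : ℕ) (f : ℕ → Bool), Prob (pat x ν f m)
  | 0, _ => Prob.one
  | m + 1, f => by
    simp only [pat]
    refine Prob.mul ?_ (prob_pat hx hν m _)
    split_ifs <;> assumption

lemma pat_close {x ν : Al G} (hx : Prob x) (hν : Prob ν) {ε ρ : ℝ} (hε : 0 ≤ ε)
    (h : Dom (x - ν) (ε • ν) ρ) : ∀ (m : ℕ) (f : ℕ → Bool), 2 * m * ε ≤ 1 →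
      Dom (pat x ν f m - ν ^ m) ((2 * m * ε) • ν ^ m) (2 * m * ρ)
  | 0, _ => by
    intro _
    simpa [pat] using Dom.refl (G := G) Pos.zero
  | m + 1, f => by
    intro hm
    have hρ := h.rho_nonneg
    push_cast at hm ⊢
    have hm0 : (0 : ℝ) ≤ m := Nat.cast_nonneg _
    have ih := pat_close hx hν hε h m (fun i => f (i + 1)) (by nlinarith)
    set y := (if f 0 then x else ν) with hy
    set Pm := pat x ν (fun i => f (i + 1)) m with hPm
    have hy1 : Dom (y - ν) (ε • ν) ρ := by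
      rw [hy]; split_ifs
      · exact h
      · rw [sub_self]
        exact (Dom.refl Pos.zero).mono (by simpa using hν.1.smul hε) hρ
    have hP : Prob Pm := prob_pat hx hν m _
    obtain ⟨y', hy2, hy3⟩ := hy1.split
    have hP2 : Dom Pm ((2 : ℝ) • ν ^ m) (2 * m * ρ) :=
      Dom.ref_fwd (ih.mono_smul (hν.pow m).1 (by nlinarith) le_rfl)
    have a1 := (Dom.of_le hy2).mul' hP2 hν (hν.pow m)
    have a2 : Dom ((y - ν) * Pm) ((ε * 2) • (ν * ν ^ m))
        (ε * (2 * m * ρ) + 0 * 2 + 0 * (2 * m * ρ) + ρ) := by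
      refine a1.perturb ?_
      rw [← sub_mul]
      exact (hP.nm_mul_right _).trans hy3
    have a3 := a2.add' (ih.prob_left hν)
    have e : pat x ν f (m + 1) - ν ^ (m + 1) = (y - ν) * Pm + ν * (Pm - ν ^ m) := by
      simp only [pat, pow_succ', sub_mul, mul_sub]; abel
    rw [e, pow_succ']
    refine a3.mono_smul (hν.mul (hν.pow m)).1 (by linarith) ?_
    nlinarith [mul_nonneg hε hρ, mul_le_mul_of_nonneg_right hm hρ]

lemma pow_close {x ν : Al G} (hx : Prob x) (hν : Prob ν) {ε ρ : ℝ} (hε : 0 ≤ ε)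
    (h : Dom (x - ν) (ε • ν) ρ) (m : ℕ) (hm : 2 * m * ε ≤ 1) :
    Dom (x ^ m - ν ^ m) ((2 * m * ε) • ν ^ m) (2 * m * ρ) := by
  simpa [pat_true] using pat_close hx hν hε h m (fun _ => true) hm

lemma pat_expand (x ν : Al G) : ∀ (m : ℕ) (f : ℕ → Bool), pat x ν f m = ν ^ m +
    ∑ i ∈ range m, (if f i then 1 else 0 : ℝ) •
      (ν ^ i * (x - ν) * pat x ν (fun l => f (l + (i + 1))) (m - 1 - i))
  | 0, _ => by simp [pat]
  | m + 1, f => by
    rw [Finset.sum_range_succ']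
    have e : pat x ν f (m + 1) = ν * pat x ν (fun i => f (i + 1)) m +
        (if f 0 then 1 else 0 : ℝ) • ((x - ν) * pat x ν (fun i => f (i + 1)) m) := by
      simp only [pat]
      split_ifs
      · simp [sub_mul]
      · simp
    rw [e]
    nth_rewrite 1 [pat_expand x ν m (fun i => f (i + 1))]
    rw [mul_add, ← pow_succ', add_assoc, Finset.mul_sum]
    refine congrArg₂ (· + ·) rfl (congrArg₂ (· + ·) ?_ (by simp))
    refine Finset.sum_congr rfl fun i _ => ?_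
    rw [mul_smul_comm, ← mul_assoc, ← mul_assoc, ← pow_succ',
      show m + 1 - 1 - (i + 1) = m - 1 - i by omega]
    rfl

/-- the difference of two patterns: linear part plus quadratic part -/
lemma pat_diff {x ν : Al G} (hx : Prob x) (hν : Prob ν) {ε ρ : ℝ} (hε : 0 ≤ ε)
    (h : Dom (x - ν) (ε • ν) ρ) (m : ℕ) (hm : 2 * m * ε ≤ 1) (f g : ℕ → Bool) :
    ∃ (W : Bool → ℕ → Al G) (a : Bool → ℕ → ℝ), (∀ b i, |a b i| ≤ 1) ∧
      (∀ b, ∀ i < m, Dom (W b i) ((2 * m * ε) • ν ^ (m - 1 - i)) (2 * m * ρ)) ∧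
      pat x ν f m - pat x ν g m =
        ∑ i ∈ range m, ((if f i then 1 else 0) - (if g i then 1 else 0) : ℝ) •
          (ν ^ i * (x - ν) * ν ^ (m - 1 - i)) +
        ∑ b, ∑ i ∈ range m, a b i • (ν ^ i * (x - ν) * W b i) := by
  have hρ := h.rho_nonneg
  refine ⟨fun b i => pat x ν (fun l => (if b then f else g) (l + (i + 1))) (m - 1 - i) -
    ν ^ (m - 1 - i), fun b i => if b then (if f i then 1 else 0) else -(if g i then 1 else 0),
    ?_, ?_, ?_⟩
  · intro b i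
    cases b <;> simp only [↓reduceIte, Bool.false_eq_true] <;> split_ifs <;> simp
  · intro b i hi
    have hle : ((m - 1 - i : ℕ) : ℝ) ≤ m := by exact_mod_cast (by omega : m - 1 - i ≤ m)
    refine (pat_close hx hν hε h (m - 1 - i) _ (by nlinarith)).mono_smul (hν.pow _).1
      (by nlinarith) (by nlinarith)
  · rw [pat_expand x ν m f, pat_expand x ν m g, add_sub_add_left_eq_sub, Fintype.sum_bool,
      ← Finset.sum_sub_distrib, ← Finset.sum_add_distrib, ← Finset.sum_add_distrib]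
    refine Finset.sum_congr rfl fun i _ => ?_
    simp only [↓reduceIte, Bool.false_eq_true, mul_sub (ν ^ i * (x - ν))]
    module

lemma Dom.mul5 {F B F' B' : Al G} {ρ ρ' ε ε' x : ℝ} (h : Dom F (ε • B) ρ)
    (h' : Dom F' (ε' • B') ρ') (hB : Prob B) (hB' : Prob B') (h1 : ε ≤ 2) (h2 : ε' ≤ 2)
    (h3 : ρ ≤ x) (h4 : ρ' ≤ x) (h5 : x ≤ 1) :
    Dom (F * F') ((ε * ε') • (B * B')) (5 * x) := by
  refine (h.mul' h' hB hB').mono_rho ?_
  have a := h.rho_nonneg
  have b := h'.rho_nonneg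
  nlinarith [mul_le_mul_of_nonneg_right h1 b, mul_le_mul_of_nonneg_left h2 a,
    mul_le_mul_of_nonneg_left (h4.trans h5) a]

/-- averaging with the smoothing weights -/
lemma midavg {μ lam R : Al G} (hμ : Prob μ) (hl : Prob lam) {h ε d ρ : ℝ} {K r : ℕ} (hr : 0 < r)
    (hh : 3 ≤ h) (hK : 6 * K ≤ h) (hτ : Real.exp (-(h ^ 2 / 2)) ≤ ρ)
    (hR : Dom R (ε • μ) ρ) (hm : mass R = 0) (hε0 : 0 < ε) (hε : ρ ≤ ε ∧ ε ≤ 1)
    (hd0 : 0 < d) (hd : d ≤ 1) (w : ℕ → ℝ) (hw : ∀ j, |w j| ≤ h / (r ^ 2 : ℕ)) (V : ℕ → Al G)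
    (hV : ∀ j < K * r ^ 2, Dom (V j) (d • lam) ρ) :
    Dom (∑ j ∈ range (K * r ^ 2), w j • (μ ^ j * R * μ ^ (K * r ^ 2 - 1 - j) * V j))
      ((h ^ 3 * ε * d / r) • (μ ^ (K * r ^ 2) * lam)) (h ^ 3 * ρ) := by
  have hr' : (1 : ℝ) ≤ r := by exact_mod_cast hr
  have hρ := hR.rho_nonneg
  have hh0 : 0 < h := by linarith
  have hK0 : (0 : ℝ) ≤ K := Nat.cast_nonneg _
  have hc : 0 < h / (r ^ 2 : ℕ) := by positivity
  have key := avg hμ hl (σ := h * ε * d * r) (Λ := h) (ρ := ρ) (by positivity) (by linarith)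
    (K * r ^ 2) (fun _ => R) (fun j => (w j / (h / (r ^ 2 : ℕ))) • V j) (fun _ => ε) (fun _ => d)
    (fun _ _ => hR) (fun _ _ => hm)
    (fun j hj => by
      have := (hV j hj).smul (c := w j / (h / (r ^ 2 : ℕ))) (d := 1)
        (by rw [abs_div, abs_of_pos hc, div_le_one hc]; exact hw j)
      simpa using this)
    (fun _ _ => hε) (fun _ _ => ⟨hd0.le, hd⟩)
    (by
      simp only [sum_const, card_range, nsmul_eq_mul]
      push_cast
      have : (K : ℝ) * 4 ≤ h ^ 2 := by nlinarith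
      calc (K : ℝ) * r ^ 2 * (2 * ε * d) ^ 2 = (K * 4) * (ε * d * r) ^ 2 := by ring
        _ ≤ h ^ 2 * (ε * d * r) ^ 2 := by gcongr
        _ = _ := by ring)
  have k2 := key.smul (c := h / (r ^ 2 : ℕ)) (d := h / (r ^ 2 : ℕ)) (abs_of_pos hc).le
  rw [smul_smul, Finset.smul_sum] at k2
  have e1 : ∀ j ∈ range (K * r ^ 2), (h / (r ^ 2 : ℕ)) • (μ ^ j * R * μ ^ (K * r ^ 2 - 1 - j) *
      (w j / (h / (r ^ 2 : ℕ))) • V j) = w j • (μ ^ j * R * μ ^ (K * r ^ 2 - 1 - j) * V j) := by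
    intro j _
    rw [mul_smul_comm, smul_smul, mul_div_cancel₀ _ hc.ne']
  rw [Finset.sum_congr rfl e1] at k2
  refine k2.mono_smul ((hμ.pow _).mul hl).1 (le_of_eq ?_) ?_
  · push_cast; field_simp
  · push_cast
    have b1 : ε * d ≤ 1 := mul_le_one₀ hε.2 hd0.le hd
    have b2 : h / r ^ 2 * (2 * (h * ε * d * r) * Real.exp (-(h ^ 2 / 2))) ≤ 2 * h ^ 2 * ρ := by
      have : h / r ^ 2 * (2 * (h * ε * d * r) * Real.exp (-(h ^ 2 / 2))) =
          2 * h ^ 2 * ((ε * d) * (1 / r) * Real.exp (-(h ^ 2 / 2))) := by field_simp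
      rw [this]
      have : 1 / (r : ℝ) ≤ 1 := by rw [div_le_one (by linarith)]; exact hr'
      have : (ε * d) * (1 / r) * Real.exp (-(h ^ 2 / 2)) ≤ 1 * 1 * ρ := by gcongr
      nlinarith [sq_nonneg h]
    have b3 : h / r ^ 2 * (K * r ^ 2 * (6 * ρ)) ≤ h ^ 2 * ρ := by
      have : h / r ^ 2 * (K * r ^ 2 * (6 * ρ)) = h * (6 * K) * ρ := by field_simp
      rw [this, sq h]; gcongr
    have b4 : 3 * h ^ 2 * ρ ≤ h ^ 3 * ρ := by
      have : 3 * h ^ 2 ≤ h ^ 3 := by nlinarith [sq_nonneg h]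
      gcongr
    rw [mul_add]; linarith

end Vale.Agent.P321
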