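import Vale.Agent.P321.LowGain

namespace Vale.Agent.P321

open Finset

variable {G : Type*} [Monoid G]

lemma pw {h C : ℝ} (hh : 1 ≤ h) (hC : C ≤ h) {a b c : ℕ} (habc : a + 1 + c ≤ b) :
    C * h ^ a * (1 / h) ^ b ≤ (1 / h) ^ c := by
  have h0 : 0 < h := by linarith
  have hu : 1 / h ≤ 1 := by rw [div_le_one h0]; exact hh
  calc C * h ^ a * (1 / h) ^ b ≤ h * h ^ a * (1 / h) ^ (a + 1 + c) := by
        have := pow_le_pow_of_le_one (by positivity) hu habc
        have p : 0 ≤ h ^ a * (1 / h) ^ b := by positivity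
        calc C * h ^ a * (1 / h) ^ b = C * (h ^ a * (1 / h) ^ b) := by ring
          _ ≤ h * (h ^ a * (1 / h) ^ b) := by gcongr
          _ ≤ h * (h ^ a * (1 / h) ^ (a + 1 + c)) := by gcongr
          _ = _ := by ring
    _ = (1 / h) ^ c := by
        rw [pow_add, pow_add, one_div_pow h a]; field_simp

lemma pw0 {h C : ℝ} (hh : 1 ≤ h) (hC : C ≤ h) {a b : ℕ} (habc : a + 1 ≤ b) :
    C * h ^ a * (1 / h) ^ b ≤ 1 := by
  simpa using pw hh hC (c := 0) habc

lemma umono {h : ℝ} (hh : 1 ≤ h) {a b : ℕ} (hab : a ≤ b) : (1 / h) ^ b ≤ (1 / h) ^ a :=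
  pow_le_pow_of_le_one (by positivity) (by rw [div_le_one (by linarith)]; exact hh) hab

lemma sq_le_two_pow {t : ℕ} (ht : 4 ≤ t) : t ^ 2 ≤ 2 ^ t := by
  induction t, ht using Nat.le_induction with
  | base => norm_num
  | succ n hn ih => rw [pow_succ 2]; nlinarith

lemma cube_lt_two_pow {t : ℕ} (ht : 11 ≤ t) : t ^ 3 + t < 2 ^ t := by
  induction t, ht using Nat.le_induction with
  | base => norm_num
  | succ n hn ih =>
    rw [pow_succ 2]
    have : (n + 1) ^ 3 + (n + 1) ≤ 2 * (n ^ 3 + n) := by nlinarith [Nat.zero_le n, sq_nonneg n]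
    omega

lemma pte_card {t : ℕ} (ht : 11 ≤ t) : ((2 ^ t) ^ t + 1) ^ t < 2 ^ 2 ^ t := by
  have h1 : (2 ^ t) ^ t + 1 ≤ 2 ^ (t * t + 1) := by
    rw [← pow_mul, pow_succ]
    have : 1 ≤ 2 ^ (t * t) := Nat.one_le_two_pow
    omega
  calc ((2 ^ t) ^ t + 1) ^ t ≤ (2 ^ (t * t + 1)) ^ t := Nat.pow_le_pow_left h1 t
    _ = 2 ^ (t ^ 3 + t) := by rw [← pow_mul]; congr 1; ring
    _ < _ := Nat.pow_lt_pow_right (by norm_num) (cube_lt_two_pow ht)

lemma big_h {t : ℕ} (ht : 11 ≤ t) : 2048 ≤ 2 ^ t :=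
  le_trans (by norm_num) (Nat.pow_le_pow_right (by norm_num) ht)

lemma six_t {t : ℕ} (ht : 11 ≤ t) : 6 * t ≤ 2 ^ t := by
  have := sq_le_two_pow (t := t) (by omega)
  nlinarith

lemma exp_tiny {t : ℕ} (ht : 11 ≤ t) :
    Real.exp (-((((2 ^ t : ℕ) : ℝ)) ^ 2 / 2)) ≤ (1 / ((2 ^ t : ℕ) : ℝ)) ^ t := by
  set h : ℝ := ((2 ^ t : ℕ) : ℝ) with hh
  have h6 : 6 * (t : ℝ) ≤ h := by rw [hh]; exact_mod_cast six_t ht
  have h0 : (2048 : ℝ) ≤ h := by rw [hh]; exact_mod_cast big_h ht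
  have h1 : Real.exp (-h) ≤ 1 / h := by
    rw [Real.exp_neg, one_div]
    apply inv_anti₀ (by linarith)
    linarith [Real.add_one_le_exp h]
  calc Real.exp (-(h ^ 2 / 2)) ≤ Real.exp (t * -h) := by
        apply Real.exp_le_exp.2; nlinarith
    _ = Real.exp (-h) ^ t := Real.exp_nat_mul _ _
    _ ≤ _ := by gcongr

lemma Inv.sm' {ν : Al G} {h E : ℕ} (hh : 64 ≤ h) (hI : Inv ν (h ^ E)) {J : ℕ} (hJ : 0 < J) :
    Sm (ν ^ h) (J ^ 2 * h ^ (E + 4)) J (1 / h) := by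
  have h0 : (0 : ℝ) < h := by exact_mod_cast (by omega : 0 < h)
  have hJ0 : (0 : ℝ) < J := by exact_mod_cast hJ
  refine hI.sm (H := 8 * h ^ 2 * J) (Nat.succ_le_of_lt (by positivity)) ?_ (le_of_eq ?_)
  · calc h ^ E * (8 * h ^ 2 * J) ^ 2 = 64 * (h ^ E * h ^ 4 * J ^ 2) := by ring
      _ ≤ h * (h ^ E * h ^ 4 * J ^ 2) := Nat.mul_le_mul_right _ hh
      _ = _ := by ring
  · push_cast; field_simp

set_option maxHeartbeats 1000000 in
lemma step1 {x ν : Al G} (hx : Prob x) (hν : Prob ν) {t h E F R : ℕ} (ht : 11 ≤ t)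
    (hh : h = 2 ^ t) (hD : Dom (x - ν) ((1 / (h : ℝ)) ^ F • ν) ((1 / (h : ℝ)) ^ R))
    (hI : Inv ν (h ^ E)) (f f' : ℕ → Bool)
    (hf : ∀ e < t, ∑ i ∈ range h, ((if f i then 1 else 0) - (if f' i then 1 else 0) : ℝ) *
        (i.choose e : ℝ) = 0)
    (a1 : 2 * E + 9 ≤ t) (a2 : 2 * E + 40 ≤ 3 * F) (a3 : F + 4 * E + 22 ≤ R) (a4 : R ≤ t) :
    Dom ((ν ^ h) ^ h ^ (E + 6) * pat x ν f' h * (ν ^ h) ^ h ^ (E + 6) -
        (ν ^ h) ^ (2 * h ^ (E + 6) + 1))
      ((2 * h * (1 / (h : ℝ)) ^ F) • (ν ^ h) ^ (2 * h ^ (E + 6) + 1)) (2 * h * (1 / (h : ℝ)) ^ R) ∧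
    Inv ((ν ^ h) ^ h ^ (E + 6) * pat x ν f' h * (ν ^ h) ^ h ^ (E + 6)) (h ^ (2 * E + 10)) ∧
    ∃ (W : Bool → ℕ → Al G) (a : Bool → ℕ → ℝ), (∀ b i, |a b i| ≤ 1) ∧
      (∀ b, ∀ i < h, Dom (W b i) ((2 * h * (1 / (h : ℝ)) ^ F) • ν ^ (h - 1 - i))
        (2 * h * (1 / (h : ℝ)) ^ R)) ∧
      nm ((ν ^ h) ^ h ^ (E + 6) * pat x ν f h * (ν ^ h) ^ h ^ (E + 6) -
        (ν ^ h) ^ h ^ (E + 6) * pat x ν f' h * (ν ^ h) ^ h ^ (E + 6) -
        (ν ^ h) ^ h ^ (E + 6) * (∑ b, ∑ i ∈ range h, a b i • (ν ^ i * (x - ν) * W b i)) *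
          (ν ^ h) ^ h ^ (E + 6)) ≤ 2 * h ^ 2 * (1 / (h : ℝ)) ^ R := by
  have hb : 2048 ≤ h := hh ▸ big_h ht
  have hb' : (2048 : ℝ) ≤ h := by exact_mod_cast hb
  have h1 : (1 : ℝ) ≤ h := by linarith
  have h6 : 6 * t ≤ h := hh ▸ six_t ht
  have hsq : t ^ 2 ≤ h := hh ▸ sq_le_two_pow (by omega)
  have hτ : Real.exp (-((h : ℝ) ^ 2 / 2)) ≤ (1 / (h : ℝ)) ^ t := hh ▸ exp_tiny ht
  set μ := ν ^ h with hμ
  set g := h ^ (E + 6) with hg
  set ε := (1 / (h : ℝ)) ^ F with hε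
  set ρ := (1 / (h : ℝ)) ^ R with hρ
  have hε0 : 0 < ε := by positivity
  have hρ0 : 0 < ρ := by positivity
  have hμp : Prob μ := hν.pow _
  have hε1 : 2 * h * ε ≤ 1 / 8 := by
    have := pw0 h1 (show (16 : ℝ) ≤ h by linarith) (a := 1) (b := F) (by omega)
    rw [pow_one] at this; linarith
  have hρ1 : 2 * h * ρ ≤ 1 / 8 := by
    have := pw0 h1 (show (16 : ℝ) ≤ h by linarith) (a := 1) (b := R) (by omega)
    rw [pow_one] at this; linarith
  have hθρ : (1 / (h : ℝ)) ^ t ≤ ρ := umono h1 a4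
  have hρρ : ρ ≤ 2 * h * ρ := by nlinarith
  have dR := pat_close hx hν hε0.le hD h f' (by linarith)
  rw [← hμ] at dR
  set R0 := pat x ν f' h - μ with hR0
  have hν' : μ ^ g * pat x ν f' h * μ ^ g = μ ^ (2 * g + 1) + μ ^ g * R0 * μ ^ g := by
    rw [hR0, mul_sub, sub_mul, ← pow_succ, ← pow_add, show g + 1 + g = 2 * g + 1 by omega]; abel
  have pν' : Prob (μ ^ g * pat x ν f' h * μ ^ g) :=
    ((hμp.pow g).mul (prob_pat hx hν h f')).mul (hμp.pow g)
  have dE : Dom (μ ^ g * pat x ν f' h * μ ^ g - μ ^ (2 * g + 1)) ((2 * h * ε) • μ ^ (2 * g + 1))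
      (2 * h * ρ) := by
    have := (dR.prob_left (hμp.pow g)).prob_right (hμp.pow g)
    rw [← pow_succ, ← pow_add, show g + 1 + g = 2 * g + 1 by omega] at this
    rwa [hν', add_sub_cancel_left]
  refine ⟨dE, ?_, ?_⟩
  · set km := t * (2 * E + 9) with hkm
    set y := (2 * E + 11) / 3 with hy
    have q1 : 4 ^ (km / 6) ≤ h ^ y := by
      rw [hh, ← pow_mul, show 4 = 2 ^ 2 by norm_num, ← pow_mul]
      apply Nat.pow_le_pow_right (by norm_num)
      have : t * (2 * E + 9) ≤ 3 * (t * y) := by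
        have : 2 * E + 9 ≤ 3 * y := by omega
        nlinarith
      omega
    have q2 : 2 ^ km = h ^ (2 * E + 9) := by rw [hh, ← pow_mul]
    have q3 : (4 : ℝ) ^ km = h ^ (4 * E + 18) := by
      have : 4 ^ km = h ^ (4 * E + 18) := by
        rw [show 4 = 2 ^ 2 by norm_num, ← pow_mul, mul_comm, pow_mul, q2, ← pow_mul]
        congr 1; ring
      exact_mod_cast this
    have q4 : km ≤ h := le_trans (by rw [hkm, sq]; exact Nat.mul_le_mul_left _ a1) hsq
    have cl := close hμp (g := g) (b := h ^ (E + 4)) (K := t) (km := km) (h := h)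
      (by linarith) (by exact_mod_cast h6) (by rw [hh]; push_cast; rfl)
      (hτ.trans (hθρ.trans hρρ)) (hθρ.trans hρρ) dR
      (by rw [hR0, map_sub, (prob_pat hx hν h f').2, hμp.2, sub_self]) (by positivity)
      (fun j _ => by
        have := hI.sm' (by omega) (J := 4 ^ j) (by positivity)
        rwa [← pow_mul, mul_comm j 2, pow_mul] at this)
      (by
        have : 1 ≤ h ^ (E + 4) := Nat.one_le_pow _ _ (by omega)
        calc (h ^ (E + 4) + 1) * t ≤ (h ^ (E + 4) * h) * h :=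
            Nat.mul_le_mul (by nlinarith) (by omega)
          _ = g := by rw [hg]; ring)
      (by
        calc t * 4 ^ (km / 6) ≤ h * h ^ y := Nat.mul_le_mul (by omega) q1
          _ = h ^ (y + 1) := by ring
          _ ≤ g := Nat.pow_le_pow_right (by omega) (by omega))
      (by rw [hkm]; nlinarith)
      (by
        have q1' : (4 : ℝ) ^ (km / 6) ≤ h ^ y := by exact_mod_cast q1
        have q4' : (km : ℝ) ≤ h := by exact_mod_cast q4
        calc 64 * (km : ℝ) * h ^ 6 * (2 * h * ε) * 4 ^ (km / 6)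
            ≤ 64 * h * h ^ 6 * (2 * h * ε) * h ^ y := by gcongr
          _ = 128 * h ^ (y + 8) * ε := by ring
          _ ≤ 1 := pw0 h1 (by linarith) (by omega))
      (by
        rw [q3]
        calc (h : ℝ) ^ 3 * (2 * h * ρ) * h ^ (4 * E + 18)
            = 2 * h * (1 * h ^ (4 * E + 21) * ρ) := by ring
          _ ≤ 2 * h * ε := by
            have := pw h1 h1 (a := 4 * E + 21) (b := R) (c := F) (by omega)
            gcongr)
    rw [← hν', q2] at cl
    set ν' := μ ^ g * pat x ν f' h * μ ^ g with hν''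
    set s := h ^ (2 * E + 9) with hs
    set P := μ ^ (2 * g + 1) with hP
    have hPp : Prob P := hμp.pow _
    have n1 : nm (ν' - P) ≤ 1 / 4 := by have := dE.nm_le' hPp; linarith
    have n2 : nm (ν' ^ (s + 1) - P ^ (s + 1)) ≤ 3 / 8 := by
      have : ν' ^ (s + 1) - P ^ (s + 1) = (ν' ^ s - P ^ s) * ν' + P ^ s * (ν' - P) := by
        rw [pow_succ, pow_succ]; simp only [sub_mul, mul_sub]; abel
      rw [this]
      linarith [nm_add_le ((ν' ^ s - P ^ s) * ν') (P ^ s * (ν' - P)),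
        pν'.nm_mul_right (ν' ^ s - P ^ s), (hPp.pow s).nm_mul_left (ν' - P)]
    have n3 : nm (P ^ (s + 1) - P ^ s) ≤ 1 / 2 := by
      set N := h * (2 * g + 1) with hN
      have hN0 : 0 < N := by positivity
      have hN1 : 64 * N ≤ h ^ (E + 9) := by
        have : 1 ≤ g := Nat.one_le_pow _ _ (by omega)
        calc 64 * N ≤ 192 * (h * g) := by rw [hN]; nlinarith
          _ ≤ h * h * (h * g) := Nat.mul_le_mul_right _ (by nlinarith)
          _ = _ := by rw [hg]; ring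
      have := hI (8 * N) N (N * s) (by omega) (by
        calc h ^ E * (8 * N) ^ 2 = N * (h ^ E * (64 * N)) := by ring
          _ ≤ N * (h ^ E * h ^ (E + 9)) := by gcongr
          _ = N * s := by rw [hs]; ring)
      rw [hP, hμ, ← pow_mul, ← pow_mul, ← pow_mul, ← pow_mul, ← mul_assoc, ← mul_assoc, ← hN,
        mul_add, mul_one]
      refine this.trans (le_of_eq ?_)
      have : (0 : ℝ) < N := by exact_mod_cast hN0
      push_cast; field_simp; norm_num
    have n4 : nm (ν' ^ (s + 1) - ν' ^ s) ≤ 1 := by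
      have t1 := nm_tri (ν' ^ (s + 1)) (P ^ (s + 1)) (ν' ^ s)
      have t2 := nm_tri (P ^ (s + 1)) (P ^ s) (ν' ^ s)
      rw [nm_sub_comm (P ^ s)] at t2
      linarith
    refine (inv_of_nm pν' n4).mono ?_
    have : 1 ≤ s := Nat.one_le_pow _ _ (by omega)
    calc (s + 1) * 2 ≤ s * h := by nlinarith
      _ = _ := by rw [hs]; ring
  · obtain ⟨W, a, ha, hW, he⟩ := pat_diff hx hν hε0.le hD h (by linarith) f f'
    refine ⟨W, a, ha, hW, ?_⟩
    rw [← sub_mul, ← mul_sub, he, ← sub_mul, ← mul_sub, add_sub_cancel_right, hμ, ← pow_mul]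
    have hS : Sm ν (h ^ (E + 6)) 2 ((1 / (h : ℝ)) ^ 2) := by
      have := hI.sm (m := 1) (a0 := h ^ (E + 6)) (J := 2) (H := 16 * h ^ 2)
        (θ := (1 / (h : ℝ)) ^ 2) (Nat.succ_le_of_lt (by positivity))
        (by
          calc h ^ E * (16 * h ^ 2) ^ 2 = 256 * (h ^ E * h ^ 4) := by ring
            _ ≤ h * h * (h ^ E * h ^ 4) := Nat.mul_le_mul_right _ (by nlinarith)
            _ = _ := by ring)
        (le_of_eq (by push_cast; field_simp; norm_num))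
      rwa [pow_one] at this
    have e1 : (h : ℝ) * (1 / h) ^ 2 = 1 / h := by field_simp
    have := lin_cancel hν (K := t) (m := h) (by positivity) hS
      (by rw [e1, div_le_one (by linarith)]; exact h1) _
      (fun i => by split_ifs <;> simp) hf (x - ν) (A := h * g) (B := h * g)
      (by rw [mul_comm]) (by rw [mul_comm])
    refine this.trans ?_
    rw [e1]
    have := hx.nm_sub_le hν
    calc (h : ℝ) ^ 2 * (1 / h) ^ t * nm (x - ν) ≤ h ^ 2 * ρ * 2 := by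
          gcongr
          exact nm_nonneg _
      _ = _ := by ring

end Vale.Agent.P321
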