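import Vale.Agent.P321.LowMom

namespace Vale.Agent.P321

open Finset

set_option linter.unusedSectionVars false

variable {T : Type*} [Fintype T] [DecidableEq T]

noncomputable def wt (ρ : T → ℝ) : FreeMonoid T →* ℝ := FreeMonoid.lift ρ

lemma wt_pos {ρ : T → ℝ} (hρ : ∀ τ, 0 < ρ τ) (w : FreeMonoid T) : 0 < wt ρ w := by
  induction w using FreeMonoid.inductionOn' with
  | one => simp
  | of_mul τ w ih => rw [map_mul]; exact mul_pos (by simpa [wt] using hρ τ) ih

noncomputable def ip (ρ : T → ℝ) : Al (FreeMonoid T) →ₗ[ℝ] Al (FreeMonoid T) →ₗ[ℝ] ℝ :=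
  LinearMap.mk₂ ℝ (fun F H => pr (fun w => H.coeff w / wt ρ w) F)
    (fun _ _ _ => map_add _ _ _) (fun _ _ _ => map_smul _ _ _)
    (fun F H H' => by
      rw [← pr_add_fun]; congr 2; funext w; simp [add_div])
    (fun c F H => by
      rw [smul_eq_mul, ← pr_mul_fun]; congr 2; funext w; simp [mul_div_assoc])

lemma ip_def (ρ : T → ℝ) (F H : Al (FreeMonoid T)) :
    ip ρ F H = pr (fun w => H.coeff w / wt ρ w) F := rfl

open Classical in
lemma ip_single (ρ : T → ℝ) (w w' : FreeMonoid T) (a b : ℝ) :
    ip ρ (MonoidAlgebra.single w a) (MonoidAlgebra.single w' b) =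
      if w = w' then a * b / wt ρ w else 0 := by
  rw [ip_def, pr_single]
  by_cases h : w = w'
  · subst h; simp [mul_div_assoc]
  · simp [h]

lemma ip_comm (ρ : T → ℝ) (F H : Al (FreeMonoid T)) : ip ρ F H = ip ρ H F := by
  induction F using MonoidAlgebra.induction_linear with
  | zero => simp
  | add F F' h h' => simp [h, h']
  | single u a =>
    induction H using MonoidAlgebra.induction_linear with
    | zero => simp
    | add H H' h h' => simp only [map_add, LinearMap.add_apply, h, h']
    | single v b =>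
      rw [ip_single, ip_single]
      by_cases h : u = v
      · subst h; simp [mul_comm]
      · simp [h, Ne.symm h]

lemma ip_self_nonneg {ρ : T → ℝ} (hρ : ∀ τ, 0 < ρ τ) (F : Al (FreeMonoid T)) : 0 ≤ ip ρ F F := by
  rw [ip_def, pr_def]
  refine Finset.sum_nonneg fun w _ => ?_
  rw [← mul_div_assoc]
  exact div_nonneg (mul_self_nonneg _) (wt_pos hρ w).le

lemma ip_le {ρ : T → ℝ} (hρ : ∀ τ, 0 < ρ τ) (F H : Al (FreeMonoid T)) :
    ip ρ F H ≤ (ip ρ F F + ip ρ H H) / 2 := by
  have := ip_self_nonneg hρ (F - H)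
  simp only [map_sub, LinearMap.sub_apply] at this
  rw [ip_comm ρ H F] at this
  linarith

noncomputable def lt (c : T → ℝ) : Al (FreeMonoid T) :=
  ∑ τ, MonoidAlgebra.single (FreeMonoid.of τ) (c τ)

lemma ip_lt (ρ : T → ℝ) (c c' : T → ℝ) (F H : Al (FreeMonoid T)) :
    ip ρ (lt c * F) (lt c' * H) = (∑ τ, c τ * c' τ / ρ τ) * ip ρ F H := by
  induction F using MonoidAlgebra.induction_linear with
  | zero => simp
  | add F F' h h' => simp only [mul_add, map_add, LinearMap.add_apply, h, h']
  | single u a =>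
    induction H using MonoidAlgebra.induction_linear with
    | zero => simp
    | add H H' h h' => simp only [mul_add, map_add, h, h']
    | single v b =>
      simp only [lt, Finset.sum_mul, map_sum, LinearMap.sum_apply,
        MonoidAlgebra.single_mul_single, ip_single]
      refine Finset.sum_congr rfl fun τ _ => ?_
      rw [Finset.sum_eq_single τ]
      · by_cases h : u = v
        · subst h
          simp only [↓reduceIte, map_mul, wt, FreeMonoid.lift_eval_of]
          rw [div_mul_div_comm]; congr 1; ring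
        · simp [h]
      · intro τ' _ hne
        rw [if_neg]
        intro h
        have := congrArg FreeMonoid.toList h
        simp at this
        exact hne this.1
      · simp

lemma ip_one_lt (ρ : T → ℝ) (c : T → ℝ) (H : Al (FreeMonoid T)) : ip ρ 1 (lt c * H) = 0 := by
  induction H using MonoidAlgebra.induction_linear with
  | zero => simp
  | add H H' h h' => simp only [mul_add, map_add, h, h', add_zero]
  | single v b =>
    simp only [lt, Finset.sum_mul, map_sum, MonoidAlgebra.single_mul_single,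
      MonoidAlgebra.one_def, ip_single]
    refine Finset.sum_eq_zero fun τ _ => if_neg fun h => ?_
    have := congrArg FreeMonoid.toList h
    simp at this

lemma mass_lt (c : T → ℝ) : mass (lt c) = ∑ τ, c τ := by simp [lt]

lemma pos_lt {c : T → ℝ} (hc : ∀ τ, 0 ≤ c τ) : Pos (lt c) :=
  Pos.sum fun τ _ => Pos.single _ (hc τ)

section
variable {ρ cv : T → ℝ} (hρ : ∀ τ, 0 < ρ τ) (hρ1 : ∑ τ, ρ τ = 1) (hv : ∑ τ, cv τ = 0)
include hρ

lemma sum_ee (hρ1 : ∑ τ, ρ τ = 1) : ∑ τ, ρ τ * ρ τ / ρ τ = 1 := by
  rw [← hρ1]; exact Finset.sum_congr rfl fun τ _ => by field_simp [(hρ τ).ne']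

lemma sum_ev (hv : ∑ τ, cv τ = 0) : ∑ τ, ρ τ * cv τ / ρ τ = 0 := by
  rw [← hv]; exact Finset.sum_congr rfl fun τ _ => by field_simp [(hρ τ).ne']

include hρ1 hv

lemma ip_vv (F H : Al (FreeMonoid T)) : ∀ j j' : ℕ,
    ip ρ (lt ρ ^ j * (lt cv * F)) (lt ρ ^ j' * (lt cv * H)) =
      if j = j' then (∑ τ, cv τ * cv τ / ρ τ) * ip ρ F H else 0
  | 0, 0 => by simp [ip_lt]
  | 0, j' + 1 => by
    rw [pow_zero, one_mul, pow_succ', mul_assoc, ip_comm, ip_lt, sum_ev hρ hv]; simp
  | j + 1, 0 => by
    rw [pow_zero, one_mul, pow_succ', mul_assoc, ip_lt, sum_ev hρ hv]; simp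
  | j + 1, j' + 1 => by
    rw [pow_succ', pow_succ', mul_assoc, mul_assoc, ip_lt, sum_ee hρ hρ1, one_mul, ip_vv F H j j']
    simp

lemma ip_ev' (H : Al (FreeMonoid T)) : ∀ j j' : ℕ,
    ip ρ (lt ρ ^ j) (lt ρ ^ j' * (lt cv * H)) = 0
  | 0, 0 => by simp [ip_one_lt]
  | 0, j' + 1 => by rw [pow_zero, pow_succ', mul_assoc, ip_one_lt]
  | j + 1, 0 => by
    rw [pow_zero, one_mul, pow_succ', ip_lt, sum_ev hρ hv]; simp
  | j + 1, j' + 1 => by
    rw [pow_succ', pow_succ', mul_assoc, ip_lt, ip_ev' H j j']; simp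

omit hv in
lemma ip_ee : ∀ j j' : ℕ, ip ρ (lt ρ ^ j) (lt ρ ^ j') = if j = j' then 1 else 0
  | 0, 0 => by simp [MonoidAlgebra.one_def, ip_single]
  | 0, j' + 1 => by rw [pow_zero, pow_succ', ip_one_lt]; simp
  | j + 1, 0 => by rw [pow_zero, pow_succ', ip_comm, ip_one_lt]; simp
  | j + 1, j' + 1 => by
    rw [pow_succ', pow_succ', ip_lt, sum_ee hρ hρ1, one_mul, ip_ee j j']; simp

end

section evsec
variable {G : Type*} [Monoid G]

noncomputable def ev (e : Al G) : Al NN →ₐ[ℝ] Al G :=
  MonoidAlgebra.lift ℝ (Al G) NN (powersHom (Al G) e)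

lemma ev_single (e : Al G) (j : NN) (a : ℝ) :
    ev e (MonoidAlgebra.single j a) = a • e ^ j.toAdd := by simp [ev]

lemma ev_XX (e : Al G) : ev e XX = e := by simp [XX, ev_single]

lemma ev_bern (e : Al G) (x : ℝ) : ev e (bern x) = (1 - x) • 1 + x • e := by simp [bern, ev_XX]

lemma Pos.ev {e : Al G} (he : Pos e) {π : Al NN} (h : Pos π) : Pos (ev e π) := by
  rw [eq_sum_single π _ subset_rfl, map_sum]
  exact Pos.sum fun j _ => by rw [ev_single]; exact (he.pow _).smul (h j)

lemma mass_ev {e : Al G} (he : Prob e) (π : Al NN) : mass (ev e π) = mass π := by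
  induction π using MonoidAlgebra.induction_linear with
  | zero => simp
  | add F F' h h' => simp [h, h']
  | single u a => simp [ev_single, he.2]

lemma Prob.ev {e : Al G} (he : Prob e) {π : Al NN} (h : Prob π) : Prob (ev e π) :=
  ⟨he.1.ev h.1, by rw [mass_ev he, h.2]⟩

lemma nm_ev {e : Al G} (he : Prob e) (π : Al NN) : nm (ev e π) ≤ nm π := by
  have h := le_iff.1 (le_absA π)
  have : Le (ev e π) (ev e (absA π)) := by
    rw [le_iff, ← map_sub, ← map_add]; exact ⟨he.1.ev h.1, he.1.ev h.2⟩
  have := this.nm_le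
  rwa [mass_ev he] at this

lemma Inv.ev {e : Al G} (he : Prob e) {π : Al NN} {n : ℕ} (h : Inv π n) : Inv (ev e π) n :=
  fun H d N h1 h2 => by
    rw [← map_pow, ← map_pow, ← map_sub]
    exact (nm_ev he _).trans (h H d N h1 h2)

end evsec

lemma ipN_single (j j' : NN) (a b : ℝ) :
    ipN (MonoidAlgebra.single j a) (MonoidAlgebra.single j' b) =
      if j.toAdd = j'.toAdd then a * b else 0 := by
  rw [ipN, pr_single]
  by_cases h : j = j'
  · subst h; simp
  · simp [h]

lemma ipN_add_left (a b c : Al NN) : ipN (a + b) c = ipN a c + ipN b c := by simp [ipN]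

lemma ipN_add_right (a b c : Al NN) : ipN a (b + c) = ipN a b + ipN a c := by
  rw [ipN_comm, ipN_add_left, ipN_comm b, ipN_comm c]

lemma ipN_zero_left (a : Al NN) : ipN 0 a = 0 := by simp [ipN]

lemma ipN_zero_right (a : Al NN) : ipN a 0 = 0 := by rw [ipN_comm, ipN_zero_left]

section
variable {ρ cv : T → ℝ} (hρ : ∀ τ, 0 < ρ τ) (hρ1 : ∑ τ, ρ τ = 1) (hv : ∑ τ, cv τ = 0)
include hρ hρ1

lemma ip_ev_ev (π π' : Al NN) : ip ρ (ev (lt ρ) π) (ev (lt ρ) π') = ipN π π' := by
  induction π using MonoidAlgebra.induction_linear with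
  | zero => simp [ipN_zero_left]
  | add F F' h h' => simp [h, h', ipN_add_left]
  | single u a =>
    induction π' using MonoidAlgebra.induction_linear with
    | zero => simp [ipN_zero_right]
    | add H H' h h' => simp only [map_add, h, h', ipN_add_right]
    | single v b =>
      simp only [ev_single, ipN_single, map_smul, LinearMap.smul_apply, ip_ee hρ hρ1]
      split_ifs <;> simp [mul_comm]

include hv

lemma ip_ev_v (π π' : Al NN) (H : Al (FreeMonoid T)) :
    ip ρ (ev (lt ρ) π) (ev (lt ρ) π' * (lt cv * H)) = 0 := by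
  induction π using MonoidAlgebra.induction_linear with
  | zero => simp
  | add F F' h h' => simp [h, h']
  | single u a =>
    induction π' using MonoidAlgebra.induction_linear with
    | zero => simp
    | add H H' h h' => simp only [map_add, add_mul, h, h', add_zero]
    | single v b =>
      simp only [ev_single, smul_mul_assoc, map_smul, LinearMap.smul_apply, ip_ev' hρ hρ1 hv,
        smul_zero]

lemma ip_v_v (π π' : Al NN) (F H : Al (FreeMonoid T)) :
    ip ρ (ev (lt ρ) π * (lt cv * F)) (ev (lt ρ) π' * (lt cv * H)) =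
      (∑ τ, cv τ * cv τ / ρ τ) * ipN π π' * ip ρ F H := by
  induction π using MonoidAlgebra.induction_linear with
  | zero => simp [ipN_zero_left]
  | add F F' h h' => simp [add_mul, mul_add, h, h', ipN_add_left]
  | single u a =>
    induction π' using MonoidAlgebra.induction_linear with
    | zero => simp [ipN_zero_right]
    | add H H' h h' => simp only [map_add, add_mul, mul_add, h, h', ipN_add_right]
    | single v b =>
      simp only [ev_single, smul_mul_assoc, ipN_single, map_smul, LinearMap.smul_apply,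
        ip_vv hρ hρ1 hv]
      split_ifs
      · simp only [smul_eq_mul]; ring
      · simp

end

noncomputable def len : FreeMonoid T →* NN := FreeMonoid.lift fun _ => Multiplicative.ofAdd 1

lemma push_len_lt (c : T → ℝ) : push len (lt c) = (∑ τ, c τ) • XX := by
  simp [lt, len, XX, Finset.sum_smul]

lemma push_len_ev {ρ : T → ℝ} (hρ1 : ∑ τ, ρ τ = 1) (π : Al NN) :
    push len (ev (lt ρ) π) = π := by
  induction π using MonoidAlgebra.induction_linear with
  | zero => simp
  | add F F' h h' => simp [h, h']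
  | single u a =>
    rw [ev_single, map_smul, map_pow, push_len_lt, hρ1, one_smul, XX, MonoidAlgebra.single_pow]
    simp [← ofAdd_nsmul]

lemma coeff_e_pow {ρ : T → ℝ} (hρ : ∀ τ, 0 < ρ τ) (w : FreeMonoid T) :
    (lt ρ ^ (len w).toAdd).coeff w = wt ρ w := by
  have : ip ρ (MonoidAlgebra.single w 1) (lt ρ ^ (len w).toAdd) = 1 := by
    induction w using FreeMonoid.inductionOn' with
    | one => simp [MonoidAlgebra.one_def, ip_single]
    | of_mul τ w ih =>
      have e1 : (MonoidAlgebra.single (FreeMonoid.of τ * w) 1 : Al (FreeMonoid T)) =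
          lt (fun σ => if σ = τ then 1 else 0) * MonoidAlgebra.single w 1 := by
        simp only [lt, Finset.sum_mul, MonoidAlgebra.single_mul_single]
        rw [Finset.sum_eq_single τ] <;> simp +contextual
      have e2 : (len (FreeMonoid.of τ * w)).toAdd = (len w).toAdd + 1 := by
        simp [len, add_comm]
      rw [e1, e2, pow_succ', ip_lt, ih, Finset.sum_eq_single τ] <;>
        simp +contextual [(hρ τ).ne']
  rw [ip_def, pr_single, one_mul, div_eq_one_iff_eq (wt_pos hρ w).ne'] at this
  exact this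

lemma tv_of_l2 {ρ : T → ℝ} (hρ : ∀ τ, 0 < ρ τ) (hρ1 : ∑ τ, ρ τ = 1) {F P : Al (FreeMonoid T)}
    (hF : Pos F) (hP : Pos P) {π : Al NN} {μ V R : ℝ} (h1 : push len F = π)
    (h2 : push len P = π) (hm : Mom π μ V) (hμ : 0 ≤ μ) (hR : 1 ≤ R) :
    nm (F - P) ≤ 2 * V / R ^ 2 + (1 / 8 + 6 * R * ip ρ (F - P) (F - P)) := by
  classical
  set D := F - P with hD
  have hR0 : 0 < R := by linarith
  have split : nm D = pr (fun w => if |val (len w) - μ| ≤ R then 0 else 1) (absA D) +
      pr (fun w => if |val (len w) - μ| ≤ R then 1 else 0) (absA D) := by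
    rw [nm, mass_eq_pr, ← pr_add_fun]
    congr 2; funext w; split_ifs <;> simp
  rw [split]
  refine add_le_add ?_ ?_
  · have hle : Le (absA D) (F + P) := absA_le ((Le.refl hF).sub (Le.refl hP))
    have := hle.abs_pr_le (ψ := fun w => if |val (len w) - μ| ≤ R then 0 else 1)
      (φ := fun w => (1 / R ^ 2) * (val (len w) - μ) ^ 2) (fun w => by
        split_ifs with hc
        · simp only [abs_zero]; positivity
        · push Not at hc
          rw [abs_one, one_div_mul_eq_div, le_div_iff₀ (by positivity), one_mul, ← sq_abs (_ - μ)]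
          gcongr)
    refine (le_abs_self _).trans (this.trans ?_)
    rw [pr_mul_fun, map_add, ← pr_push len (fun j => (val j - μ) ^ 2),
      ← pr_push len (fun j => (val j - μ) ^ 2), h1, h2]
    have := hm.2.2
    rw [one_div_mul_eq_div]
    gcongr; linarith
  · set I := Finset.Icc ⌈μ - R⌉₊ ⌊μ + R⌋₊ with hI
    have hIc : (I.card : ℝ) ≤ 3 * R := by
      rw [hI, Nat.card_Icc]
      have a := Nat.floor_le (show 0 ≤ μ + R by linarith)
      have b := Nat.le_ceil (μ - R)
      rcases le_total ⌈μ - R⌉₊ (⌊μ + R⌋₊ + 1) with h | h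
      · rw [Nat.cast_sub h]; push_cast; linarith
      · rw [Nat.sub_eq_zero_of_le h]; simp; linarith
    have he : Prob (lt ρ) := ⟨pos_lt fun τ => (hρ τ).le, by rw [mass_lt, hρ1]⟩
    set EI := ∑ n ∈ I, lt ρ ^ n with hEI
    have pEI : Pos EI := Pos.sum fun n _ => he.1.pow n
    have mEI : mass EI = I.card := by simp [hEI, he.2]
    have cEI : ∀ w, |val (len w) - μ| ≤ R → wt ρ w ≤ EI.coeff w := by
      intro w hw
      have hmem : (len w).toAdd ∈ I := by
        have := abs_le.1 hw
        simp only [val] at this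
        rw [hI, Finset.mem_Icc]
        exact ⟨Nat.ceil_le.2 (by linarith [this.1]), Nat.le_floor (by linarith [this.2])⟩
      rw [← coeff_e_pow hρ w, hEI, MonoidAlgebra.coeff_sum, Finsupp.finsetSum_apply]
      exact Finset.single_le_sum (f := fun n => (lt ρ ^ n).coeff w)
        (fun n _ => he.1.pow n w) hmem
    set s := D.coeff.support ∪ EI.coeff.support with hs
    have sub1 : (absA D).coeff.support ⊆ s := by
      intro w hw
      refine Finset.mem_union_left _ ?_
      simpa [absA] using hw
    rw [pr_eq_sum _ _ s sub1, ip_def, pr_eq_sum _ D s Finset.subset_union_left]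
    have m2 : ∑ w ∈ s, EI.coeff w ≤ 3 * R := by
      rw [mass_eq_pr, pr_eq_sum _ EI s Finset.subset_union_right] at mEI
      simp only [mul_one] at mEI
      linarith
    have key : ∀ w ∈ s, (absA D).coeff w * (if |val (len w) - μ| ≤ R then 1 else 0) ≤
        1 / (24 * R) * EI.coeff w + 6 * R * (D.coeff w * (D.coeff w / wt ρ w)) := by
      intro w _
      have hw := wt_pos hρ w
      have p2 : 0 ≤ D.coeff w * (D.coeff w / wt ρ w) := by
        rw [← mul_div_assoc]; exact div_nonneg (mul_self_nonneg _) hw.le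
      split_ifs with hc
      · have a := cEI w hc
        have b : |D.coeff w| ≤ 1 / (24 * R) * wt ρ w + 6 * R * (D.coeff w * (D.coeff w / wt ρ w)) := by
          have e : 1 / (24 * R) * wt ρ w + 6 * R * (D.coeff w * (D.coeff w / wt ρ w)) -
              |D.coeff w| = (wt ρ w - 12 * R * |D.coeff w|) ^ 2 / (24 * R * wt ρ w) := by
            rw [← mul_div_assoc, ← abs_mul_abs_self (D.coeff w)]
            field_simp; ring
          have : 0 ≤ (wt ρ w - 12 * R * |D.coeff w|) ^ 2 / (24 * R * wt ρ w) := by positivity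
          linarith
        have c : 1 / (24 * R) * wt ρ w ≤ 1 / (24 * R) * EI.coeff w := by gcongr
        simp only [absA, Finsupp.mapRange_apply, mul_one]
        linarith
      · have := pEI w
        rw [mul_zero]; positivity
    refine (Finset.sum_le_sum key).trans ?_
    rw [Finset.sum_add_distrib, ← Finset.mul_sum, ← Finset.mul_sum]
    have : 1 / (24 * R) * ∑ w ∈ s, EI.coeff w ≤ 1 / 8 := by
      calc _ ≤ 1 / (24 * R) * (3 * R) := by gcongr
        _ = _ := by field_simp; norm_num
    linarith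

end Vale.Agent.P321
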