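import Mathlib
import Vale.Agent.P321.Defs
import Vale.Agent.P321.Adm

/-! From separating statistics to an estimator. -/

namespace Vale.Agent.P321

open Finset

lemma trace_cons {n : ℕ} (b : Bool) (keep : Fin n → Bool) (x : Fin (n + 1) → Bool) :
    trace (Fin.cons b keep : Fin (n + 1) → Bool) x =
      if b then x 0 :: trace keep (fun i => x i.succ) else trace keep (fun i => x i.succ) := by
  cases b <;> simp [trace, List.finRange_succ, List.filter_map, Function.comp_def]

lemma maskWt_cons {n : ℕ} (q : ℝ) (b : Bool) (keep : Fin n → Bool) :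
    maskWt q (Fin.cons b keep : Fin (n + 1) → Bool) = (if b then 1 - q else q) * maskWt q keep := by
  simp [maskWt, Fin.prod_univ_succ]

lemma Ex_eq (q : ℝ) {n : ℕ} (x : Fin n → Bool) (f : List Bool → ℂ) :
    Ex q (List.ofFn x) f = ∑ keep : Fin n → Bool, (maskWt q keep : ℂ) * f (trace keep x) := by
  induction n generalizing f with
  | zero => simp [Ex, maskWt, trace]
  | succ n ih =>
    rw [List.ofFn_succ, Ex, ih, ih, ← (Fin.consEquiv fun _ => Bool).sum_comp, Fintype.sum_prod_type,
      Fintype.sum_bool, add_comm, Finset.mul_sum, Finset.mul_sum]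
    congr 1 <;> refine Finset.sum_congr rfl fun keep _ => ?_
    · erw [maskWt_cons q true keep, trace_cons true keep x]; simp [mul_assoc]
    · erw [maskWt_cons q false keep, trace_cons false keep x]; simp [mul_assoc]

lemma maskWt_nonneg {q : ℝ} (hq : 0 < q) (hq1 : q < 1) {n : ℕ} (keep : Fin n → Bool) :
    0 ≤ maskWt q keep :=
  Finset.prod_nonneg fun i _ => by split_ifs <;> linarith

lemma sum_maskWt (q : ℝ) (n : ℕ) : ∑ keep : Fin n → Bool, maskWt q keep = 1 := by
  have := Finset.prod_univ_sum (fun _ : Fin n => (univ : Finset Bool))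
    (fun _ b => if b then 1 - q else q)
  rw [Fintype.piFinset_univ] at this
  simp only [maskWt]
  rw [← this]; simp

lemma trace_len {n : ℕ} (keep x : Fin n → Bool) : (trace keep x).length ≤ n := by
  rw [trace, List.length_map]
  exact (List.length_filter_le _ _).trans (by simp)

/-- real expectation of a statistic of one trace -/
noncomputable def Er (q : ℝ) {n : ℕ} (x : Fin n → Bool) (g : List Bool → ℝ) : ℝ :=
  ∑ keep : Fin n → Bool, maskWt q keep * g (trace keep x)

lemma chernoff {q : ℝ} (hq : 0 < q) (hq1 : q < 1) {n : ℕ} (m : ℕ) (x : Fin n → Bool)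
    (H : List Bool → ℝ) {η : ℝ} (hη : 0 < η) (hη1 : η ≤ 1) (hH : ∀ keep, |H (trace keep x)| ≤ 2)
    (hE : η / 2 ≤ Er q x H) :
    ∑ masks : Fin m → Fin n → Bool, (∏ j, maskWt q (masks j)) *
      (if ∑ j, H (trace (masks j) x) ≤ 0 then 1 else 0) ≤ Real.exp (-(η ^ 2 / 64) * m) := by
  have h1 : ∑ keep : Fin n → Bool, maskWt q keep * Real.exp (-(η / 16) * H (trace keep x)) ≤
      Real.exp (-(η ^ 2 / 64)) := by
    have h2 : ∑ keep : Fin n → Bool, maskWt q keep * Real.exp (-(η / 16) * H (trace keep x)) ≤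
        ∑ keep : Fin n → Bool, maskWt q keep * (1 + η ^ 2 / 64 - η / 16 * H (trace keep x)) := by
      refine Finset.sum_le_sum fun keep _ => mul_le_mul_of_nonneg_left ?_ (maskWt_nonneg hq hq1 _)
      have a1 : |-(η / 16) * H (trace keep x)| ≤ η / 8 := by
        rw [abs_mul, abs_neg, abs_of_pos (by positivity)]; nlinarith [hH keep]
      have a2 := (abs_le.1 (Real.abs_exp_sub_one_sub_id_le (a1.trans (by linarith)))).2
      have a3 : (-(η / 16) * H (trace keep x)) ^ 2 ≤ (η / 8) ^ 2 := by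
        rw [← sq_abs]; exact pow_le_pow_left₀ (abs_nonneg _) a1 2
      linarith
    have h3 : ∑ keep : Fin n → Bool, maskWt q keep * (1 + η ^ 2 / 64 - η / 16 * H (trace keep x)) =
        1 + η ^ 2 / 64 - η / 16 * Er q x H := by
      simp only [mul_sub, Finset.sum_sub_distrib, ← Finset.sum_mul, sum_maskWt, Er, Finset.mul_sum]
      congr 1
      · ring
      · exact Finset.sum_congr rfl fun _ _ => by ring
    nlinarith [Real.add_one_le_exp (-(η ^ 2 / 64))]
  have h4 := Finset.prod_univ_sum (fun _ : Fin m => (univ : Finset (Fin n → Bool)))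
    (fun _ keep => maskWt q keep * Real.exp (-(η / 16) * H (trace keep x)))
  rw [Fintype.piFinset_univ, Finset.prod_const, Finset.card_univ, Fintype.card_fin] at h4
  rw [mul_comm, Real.exp_nat_mul]
  refine le_trans ?_ (pow_le_pow_left₀ (Finset.sum_nonneg fun keep _ =>
    mul_nonneg (maskWt_nonneg hq hq1 _) (Real.exp_pos _).le) h1 m)
  rw [h4]
  refine Finset.sum_le_sum fun masks _ => ?_
  rw [Finset.prod_mul_distrib, ← Real.exp_sum, ← Finset.mul_sum]
  refine mul_le_mul_of_nonneg_left ?_ (Finset.prod_nonneg fun j _ => maskWt_nonneg hq hq1 _)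
  split_ifs with h
  · exact Real.one_le_exp (by nlinarith)
  · exact (Real.exp_pos _).le

lemma Er_lin (q : ℝ) {n : ℕ} (x : Fin n → Bool) (g g' : List Bool → ℝ) (c : ℝ) :
    Er q x (fun t => (g t - g' t) / 2 - c) = (Er q x g - Er q x g') / 2 - c := by
  have : ∀ keep : Fin n → Bool, maskWt q keep * ((g (trace keep x) - g' (trace keep x)) / 2 - c) =
      (maskWt q keep * g (trace keep x) - maskWt q keep * g' (trace keep x)) / 2 -
        maskWt q keep * c := fun _ => by ring
  simp only [Er, this, Finset.sum_sub_distrib, ← Finset.sum_div, ← Finset.sum_mul, sum_maskWt,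
    one_mul]

lemma Er_abs {q : ℝ} (hq : 0 < q) (hq1 : q < 1) {n : ℕ} (x : Fin n → Bool) {g : List Bool → ℝ}
    (hg : ∀ t, t.length ≤ n → |g t| ≤ 1) : |Er q x g| ≤ 1 := by
  refine (Finset.abs_sum_le_sum_abs _ _).trans (le_trans (Finset.sum_le_sum fun keep _ => ?_)
    (sum_maskWt q n).le)
  rw [abs_mul, abs_of_nonneg (maskWt_nonneg hq hq1 _)]
  exact mul_le_of_le_one_right (maskWt_nonneg hq hq1 _) (hg _ (trace_len _ _))

theorem achievable_of_sep {q : ℝ} (hq : 0 < q) (hq1 : q < 1) {n m : ℕ} {η : ℝ} (hη : 0 < η)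
    (hη1 : η ≤ 1) (hm : 64 * (n + 2) ≤ η ^ 2 * m)
    (hsep : ∀ x y : Fin n → Bool, x ≠ y → ∃ g : List Bool → ℝ, (∀ t, t.length ≤ n → |g t| ≤ 1) ∧
      η ≤ Er q x g - Er q y g) : Achievable q n m := by
  classical
  have hsep' : ∀ x y : Fin n → Bool, ∃ g : List Bool → ℝ, (∀ t, t.length ≤ n → |g t| ≤ 1) ∧
      (x ≠ y → η ≤ Er q x g - Er q y g) := by
    intro x y
    by_cases h : x = y
    · exact ⟨fun _ => 0, by simp, fun h' => absurd h h'⟩
    · obtain ⟨g, h1, h2⟩ := hsep x y h
      exact ⟨g, h1, fun _ => h2⟩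
  choose g hg1 hg2 using hsep'
  let H : (Fin n → Bool) → (Fin n → Bool) → List Bool → ℝ := fun x y t => (g x y t - g y x t) / 2 -
    ((Er q x (g x y) - Er q x (g y x)) + (Er q y (g x y) - Er q y (g y x))) / 4
  have Hanti : ∀ x y t, H y x t = -H x y t := fun x y t => by simp only [H]; ring
  have Hb : ∀ x y t, t.length ≤ n → |H x y t| ≤ 2 := by
    intro x y t ht
    have a1 := abs_le.1 (hg1 x y t ht)
    have a2 := abs_le.1 (hg1 y x t ht)
    have a3 := abs_le.1 (Er_abs hq hq1 x (hg1 x y))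
    have a4 := abs_le.1 (Er_abs hq hq1 x (hg1 y x))
    have a5 := abs_le.1 (Er_abs hq hq1 y (hg1 x y))
    have a6 := abs_le.1 (Er_abs hq hq1 y (hg1 y x))
    simp only [H]
    exact abs_le.2 ⟨by linarith, by linarith⟩
  have HE : ∀ x y, x ≠ y → η / 2 ≤ Er q x (H x y) := by
    intro x y h
    simp only [H]
    rw [Er_lin]
    linarith [hg2 x y h, hg2 y x h.symm]
  let win : (Fin m → List Bool) → (Fin n → Bool) → Prop := fun T x =>
    ∀ y, y ≠ x → 0 < ∑ j, H x y (T j)
  have wuniq : ∀ T x x', win T x → win T x' → x' = x := by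
    intro T x x' h h'
    by_contra hne
    have a1 := h x' hne
    have a2 := h' x (Ne.symm hne)
    simp only [Hanti x x', Finset.sum_neg_distrib] at a2
    linarith
  refine ⟨fun T => PMF.pure (if h : ∃ x, win T x then h.choose else fun _ => false), fun x => ?_⟩
  have w0 : ∀ masks : Fin m → Fin n → Bool, 0 ≤ ∏ j, maskWt q (masks j) :=
    fun masks => Finset.prod_nonneg fun j _ => maskWt_nonneg hq hq1 _
  have w1 : ∑ masks : Fin m → Fin n → Bool, ∏ j, maskWt q (masks j) = 1 := by
    have := Finset.prod_univ_sum (fun _ : Fin m => (univ : Finset (Fin n → Bool)))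
      (fun _ keep => maskWt q keep)
    rw [Fintype.piFinset_univ] at this
    rw [← this]; simp [sum_maskWt]
  have key : ∑ masks : Fin m → Fin n → Bool, (∏ j, maskWt q (masks j)) *
      (1 - ∑ y ∈ univ.erase x, if ∑ j, H x y (trace (masks j) x) ≤ 0 then 1 else 0) ≤
      success q (fun T => PMF.pure (if h : ∃ x, win T x then h.choose else fun _ => false)) x := by
    refine Finset.sum_le_sum fun masks _ => mul_le_mul_of_nonneg_left ?_ (w0 masks)
    have s0 : ∀ y ∈ univ.erase x,
        (0 : ℝ) ≤ if ∑ j, H x y (trace (masks j) x) ≤ 0 then 1 else 0 :=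
      fun y _ => by split_ifs <;> norm_num
    by_cases hw : win (fun j => trace (masks j) x) x
    · have hex : ∃ z, win (fun j => trace (masks j) x) z := ⟨x, hw⟩
      beta_reduce
      rw [dif_pos hex, wuniq _ _ _ hw hex.choose_spec, PMF.pure_apply, if_pos rfl]
      simp
    · simp only [win, not_forall, not_lt] at hw
      obtain ⟨y, hy, hy'⟩ := hw
      have := Finset.single_le_sum s0 (Finset.mem_erase.2 ⟨hy, Finset.mem_univ y⟩)
      rw [if_pos hy'] at this
      exact le_trans (by linarith) ENNReal.toReal_nonneg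
  refine le_trans ?_ key
  simp only [mul_sub, mul_one, Finset.sum_sub_distrib, w1, Finset.mul_sum]
  rw [Finset.sum_comm]
  have b1 := Finset.sum_le_card_nsmul (univ.erase x) _ _ fun y hy =>
    chernoff hq hq1 m x (H x y) hη hη1 (fun keep => Hb x y _ (trace_len _ _))
      (HE x y (Finset.mem_erase.1 hy).1.symm)
  have b2 : ((univ.erase x).card : ℝ) ≤ Real.exp n := by
    have : (univ.erase x).card ≤ 2 ^ n := (Finset.card_erase_le).trans (by simp)
    refine le_trans (by exact_mod_cast this : _ ≤ (2 : ℝ) ^ n) ?_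
    rw [← Real.exp_one_pow]
    exact pow_le_pow_left₀ zero_le_two (by linarith [Real.add_one_le_exp 1]) n
  rw [nsmul_eq_mul] at b1
  have b3 : Real.exp n * Real.exp (-(η ^ 2 / 64) * m) ≤ 1 / 3 := by
    rw [← Real.exp_add]
    refine (Real.exp_le_exp.2 (show _ ≤ -2 by linarith)).trans ?_
    rw [Real.exp_neg, inv_eq_one_div]
    exact one_div_le_one_div_of_le (by norm_num) (by linarith [Real.add_one_le_exp 2])
  linarith [mul_le_mul_of_nonneg_right b2 (Real.exp_pos (-(η ^ 2 / 64) * m)).le]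

lemma sep_of_adm {q K : ℝ} (hq : 0 < q) (hq1 : q < 1) (hK1 : q / (1 - q) ≤ K)
    (hK2 : 1 / K ≤ -Real.log q) {n h : ℕ} {B γ : ℝ} (hB : 0 < B) {Φ : List Bool → ℂ}
    (H : Adm K h B Φ) {x y : Fin n → Bool} (hγ : γ ≤ ‖Φ (List.ofFn x) - Φ (List.ofFn y)‖) :
    ∃ g : List Bool → ℝ, (∀ t, t.length ≤ n → |g t| ≤ 1) ∧
      γ / (B * (1 + n / (1 - q)) ^ h) ≤ Er q x g - Er q y g := by
  obtain ⟨f, hf, hf'⟩ := H.access hq hq1 hK1 hK2
  have hp : 0 < 1 - q := by linarith
  obtain ⟨R, hR⟩ : ∃ R : ℝ, R = B * (1 + n / (1 - q)) ^ h := ⟨_, rfl⟩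
  have hR0 : 0 < R := by rw [hR]; positivity
  obtain ⟨u, hu, hu'⟩ := Complex.exists_norm_eq_mul_self (Φ (List.ofFn x) - Φ (List.ofFn y))
  have hE : ∀ z : Fin n → Bool, Er q z (fun t => (u * f t).re / R) =
      (u * Φ (List.ofFn z)).re / R := by
    intro z
    rw [← hf, Ex_eq, Finset.mul_sum, Complex.re_sum, Finset.sum_div, Er]
    refine Finset.sum_congr rfl fun keep _ => ?_
    rw [mul_left_comm, Complex.re_ofReal_mul, mul_div_assoc]
  refine ⟨fun t => (u * f t).re / R, fun t ht => ?_, ?_⟩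
  · rw [abs_div, abs_of_pos hR0, div_le_one hR0]
    refine (Complex.abs_re_le_norm _).trans ?_
    rw [norm_mul, hu, one_mul, hR]
    refine (hf' t).trans ?_
    gcongr
  · rw [hE, hE, ← sub_div, ← Complex.sub_re, ← mul_sub, ← hu', Complex.ofReal_re, ← hR]
    exact div_le_div_of_nonneg_right hγ hR0.le

end Vale.Agent.P321
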