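import Mathlib
import Vale.Agent.P321.Iter
import Vale.Agent.P321.Sample

/-! The quasipolynomial upper bound. -/

namespace Vale.Agent.P321

lemma exists_level {n : ℕ} (hn : 2 ≤ n) :
    ∃ l : ℕ, n ≤ 2 ^ 2 ^ l ∧ (2 : ℝ) ^ l ≤ 6 * Real.log n := by
  refine ⟨Nat.log 2 (Nat.log 2 n + 1) + 1, ?_, ?_⟩
  · exact (Nat.lt_pow_succ_log_self (by norm_num) n).le.trans (Nat.pow_le_pow_right (by norm_num)
      (Nat.lt_pow_succ_log_self (by norm_num) _).le)
  · have h1 : 2 ^ Nat.log 2 (Nat.log 2 n + 1) ≤ Nat.log 2 n + 1 :=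
      Nat.pow_log_le_self 2 (by omega)
    have h2 : 2 ^ Nat.log 2 n ≤ n := Nat.pow_log_le_self 2 (by omega)
    have h3 : (Nat.log 2 n : ℝ) * Real.log 2 ≤ Real.log n := by
      rw [← Real.log_pow]
      exact Real.log_le_log (by positivity) (by exact_mod_cast h2)
    have h4 : Real.log 2 ≤ Real.log n := Real.log_le_log (by norm_num) (by exact_mod_cast hn)
    have h5 : (2 : ℝ) ^ Nat.log 2 (Nat.log 2 n + 1) ≤ Nat.log 2 n + 1 := by exact_mod_cast h1
    rw [pow_succ]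
    nlinarith [Real.log_two_gt_d9, (Nat.cast_nonneg (Nat.log 2 n) : (0 : ℝ) ≤ _)]

lemma gap_ar {K P u n p : ℝ} {l : ℕ} (hK : 1 ≤ K) (hp : 0 < p) (hp1 : p < 1)
    (hP : P = -Real.log p) (hn : 2 ≤ n) (hu : u = 6 * Real.log n) (hl : 2 ^ l ≤ u) :
    Real.exp (-((16000000 * K + 5 + 2 * P) * u ^ 52)) ≤
      Real.exp (-((5 * 10 ^ 14) ^ l * (4000 * (K * 4 ^ l * 4000) * Real.log (2 * n))) - 1) /
        (3 ^ 13 ^ l * (1 + n / p) ^ (13 ^ l + 1)) := by
  have h4 : Real.log 2 ≤ Real.log n := Real.log_le_log (by norm_num) hn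
  have hu1 : 1 ≤ u := by linarith [Real.log_two_gt_d9]
  have hP0 : 0 ≤ P := by rw [hP]; linarith [Real.log_nonpos hp.le hp1.le]
  have hpow : ∀ (c : ℝ) (k : ℕ), 0 ≤ c → c ≤ 2 ^ k → c ^ l ≤ u ^ k := fun c k h0 h =>
    (pow_le_pow_left₀ h0 h l).trans (by
      rw [← pow_mul, mul_comm, pow_mul]; exact pow_le_pow_left₀ (by positivity) hl k)
  have a1 := hpow (5 * 10 ^ 14) 49 (by norm_num) (by norm_num)
  have a2 := hpow 4 2 (by norm_num) (by norm_num)
  have a3 := hpow 13 4 (by norm_num) (by norm_num)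
  have a4 : Real.log (2 * n) ≤ u := by
    rw [Real.log_mul (by norm_num) (by linarith)]; linarith [Real.log_two_gt_d9]
  have a4' : 0 ≤ Real.log (2 * n) := Real.log_nonneg (by linarith)
  have a5 : (5 * 10 ^ 14) ^ l * (4000 * (K * 4 ^ l * 4000) * Real.log (2 * n)) ≤
      16000000 * K * u ^ 52 := by
    refine le_trans (b := u ^ 49 * (4000 * (K * u ^ 2 * 4000) * u)) ?_ (le_of_eq (by ring))
    gcongr
  have a6 : 1 + n / p ≤ Real.exp ((1 + P) * u) := by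
    have b1 : 1 + n / p ≤ 2 * n / p := by
      rw [le_div_iff₀ hp, add_mul, div_mul_cancel₀ _ hp.ne']; linarith
    refine b1.trans ?_
    rw [← Real.log_le_iff_le_exp (by positivity), Real.log_div (by positivity) hp.ne']
    nlinarith
  have a7 : (3 : ℝ) ≤ Real.exp 2 := by linarith [Real.add_one_le_exp 2]
  have a8 : (3 : ℝ) ^ 13 ^ l * (1 + n / p) ^ (13 ^ l + 1) ≤ Real.exp ((4 + 2 * P) * u ^ 52) := by
    refine (mul_le_mul (pow_le_pow_left₀ (by norm_num) a7 _) (pow_le_pow_left₀ (by positivity) a6 _)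
      (by positivity) (by positivity)).trans ?_
    rw [← Real.exp_nat_mul, ← Real.exp_nat_mul, ← Real.exp_add]
    apply Real.exp_le_exp.2
    push_cast
    have b1 : (1 : ℝ) ≤ 13 ^ l := one_le_pow₀ (by norm_num)
    have b2 : u ^ 4 ≤ u ^ 52 := pow_le_pow_right₀ hu1 (by norm_num)
    have b3 : u ^ 5 ≤ u ^ 52 := pow_le_pow_right₀ hu1 (by norm_num)
    have b4 : (13 ^ l + 1) * ((1 + P) * u) ≤ 2 * u ^ 4 * ((1 + P) * u) :=
      mul_le_mul_of_nonneg_right (by linarith) (by positivity)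
    have b5 : (1 + P) * u ^ 5 ≤ (1 + P) * u ^ 52 := mul_le_mul_of_nonneg_left b3 (by linarith)
    have b6 : 2 * u ^ 4 * ((1 + P) * u) = 2 * ((1 + P) * u ^ 5) := by ring
    linarith
  rw [le_div_iff₀ (by positivity)]
  refine (mul_le_mul_of_nonneg_left a8 (Real.exp_pos _).le).trans ?_
  rw [← Real.exp_add]
  apply Real.exp_le_exp.2
  have : 1 ≤ u ^ 52 := one_le_pow₀ hu1
  linarith

theorem upper {q : ℝ} (hq : 0 < q) (hq1 : q < 1) : ∃ C : ℝ, ∀ n : ℕ, 2 ≤ n →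
    ∃ m : ℕ, Achievable q n m ∧ (m : ℝ) ≤ Real.exp (C * Real.log n ^ 52) := by
  have hlq : 0 < -Real.log q := by linarith [Real.log_neg hq hq1]
  obtain ⟨K, hK, hK1, hK2⟩ : ∃ K : ℝ, 1 ≤ K ∧ q / (1 - q) ≤ K ∧ 1 / K ≤ -Real.log q := by
    refine ⟨max 1 (max (q / (1 - q)) (1 / -Real.log q)), le_max_left _ _,
      (le_max_left _ _).trans (le_max_right _ _), ?_⟩
    exact (one_div_le (lt_of_lt_of_le one_pos (le_max_left _ _)) hlq).2
      ((le_max_right _ _).trans (le_max_right _ _))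
  obtain ⟨P, hP⟩ : ∃ P : ℝ, P = -Real.log (1 - q) := ⟨_, rfl⟩
  have hP0 : 0 ≤ P := by
    rw [hP]; linarith [Real.log_nonpos (by linarith : 0 ≤ 1 - q) (by linarith)]
  refine ⟨(2 * (16000000 * K + 5 + 2 * P) + 130) * 6 ^ 52, fun n hn => ?_⟩
  obtain ⟨l, hl1, hl2⟩ := exists_level hn
  have hn2 : (2 : ℝ) ≤ n := by exact_mod_cast hn
  obtain ⟨u, hu⟩ : ∃ u : ℝ, u = 6 * Real.log n := ⟨_, rfl⟩
  have h4 : Real.log 2 ≤ Real.log n := Real.log_le_log (by norm_num) hn2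
  have hu1 : 1 ≤ u := by linarith [Real.log_two_gt_d9]
  have hu52 : u ≤ u ^ 52 := le_self_pow₀ hu1 (by norm_num)
  obtain ⟨D, hD⟩ : ∃ D : ℝ, D = (16000000 * K + 5 + 2 * P) * u ^ 52 := ⟨_, rfl⟩
  have hD0 : 0 ≤ D := by rw [hD]; positivity
  refine ⟨⌈64 * (n + 2) * Real.exp (2 * D)⌉₊, achievable_of_sep hq hq1 (η := Real.exp (-D))
    (Real.exp_pos _) (Real.exp_le_one_iff.2 (by linarith)) ?_ fun x y hxy => ?_, ?_⟩
  · refine le_trans (le_of_eq ?_) (mul_le_mul_of_nonneg_left (Nat.le_ceil _) (by positivity))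
    rw [mul_left_comm, ← Real.exp_nat_mul, ← Real.exp_add]
    simp
  · obtain ⟨Φ, hΦ, hγ⟩ := separate (List.length_ofFn (f := x)) (List.length_ofFn (f := y))
      (fun h => hxy (List.ofFn_injective h)) hK l hl1 le_rfl
    obtain ⟨g, hg, hg'⟩ := sep_of_adm hq hq1 hK1 hK2 (by positivity) hΦ hγ
    exact ⟨g, hg, le_trans (hD ▸ gap_ar hK (by linarith) (by linarith) hP hn2 hu (hu ▸ hl2)) hg'⟩
  · refine (Nat.ceil_lt_add_one (by positivity)).le.trans ?_
    have e1 : (2 * (16000000 * K + 5 + 2 * P) + 130) * 6 ^ 52 * Real.log n ^ 52 =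
        2 * D + 130 * u ^ 52 := by rw [hD, hu]; ring
    have e2 : 1 ≤ Real.exp (2 * D) := Real.one_le_exp (by linarith)
    have e3 : 130 * (n : ℝ) ≤ Real.exp (130 * u ^ 52) := by
      have b1 : Real.exp (129 + Real.log n) ≤ Real.exp (130 * u ^ 52) :=
        Real.exp_le_exp.2 (by linarith [Real.log_two_gt_d9])
      rw [Real.exp_add, Real.exp_log (by linarith)] at b1
      nlinarith [Real.add_one_le_exp 129]
    rw [e1, Real.exp_add]
    nlinarith [mul_le_mul_of_nonneg_left e3 (Real.exp_pos (2 * D)).le]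

end Vale.Agent.P321
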